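import Vale.Agent.P251.G.BrDeg

/-!
# P244: the topological shooting argument

`exists_zero_ball`: a continuous map of a closed ball (sup norm) which on the boundary is
linearly homotopic to the identity without zeros has a zero.
`shoot`: the exit time argument of Wazewski.
-/

open Set Filter Topology Metric

namespace Vale.Agent.P244Z

open Vale.Agent.P251.G

/-- no retraction -/
theorem exists_zero_ball {n : ℕ} {R : ℝ} (hR : 0 < R) {F : (Fin n → ℝ) → (Fin n → ℝ)}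
    (hF : ContinuousOn F (closedBall 0 R))
    (hb : ∀ a : Fin n → ℝ, ‖a‖ = R → ∀ s ∈ Icc (0 : ℝ) 1, (1 - s) • a + s • F a ≠ 0) :
    ∃ a ∈ closedBall (0 : Fin n → ℝ) R, F a = 0 := by
  by_contra hcon
  push Not at hcon
  have hcl : closure (ball (0 : Fin n → ℝ) R) = closedBall 0 R := closure_ball 0 hR.ne'
  have hfr : frontier (ball (0 : Fin n → ℝ) R) = sphere 0 R := frontier_ball 0 hR.ne'
  have h1 : degR (fun x : Fin n → ℝ => x - 0) (ball 0 R) = 1 :=
    degR_id_sub isBounded_ball isOpen_ball (mem_ball_self hR)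
  have h2 : degR F (ball 0 R) = 0 :=
    degR_empty_zero isBounded_ball isOpen_ball (by rw [hcl]; exact hF) (by rw [hcl]; exact hcon)
  have h3 : degR (fun x : Fin n → ℝ => x - 0) (ball 0 R) = degR F (ball 0 R) := by
    refine degR_homotopy isOpen_ball isBounded_ball (by fun_prop) (by rw [hcl]; exact hF) ?_
    intro x hx t ht
    rw [hfr, mem_sphere_zero_iff_norm] at hx
    simpa using hb x hx t ht
  rw [h1, h2] at h3
  exact one_ne_zero h3

/-- the boundary condition follows from `‖F a - a‖ < ‖a‖` -/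
theorem seg_ne_zero_of_close {n : ℕ} {a y : Fin n → ℝ} (h : ‖y - a‖ < ‖a‖) :
    ∀ s ∈ Icc (0 : ℝ) 1, (1 - s) • a + s • y ≠ 0 := by
  intro s hs h0
  have h1 : a = -(s • (y - a)) := by
    have : (1 - s) • a + s • y = a + s • (y - a) := by
      rw [sub_smul, one_smul, smul_sub]; abel
    rw [this] at h0
    exact eq_neg_of_add_eq_zero_left h0
  have h2 : ‖a‖ ≤ ‖y - a‖ := by
    calc ‖a‖ = ‖s • (y - a)‖ := by rw [← norm_neg (s • (y - a)), ← h1]
      _ = s * ‖y - a‖ := by rw [norm_smul, Real.norm_eq_abs, abs_of_nonneg hs.1]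
      _ ≤ 1 * ‖y - a‖ := mul_le_mul_of_nonneg_right hs.2 (norm_nonneg _)
      _ = ‖y - a‖ := one_mul _
  linarith

/-- the boundary condition follows from positivity of the scalar product -/
theorem seg_ne_zero_of_inner {n : ℕ} {a y : Fin n → ℝ} (w : Fin n → ℝ) (hw : ∀ i, 0 < w i)
    (ha : a ≠ 0) (h : 0 < ∑ i, w i * (a i * y i)) :
    ∀ s ∈ Icc (0 : ℝ) 1, (1 - s) • a + s • y ≠ 0 := by
  intro s hs h0
  have h1 : ∑ i, w i * (a i * ((1 - s) • a + s • y) i) = 0 := by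
    rw [h0]; simp
  have h2 : ∑ i, w i * (a i * ((1 - s) • a + s • y) i)
      = (1 - s) * ∑ i, w i * (a i * a i) + s * ∑ i, w i * (a i * y i) := by
    rw [Finset.mul_sum, Finset.mul_sum, ← Finset.sum_add_distrib]
    refine Finset.sum_congr rfl fun i _ => ?_
    simp only [Pi.add_apply, Pi.smul_apply, smul_eq_mul]
    ring
  have h3 : 0 < ∑ i, w i * (a i * a i) := by
    obtain ⟨i, hi⟩ := Function.ne_iff.1 ha
    refine Finset.sum_pos' (fun j _ => mul_nonneg (hw j).le (mul_self_nonneg _))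
      ⟨i, Finset.mem_univ _, mul_pos (hw i) (mul_self_pos.2 hi)⟩
  rw [h2] at h1
  rcases eq_or_lt_of_le hs.1 with h4 | h4
  · rw [← h4] at h1
    simp at h1
    linarith
  · have := mul_pos h4 h
    have := mul_nonneg (sub_nonneg.2 hs.2) h3.le
    linarith

/-- The exit time argument.  `U` is the set of pairs (parameter, time) where the solution exists,
`P` the vector of the unstable coordinates, `g (P ·) < 1` the trap. -/
theorem shoot {n : ℕ} {R : ℝ} (hR : 0 < R) (U : Set ((Fin n → ℝ) × ℝ))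
    (P : (Fin n → ℝ) × ℝ → (Fin n → ℝ)) (g : (Fin n → ℝ) → ℝ) (hg : Continuous g) (g0 : g 0 < 1)
    (h0 : ∀ a ∈ closedBall (0 : Fin n → ℝ) R, (a, (0 : ℝ)) ∈ U)
    (hdown : ∀ a ∈ closedBall (0 : Fin n → ℝ) R, ∀ t, (a, t) ∈ U → ∀ s ∈ Icc 0 t, (a, s) ∈ U)
    (hopen : ∀ a ∈ closedBall (0 : Fin n → ℝ) R, ∀ t, 0 ≤ t → (a, t) ∈ U →
      U ∈ 𝓝[closedBall (0 : Fin n → ℝ) R ×ˢ Ici 0] (a, t))
    (hP : ContinuousOn P (U ∩ closedBall (0 : Fin n → ℝ) R ×ˢ Ici 0))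
    (hbd : ∀ a : Fin n → ℝ, ‖a‖ = R → 1 ≤ g (P (a, 0)) ∧
      ∀ s ∈ Icc (0 : ℝ) 1, (1 - s) • a + s • P (a, 0) ≠ 0)
    (hexit : ∀ a ∈ closedBall (0 : Fin n → ℝ) R, ∀ t, 0 ≤ t → (a, t) ∈ U →
      (∀ s ∈ Ico 0 t, g (P (a, s)) < 1) → g (P (a, t)) = 1 →
      ∀ ε > 0, ∃ t' ∈ Ioo t (t + ε), (a, t') ∈ U ∧ 1 < g (P (a, t'))) :
    ∃ a ∈ closedBall (0 : Fin n → ℝ) R, ∀ t, 0 ≤ t → (a, t) ∈ U → g (P (a, t)) < 1 := by
  by_contra hcon
  push Not at hcon
  set K := closedBall (0 : Fin n → ℝ) R with hK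
  set D := K ×ˢ Ici (0 : ℝ) with hD
  -- continuity within `D` at points of `U`
  have hcw : ∀ a ∈ K, ∀ t, 0 ≤ t → (a, t) ∈ U → ContinuousWithinAt P D (a, t) := by
    intro a ha t ht hU
    have h1 := hP (a, t) ⟨hU, ha, ht⟩
    refine h1.mono_of_mem_nhdsWithin ?_
    exact inter_mem (hopen a ha t ht hU) self_mem_nhdsWithin
  let E : (Fin n → ℝ) → Set ℝ := fun a => {t | 0 ≤ t ∧ (a, t) ∈ U ∧ 1 ≤ g (P (a, t))}
  have hEne : ∀ a ∈ K, (E a).Nonempty := fun a ha => by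
    obtain ⟨t, h1, h2, h3⟩ := hcon a ha
    exact ⟨t, h1, h2, h3⟩
  have hEbd : ∀ a, BddBelow (E a) := fun a => ⟨0, fun t ht => ht.1⟩
  let T : (Fin n → ℝ) → ℝ := fun a => sInf (E a)
  have hT0 : ∀ a ∈ K, 0 ≤ T a := fun a ha => le_csInf (hEne a ha) fun t ht => ht.1
  have hTle : ∀ a, ∀ t ∈ E a, T a ≤ t := fun a t ht => csInf_le (hEbd a) ht
  have hTU : ∀ a ∈ K, (a, T a) ∈ U := fun a ha => by
    obtain ⟨t, ht⟩ := hEne a ha
    exact hdown a ha t ht.2.1 _ ⟨hT0 a ha, hTle a t ht⟩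
  have hlt : ∀ a ∈ K, ∀ s ∈ Ico 0 (T a), g (P (a, s)) < 1 := fun a ha s hs => by
    by_contra h
    push Not at h
    have h1 : (a, s) ∈ U := hdown a ha _ (hTU a ha) s ⟨hs.1, hs.2.le⟩
    exact absurd (hTle a s ⟨hs.1, h1, h⟩) (not_le.2 hs.2)
  -- the set where the trap holds strictly is a neighbourhood
  have hnb_lt : ∀ a ∈ K, ∀ t, 0 ≤ t → (a, t) ∈ U → g (P (a, t)) < 1 →
      {p | p ∈ U ∧ g (P p) < 1} ∈ 𝓝[D] (a, t) := by
    intro a ha t ht hU h
    have h1 : ContinuousWithinAt (fun p => g (P p)) D (a, t) :=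
      hg.continuousAt.comp_continuousWithinAt (hcw a ha t ht hU)
    exact inter_mem (hopen a ha t ht hU) (h1.eventually (gt_mem_nhds h))
  have hnb_gt : ∀ a ∈ K, ∀ t, 0 ≤ t → (a, t) ∈ U → 1 < g (P (a, t)) →
      {p | p ∈ U ∧ 1 < g (P p)} ∈ 𝓝[D] (a, t) := by
    intro a ha t ht hU h
    have h1 : ContinuousWithinAt (fun p => g (P p)) D (a, t) :=
      hg.continuousAt.comp_continuousWithinAt (hcw a ha t ht hU)
    exact inter_mem (hopen a ha t ht hU) (h1.eventually (lt_mem_nhds h))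
  have hge : ∀ a ∈ K, 1 ≤ g (P (a, T a)) := by
    intro a ha
    by_contra h
    push Not at h
    have h1 := hnb_lt a ha _ (hT0 a ha) (hTU a ha) h
    have h2 : Tendsto (fun t : ℝ => (a, t)) (𝓝[Ici 0] (T a)) (𝓝[D] (a, T a)) := by
      refine tendsto_nhdsWithin_iff.2 ⟨?_, ?_⟩
      · exact ((continuous_const.prodMk continuous_id).tendsto _).mono_left nhdsWithin_le_nhds
      · filter_upwards [self_mem_nhdsWithin] with t ht using ⟨ha, ht⟩
    have h3 := h2.eventually h1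
    rw [eventually_nhdsWithin_iff, Metric.eventually_nhds_iff] at h3
    obtain ⟨ε, hε, h4⟩ := h3
    obtain ⟨t, ht, h5⟩ := exists_lt_of_csInf_lt (hEne a ha) (lt_add_of_pos_right (T a) hε)
    have h6 := hTle a t ht
    have h7 := h4 (y := t) (by rw [Real.dist_eq, abs_lt]; constructor <;> linarith) ht.1
    exact absurd h7.2 (not_lt.2 ht.2.2)
  -- slices in the parameter
  have hsl : ∀ a ∈ K, ∀ t, 0 ≤ t →
      Tendsto (fun b : Fin n → ℝ => (b, t)) (𝓝[K] a) (𝓝[D] (a, t)) := by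
    intro a ha t ht
    refine tendsto_nhdsWithin_iff.2 ⟨?_, ?_⟩
    · exact ((continuous_id.prodMk continuous_const).tendsto _).mono_left nhdsWithin_le_nhds
    · filter_upwards [self_mem_nhdsWithin] with b hb using ⟨hb, ht⟩
  have husc : ∀ a ∈ K, ∀ c, T a < c → ∀ᶠ b in 𝓝[K] a, T b < c := by
    intro a ha c hc
    have key : ∃ t', 0 ≤ t' ∧ t' < c ∧ (a, t') ∈ U ∧ 1 < g (P (a, t')) := by
      rcases eq_or_lt_of_le (hge a ha) with h | h
      · obtain ⟨t', h1, h2, h3⟩ := hexit a ha _ (hT0 a ha) (hTU a ha) (hlt a ha) h.symm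
          (c - T a) (by linarith)
        exact ⟨t', (hT0 a ha).trans h1.1.le, by linarith [h1.2], h2, h3⟩
      · exact ⟨T a, hT0 a ha, hc, hTU a ha, h⟩
    obtain ⟨t', h1, h2, h3, h4⟩ := key
    filter_upwards [(hsl a ha t' h1).eventually (hnb_gt a ha t' h1 h3 h4)] with b hb
    exact (hTle b t' ⟨h1, hb.1, hb.2.le⟩).trans_lt h2
  have hlsc : ∀ a ∈ K, ∀ c, c < T a → ∀ᶠ b in 𝓝[K] a, c < T b := by
    intro a ha c hc
    by_cases hc0 : c < 0
    · filter_upwards [self_mem_nhdsWithin] with b hb using hc0.trans_le (hT0 b hb)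
    push Not at hc0
    obtain ⟨c', hc1, hc2⟩ := exists_between hc
    have h1 : ∀ᶠ b in 𝓝[K] a, ∀ s ∈ Icc 0 c', g (P (b, s)) < 1 := by
      have h2 : ∀ s ∈ Icc (0 : ℝ) c', ∀ᶠ z : (Fin n → ℝ) × ℝ in 𝓝[K] a ×ˢ 𝓝 s,
          0 ≤ z.2 → g (P z) < 1 := by
        intro s hs
        have h3 := hnb_lt a ha s hs.1
          (hdown a ha _ (hTU a ha) s ⟨hs.1, hs.2.trans hc2.le⟩)
          (hlt a ha s ⟨hs.1, hs.2.trans_lt hc2⟩)
        rw [hD, nhdsWithin_prod_eq, mem_prod_iff] at h3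
        obtain ⟨A, hA, B, hB, hAB⟩ := h3
        rw [mem_nhdsWithin] at hB
        obtain ⟨B', hB1, hB2, hB3⟩ := hB
        filter_upwards [prod_mem_prod hA (hB1.mem_nhds hB2)] with z hz h0z
        exact (hAB (a := z) ⟨hz.1, hB3 ⟨hz.2, h0z⟩⟩).2
      have h4 := isCompact_Icc.eventually_forall_of_forall_eventually
        (x₀ := (⟨a, ha⟩ : K)) (P := fun (b : K) (s : ℝ) => 0 ≤ s → g (P (b.1, s)) < 1)
        (K := Icc (0 : ℝ) c') (by
          intro s hs
          have h5 : Tendsto (fun z : K × ℝ => ((z.1 : Fin n → ℝ), z.2)) (𝓝 (⟨a, ha⟩, s))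
              (𝓝[K] a ×ˢ 𝓝 s) := by
            rw [nhds_prod_eq]
            refine Tendsto.prodMap (f := fun b : K => (b : Fin n → ℝ)) (g := id) ?_ tendsto_id
            exact tendsto_nhdsWithin_iff.2 ⟨continuous_subtype_val.tendsto _,
              Eventually.of_forall fun b => b.2⟩
          exact h5.eventually (h2 s hs))
      rw [nhdsWithin_eq_map_subtype_coe ha, eventually_map]
      filter_upwards [h4] with b hb s hs using hb s hs hs.1
    filter_upwards [h1, self_mem_nhdsWithin] with b hb hbK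
    by_contra h
    push Not at h
    have h5 := hb (T b) ⟨hT0 b hbK, h.trans hc1.le⟩
    exact absurd (hge b hbK) (not_le.2 h5)
  have hTc : ContinuousOn T K := fun a ha =>
    tendsto_order.2 ⟨fun c hc => hlsc a ha c hc, fun c hc => husc a ha c hc⟩
  have hF : ContinuousOn (fun a => P (a, T a)) K := by
    intro a ha
    refine ContinuousWithinAt.comp (f := fun a => (a, T a)) (hcw a ha _ (hT0 a ha) (hTU a ha))
      (continuousWithinAt_id.prodMk (hTc a ha)) ?_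
    intro b hb
    exact ⟨hb, hT0 b hb⟩
  obtain ⟨a, ha, h1⟩ := exists_zero_ball hR hF (by
    intro a ha
    have haK : a ∈ K := mem_closedBall_zero_iff.2 ha.le
    have hT : T a = 0 :=
      le_antisymm (hTle a 0 ⟨le_rfl, h0 a haK, (hbd a ha).1⟩) (hT0 a haK)
    simp only [hT]
    exact (hbd a ha).2)
  have h2 := hge a ha
  rw [h1] at h2
  linarith

/-- a positive right derivative gives an immediate exit -/
theorem exit_of_deriv {h : ℝ → ℝ} {t d : ℝ} (hd : HasDerivWithinAt h d (Ici t) t) (d0 : 0 < d)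
    {J : Set ℝ} (hJ : ∀ᶠ s in 𝓝[>] t, s ∈ J) :
    ∀ ε > 0, ∃ t' ∈ Ioo t (t + ε), t' ∈ J ∧ h t < h t' := by
  intro ε hε
  have h1 : Tendsto (slope h t) (𝓝[Ici t \ {t}] t) (𝓝 d) := hasDerivWithinAt_iff_tendsto_slope.1 hd
  rw [Ici_sdiff_left] at h1
  have h2 : ∀ᶠ s in 𝓝[>] t, 0 < slope h t s := h1.eventually (lt_mem_nhds d0)
  have h3 : ∀ᶠ s in 𝓝[>] t, s ∈ Ioo t (t + ε) := Ioo_mem_nhdsGT (by linarith)
  obtain ⟨s, hs1, hs2, hs3⟩ := (h2.and (h3.and hJ)).exists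
  refine ⟨s, hs2, hs3, ?_⟩
  rw [slope_def_field] at hs1
  have h4 : 0 < s - t := by linarith [hs2.1]
  have := (div_pos_iff_of_pos_right h4).1 hs1
  linarith

/-- continuity induction on a time interval -/
theorem time_induction {B : ℝ → Prop} {T : ℝ}
    (hcl : ∀ t ∈ Icc 0 T, (∀ s ∈ Ico 0 t, B s) → B t)
    (hop : ∀ t ∈ Ico 0 T, (∀ s ∈ Icc 0 t, B s) → ∀ᶠ s in 𝓝[>] t, B s) :
    ∀ t ∈ Icc 0 T, B t := by
  by_contra hcon
  push Not at hcon
  obtain ⟨t0, ht0, hB⟩ := hcon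
  let E : Set ℝ := {t | t ∈ Icc 0 T ∧ ¬ B t}
  have hne : E.Nonempty := ⟨t0, ht0, hB⟩
  have hbd : BddBelow E := ⟨0, fun t ht => ht.1.1⟩
  have h0 : 0 ≤ sInf E := le_csInf hne fun t ht => ht.1.1
  have h1 : sInf E ≤ T := (csInf_le hbd ⟨ht0, hB⟩).trans ht0.2
  have h2 : ∀ s ∈ Ico 0 (sInf E), B s := fun s hs => by
    by_contra h
    exact absurd (csInf_le hbd ⟨⟨hs.1, hs.2.le.trans h1⟩, h⟩) (not_le.2 hs.2)
  have h3 : B (sInf E) := hcl _ ⟨h0, h1⟩ h2
  have h4 : ∀ s ∈ Icc 0 (sInf E), B s := fun s hs => by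
    rcases eq_or_lt_of_le hs.2 with h | h
    · rw [h]; exact h3
    · exact h2 s ⟨hs.1, h⟩
  have h5 : sInf E < T := by
    rcases eq_or_lt_of_le h1 with h | h
    · exact absurd (h4 t0 ⟨ht0.1, h ▸ ht0.2⟩) hB
    · exact h
  have h6 := hop _ ⟨h0, h5⟩ h4
  rw [eventually_nhdsWithin_iff, Metric.eventually_nhds_iff] at h6
  obtain ⟨ε, hε, h7⟩ := h6
  obtain ⟨t, ht, h8⟩ := exists_lt_of_csInf_lt hne (lt_add_of_pos_right (sInf E) hε)
  have h9 := csInf_le hbd ht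
  rcases eq_or_lt_of_le h9 with h | h
  · exact ht.2 (h ▸ h3)
  · exact ht.2 (h7 (y := t) (by rw [Real.dist_eq, abs_lt]; constructor <;> linarith) h)

end Vale.Agent.P244Z
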