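import Vale.Agent.P244Z.QEvol
import Vale.Agent.P244Z.Shoot

/-!
# P244: the continuity argument in time
-/

open Set Real Filter Topology
open scoped ContDiff

namespace Vale.Agent.P244Z.Q

variable {S : Data} {J : Set ℝ} {K : Consts} {T : ℝ}

/-- The improved bounds on `[0, t1]`. -/
def Good (K : Consts) (S : Data) (t1 : ℝ) : Prop :=
  (∀ p ∈ strip t1, Bds K S 1 p ∧ Geo0 K S p ∧ (S.φ p ≤ K.δ → Trap K S p) ∧
    (S.X p ≤ 1 → S.E p ≤ 2 * K.am * S.F1 K p)) ∧ (∀ t ∈ Icc 0 t1, Mono K S t) ∧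
  ∀ t ∈ Ioc 0 t1, (K.ε * K.am / 2) ^ 2 ≤ S.Eu K t → ∃ e' > 0, HasDerivAt (S.Eu K) e' t

theorem nonneg_closed_θ {f : ℝ × ℝ → ℝ} (hf : ContinuousOn f (cstrip T)) {t : ℝ}
    (ht : t ∈ Icc 0 T) (h : ∀ θ ∈ Ioo 0 π, 0 ≤ f (θ, t)) : ∀ θ ∈ Icc 0 π, 0 ≤ f (θ, t) := by
  intro θ hθ
  have hc : ContinuousOn (fun x : ℝ => f (x, t)) (Icc 0 π) :=
    hf.comp (by fun_prop) fun x hx => ⟨hx, ht⟩
  have hcl : θ ∈ closure (Ioo 0 π) := by rw [closure_Ioo pi_pos.ne]; exact hθ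
  exact ContinuousWithinAt.closure_le hcl continuousWithinAt_const
    ((hc θ hθ).mono Ioo_subset_Icc_self) h

theorem nonneg_closed_t {f : ℝ × ℝ → ℝ} (hf : ContinuousOn f (cstrip T)) {t θ : ℝ}
    (ht : t ∈ Ioc 0 T) (hθ : θ ∈ Icc 0 π) (h : ∀ s ∈ Ico 0 t, 0 ≤ f (θ, s)) : 0 ≤ f (θ, t) := by
  have hc : ContinuousOn (fun s : ℝ => f (θ, s)) (Icc 0 T) :=
    hf.comp (by fun_prop) fun s hs => ⟨hθ, hs⟩
  have hcl : t ∈ closure (Ico 0 t) := by rw [closure_Ico ht.1.ne]; exact ⟨ht.1.le, le_rfl⟩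
  exact ContinuousWithinAt.closure_le hcl continuousWithinAt_const
    ((hc t ⟨ht.1.le, ht.2⟩).mono fun s hs => ⟨hs.1, hs.2.le.trans ht.2⟩) h

theorem pos_tube {f : ℝ × ℝ → ℝ} (hf : ContinuousOn f (cstrip T)) {t : ℝ} (ht : t ∈ Ico 0 T)
    (h : ∀ θ ∈ Icc 0 π, 0 < f (θ, t)) : ∀ᶠ s in 𝓝[>] t, ∀ θ ∈ Icc 0 π, 0 < f (θ, s) := by
  have h1 : ∀ᶠ s in 𝓝 t, ∀ θ ∈ Icc 0 π, (θ, s) ∈ cstrip T → 0 < f (θ, s) := by
    refine isCompact_Icc.eventually_forall_of_forall_eventually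
      (P := fun s θ => (θ, s) ∈ cstrip T → 0 < f (θ, s)) fun θ hθ => ?_
    have h2 : ∀ᶠ p in 𝓝[cstrip T] (θ, t), 0 < f p :=
      (hf (θ, t) ⟨hθ, ht.1, ht.2.le⟩).eventually (lt_mem_nhds (h θ hθ))
    rw [eventually_nhdsWithin_iff] at h2
    exact (continuous_swap.tendsto (t, θ)).eventually h2
  filter_upwards [mem_nhdsWithin_of_mem_nhds h1, Ioo_mem_nhdsGT ht.2] with s h1 h2 θ hθ
  exact h1 θ hθ ⟨hθ, ht.1.trans h2.1.le, h2.2.le⟩

/-- the left hand sides of `Bds` -/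
noncomputable def bdL (K : Consts) (S : Data) : Fin 8 → ℝ × ℝ → ℝ :=
  ![fun p => |S.U1 p|, fun p => |S.U2 p|, fun p => |S.R p|, fun p => |S.E p|, fun p => -S.E p,
    fun p => K.am * S.σ p ^ 3, fun p => |S.P p| - 1, fun p => |S.A p|]

/-- the weights of `Bds` -/
noncomputable def bdW (K : Consts) (S : Data) : Fin 8 → ℝ × ℝ → ℝ :=
  ![fun p => K.M * (S.G1 p + S.G2 p), fun p => K.M * (S.G1 p + S.G2 p), fun _ => K.N,
    fun p => 2 * K.am * (S.F1 K p + S.F2 K p), fun _ => 1 / 20, fun p => 2 * S.ρ p ^ 2,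
    fun _ => 1, fun _ => 1]

theorem bds_iff {k : ℝ} {p : ℝ × ℝ} : Bds K S k p ↔ ∀ i, bdL K S i p ≤ k * bdW K S i p := by
  constructor
  · intro h i
    have h1 := h.U1; have h2 := h.U2; have h3 := h.R; have h4 := h.E; have h5 := h.Elow
    have h6 := h.rho; have h7 := h.P; have h8 := h.A
    fin_cases i <;> simp only [bdL, bdW, Fin.reduceFinMk, Matrix.cons_val] <;> linarith
  · intro h
    have h1 := h 0; have h2 := h 1; have h3 := h 2; have h4 := h 3; have h5 := h 4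
    have h6 := h 5; have h7 := h 6; have h8 := h 7
    simp only [bdL, bdW, Matrix.cons_val] at h1 h2 h3 h4 h5 h6 h7 h8
    exact ⟨by linarith, by linarith, by linarith, by linarith, by linarith, by linarith,
      by linarith, by linarith⟩

theorem Sol.σ_pos (hS : Sol S J) (hT : T ∈ J) (hσ : 0 < S.sg T) {p : ℝ × ℝ} (hp : p ∈ cstrip T) :
    0 < S.σ p :=
  lt_of_lt_of_le hσ (hS.sg_strictAnti.antitoneOn (hS.mem_of_cstrip hT hp) hT hp.2.2)

theorem bdW_pos (hK : K.OK) (hq : 2 ≤ S.q) {p : ℝ × ℝ} (hσ : 0 < S.σ p) (i : Fin 8) :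
    0 < bdW K S i p := by
  have hρ := S.ρ_pos hq p
  have hM : 0 < K.M := lt_of_lt_of_le one_pos hK.M_ge
  have hN : 0 < K.N := lt_of_lt_of_le (by norm_num) hK.N_ge
  have ha := hK.am_pos
  fin_cases i <;> simp only [bdW, Fin.reduceFinMk, Matrix.cons_val, Data.G1, Data.G2, Data.F1,
    Data.F2] <;> positivity

theorem bdL_cont (hS : Sol S J) (hq : 2 ≤ S.q) (hT : T ∈ J) (i : Fin 8) :
    ContinuousOn (bdL K S i) (cstrip T) := by
  fin_cases i <;> simp only [bdL, Fin.reduceFinMk, Matrix.cons_val]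
  · exact (hS.cont hT hS.sm_U1).abs
  · exact (hS.cont hT hS.sm_U2).abs
  · exact (hS.cont hT hS.sm_R).abs
  · exact (hS.cont hT (hS.sm_E hq)).abs
  · exact (hS.cont hT (hS.sm_E hq)).neg
  · exact continuousOn_const.mul ((hS.cont hT hS.sm_σ).pow 3)
  · exact (hS.cont hT hS.sm_P).abs.sub continuousOn_const
  · exact (hS.cont hT hS.sm_A).abs

theorem bdW_cont (hS : Sol S J) (hq : 2 ≤ S.q) (hT : T ∈ J) (hσ : 0 < S.sg T) (i : Fin 8) :
    ContinuousOn (bdW K S i) (cstrip T) := by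
  have h1 : ∀ g : ℝ, ContinuousOn (fun y => S.ρ y ^ g) (cstrip T) := fun g =>
    (hS.cont hT hS.sm_ρ).rpow_const fun p _ => Or.inl (S.ρ_pos hq p).ne'
  have h2 : ∀ k : ℝ, ContinuousOn (fun y => S.σ y ^ k) (cstrip T) := fun k =>
    (hS.cont hT hS.sm_σ).rpow_const fun p hp => Or.inl (hS.σ_pos hT hσ hp).ne'
  fin_cases i <;> simp only [bdW, Fin.reduceFinMk, Matrix.cons_val]
  · exact continuousOn_const.mul (((h2 _).mul (h1 _)).add (h1 _))
  · exact continuousOn_const.mul (((h2 _).mul (h1 _)).add (h1 _))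
  · exact continuousOn_const
  · exact continuousOn_const.mul (((h2 _).mul (h1 _)).add (h1 _))
  · exact continuousOn_const
  · exact continuousOn_const.mul ((hS.cont hT hS.sm_ρ).pow 2)
  · exact continuousOn_const
  · exact continuousOn_const

/-- The improved bounds hold as long as `σ > 0` and the unstable modes stay in the box. -/
theorem good_of_box {d : Fin 3 → ℝ} (hK : K.OK) (hq : S.q = K.q) (hS : Sol S J) (hI : Init K S d)
    (h0 : ∀ θ ∈ Ioo 0 π, Bds K S 1 (θ, 0)) (himp : ∀ t1, Ctx K S J t1 d → Good K S t1)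
    (hT : T ∈ J) (hσ : 0 < S.sg T) (hbox : ∀ t ∈ Icc 0 T, S.Eu K t ≤ (3 * K.ε * K.am) ^ 2) :
    Good K S T := by
  have hq2 : 2 ≤ S.q := by rw [hq]; exact le_trans (by norm_num) hK.q_ge
  have hctx : ∀ t ∈ Icc 0 T, (∀ s ∈ Icc 0 t, ∀ θ ∈ Ioo 0 π, Bds K S 2 (θ, s)) →
      Ctx K S J t d := by
    intro t ht h
    have htJ : t ∈ J := hS.time.down T hT ht
    exact ⟨⟨hK, hq, hS, htJ, hS.σ_pos (p := (0, t)) hT hσ ⟨⟨le_rfl, pi_pos.le⟩, ht⟩,
      fun p hp => h p.2 hp.2 p.1 hp.1, fun s hs => hbox s ⟨hs.1, hs.2.trans ht.2⟩⟩, hI,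
      fun p hp h0 => hS.evol hq2 hp.1 (hS.mem_of_strip htJ hp) h0⟩
  have key : ∀ t ∈ Icc 0 T, ∀ θ ∈ Ioo 0 π, Bds K S 2 (θ, t) := by
    refine time_induction (B := fun t => ∀ θ ∈ Ioo 0 π, Bds K S 2 (θ, t)) ?_ ?_
    · intro t ht h θ hθ
      rw [bds_iff]
      intro i
      rcases ht.1.eq_or_lt with rfl | h1
      · have h2 := bds_iff.1 (h0 θ hθ) i
        have h3 := bdW_pos hK hq2 (hS.σ_pos (p := (θ, 0)) hT hσ ⟨Ioo_subset_Icc_self hθ, ht⟩) i
        linarith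
      · have := nonneg_closed_t (f := fun p => 2 * bdW K S i p - bdL K S i p)
          ((continuousOn_const.mul (bdW_cont hS hq2 hT hσ i)).sub (bdL_cont hS hq2 hT i))
          ⟨h1, ht.2⟩ (Ioo_subset_Icc_self hθ) fun s hs => sub_nonneg.2 (bds_iff.1 (h s hs θ hθ) i)
        linarith
    · intro t ht h
      have hg := (himp t (hctx t (Ico_subset_Icc_self ht) h)).1
      have h1 : ∀ i, ∀ᶠ s in 𝓝[>] t, ∀ θ ∈ Icc 0 π,
          0 < 2 * bdW K S i (θ, s) - bdL K S i (θ, s) := by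
        intro i
        refine pos_tube (f := fun p => 2 * bdW K S i p - bdL K S i p)
          ((continuousOn_const.mul (bdW_cont hS hq2 hT hσ i)).sub (bdL_cont hS hq2 hT i)) ht ?_
        intro θ hθ
        have h2 := nonneg_closed_θ (f := fun p => 1 * bdW K S i p - bdL K S i p)
          ((continuousOn_const.mul (bdW_cont hS hq2 hT hσ i)).sub (bdL_cont hS hq2 hT i))
          (Ico_subset_Icc_self ht)
          (fun x hx => sub_nonneg.2 (bds_iff.1 (hg (x, t) ⟨hx, ht.1, le_rfl⟩).1 i)) θ hθ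
        have h3 := bdW_pos hK hq2
          (hS.σ_pos (p := (θ, t)) hT hσ ⟨hθ, Ico_subset_Icc_self ht⟩) i
        linarith
      filter_upwards [eventually_all.2 h1] with s hs θ hθ
      exact bds_iff.2 fun i => (sub_pos.1 (hs i θ (Ioo_subset_Icc_self hθ))).le
  exact himp T (hctx T ⟨hS.time.nonneg T hT, le_rfl⟩ fun s hs => key s hs)

end Vale.Agent.P244Z.Q
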