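import Vale.Agent.P244Z.QJets

/-!
# P244, large `q` design: steps 0, 1, 2 of the a priori estimates
-/

open Set Real Filter Topology
open scoped ContDiff

namespace Vale.Agent.P244Z.Q

variable {S : Data} {J : Set ℝ} {K : Consts} {t1 : ℝ} {p : ℝ × ℝ} {d : Fin 3 → ℝ}

/-! ## Consequences of the standing hypotheses -/

theorem Ctx.q_ge (h : Ctx K S J t1 d) : 10000 ≤ S.q := h.boot.q_eq ▸ h.boot.ok.q_ge

theorem Ctx.q_geR (h : Ctx K S J t1 d) : (10000 : ℝ) ≤ (S.q : ℝ) := by exact_mod_cast h.q_ge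

theorem Ctx.qK (h : Ctx K S J t1 d) : (K.q : ℝ) = (S.q : ℝ) := by rw [h.boot.q_eq]

theorem Ctx.memJ (h : Ctx K S J t1 d) {t : ℝ} (ht : t ∈ Icc 0 t1) : t ∈ J :=
  h.boot.sol.time.down t1 h.boot.mem ht

theorem Ctx.alg (h : Ctx K S J t1 d) (hp : p ∈ strip t1) : Alg S p :=
  h.boot.sol.alg (le_trans (by norm_num) h.q_ge) hp.1 (h.memJ hp.2)

theorem Ctx.cont (h : Ctx K S J t1 d) {F : ℝ × ℝ → ℝ} (hF : ContDiffOn ℝ ∞ F (univ ×ˢ J)) :
    ContinuousOn F (cstrip t1) :=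
  hF.continuousOn.mono fun _ hp => ⟨mem_univ _, h.memJ hp.2⟩

theorem Ctx.t1_nonneg (h : Ctx K S J t1 d) : 0 ≤ t1 := h.boot.sol.time.nonneg t1 h.boot.mem

theorem Ctx.sg_pos (h : Ctx K S J t1 d) {t : ℝ} (ht : t ∈ Icc 0 t1) : 0 < S.sg t :=
  h.boot.sg_pos.trans_le (h.boot.sol.sg_strictAnti.antitoneOn (h.memJ ht) h.boot.mem ht.2)

theorem Ctx.sg_le (h : Ctx K S J t1 d) {t : ℝ} (ht : t ∈ Icc 0 t1) : S.sg t ≤ S.sg 0 :=
  h.boot.sol.sg_strictAnti.antitoneOn h.boot.sol.time.zero_mem (h.memJ ht) ht.1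

theorem Ctx.ρ_pos (h : Ctx K S J t1 d) (p : ℝ × ℝ) : 0 < S.ρ p := by
  have := h.q_geR
  exact mul_pos (sqrt_pos.2 (by linarith)) (exp_pos _)

/-- The maximum principle on the whole strip for a finite family. -/
theorem Ctx.mp_all {ι : Type} [Finite ι] (h : Ctx K S J t1 d) {f : ι → ℝ × ℝ → ℝ}
    (hf : ∀ i, ContinuousOn (f i) (cstrip t1)) (h0 : ∀ i, ∀ θ ∈ Ioo 0 π, f i (θ, 0) ≤ 0)
    (hpde : ∀ i, ∀ p ∈ strip t1, 0 < p.2 → 0 < f i p →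
      ∃ s b B : ℝ, S.Jet (f i) p s b ∧ b + B * s ≤ 0 ∧ |B| * S.φ p ≤ 30) :
    ∀ i, ∀ p ∈ strip t1, f i p ≤ 0 := by
  have := mp (C := fun _ => (-1 : ℝ)) h.boot.sol h.boot.mem h.q_ge h.evol
    (fun p hp => (h.boot.bds p hp).A) continuousOn_const hf (fun i θ hθ _ => h0 i θ hθ)
    (fun i p _ hc => absurd hc (by norm_num)) 0 (fun i p hp h1 _ h3 _ => by
      obtain ⟨s, b, B, k1, k2, k3⟩ := hpde i p hp h1 h3
      refine ⟨s, b, B, 0, k1, by linarith, k3, ?_⟩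
      positivity)
  exact fun i p hp => this i p hp (by norm_num)

/-- The maximum principle on the whole strip for one subsolution of the heat equation. -/
theorem Ctx.mp_one (h : Ctx K S J t1 d) {f : ℝ × ℝ → ℝ}
    (hf : ContinuousOn f (cstrip t1)) (h0 : ∀ θ ∈ Ioo 0 π, f (θ, 0) ≤ 0)
    (hpde : ∀ p ∈ strip t1, 0 < p.2 → 0 < f p → ∃ s b : ℝ, S.Jet f p s b ∧ b ≤ 0) :
    ∀ p ∈ strip t1, f p ≤ 0 :=
  h.mp_all (ι := Unit) (f := fun _ => f) (fun _ => hf) (fun _ => h0) (fun _ p hp h1 h2 => by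
    obtain ⟨s, b, k1, k2⟩ := hpde p hp h1 h2
    exact ⟨s, b, 0, k1, by linarith, by simp⟩) ()

/-! ## Step 0 -/

theorem Ctx.ρ_le (h : Ctx K S J t1 d) : ∀ p ∈ strip t1, S.ρ p ≤ 1 := by
  have := h.mp_one (f := fun y => S.ρ y - 1)
    ((h.cont h.boot.sol.sm_ρ).sub continuousOn_const)
    (fun θ hθ => sub_nonpos.2 (h.init.rho θ hθ)) (fun p hp h1 _ => by
      refine ⟨_, _, (h.evol p hp h1).jρ.sub_const 1, ?_⟩
      have h2 := h.ρ_pos p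
      have h3 := h.q_geR
      have : 0 ≤ ((S.q : ℝ) - 1) / S.ρ p := div_nonneg (by linarith) h2.le
      have : 0 ≤ S.β p ^ 2 * S.ρ p := by positivity
      rw [neg_div]; linarith)
  exact fun p hp => sub_nonpos.1 (this p hp)

theorem Ctx.A_le (h : Ctx K S J t1 d) : ∀ p ∈ strip t1, |S.A p| ≤ 1 := by
  have key : ∀ e : ℝ, e ^ 2 = 1 → ∀ p ∈ strip t1, e * S.A p - 1 ≤ 0 := by
    intro e he
    refine h.mp_all (ι := Unit) (f := fun _ y => e * S.A y - 1)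
      (fun _ => (continuousOn_const.mul (h.cont h.boot.sol.sm_A)).sub continuousOn_const)
      (fun _ θ hθ => ?_) (fun _ p hp h1 h2 => ?_) ()
    · have h3 := h.init.A θ hθ
      have h4 : |e| = 1 := by
        rw [← sq_eq_sq₀ (abs_nonneg _) zero_le_one, sq_abs, he, one_pow]
      have := le_abs_self (e * S.A (θ, 0))
      rw [abs_mul, h4] at this
      linarith
    · have ha := h.alg hp
      have hφ := ha.φ_pos
      refine ⟨_, _, 2 * S.A p / S.φ p, ((h.evol p hp h1).jA.const_mul e).sub_const 1, ?_, ?_⟩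
      · have h3 : 1 < e * S.A p := by linarith
        have h4 : 1 < S.A p ^ 2 := by nlinarith
        have h5 : S.kk p ≤ 0 := by
          by_contra h6
          have := mul_pos (pow_pos hφ 2) (not_le.1 h6)
          linarith [ha.kk_eq]
        have h6 : ((S.q : ℝ) - 1) * S.kk p - 2 * S.β p ^ 2 ≤ 0 := by
          have := h.q_geR
          nlinarith [sq_nonneg (S.β p)]
        have h7 : e * (-2 * S.A p * S.hh p + S.A p * (((S.q : ℝ) - 1) * S.kk p - 2 * S.β p ^ 2))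
            + 2 * S.A p / S.φ p * (e * (S.φ p * S.hh p))
            = e * S.A p * (((S.q : ℝ) - 1) * S.kk p - 2 * S.β p ^ 2) := by
          field_simp; ring
        rw [h7]
        exact mul_nonpos_of_nonneg_of_nonpos (by linarith) h6
      · have h3 := (h.boot.bds p hp).A
        rw [abs_div, abs_of_pos hφ, div_mul_cancel₀ _ hφ.ne', abs_mul, abs_two]
        linarith
  intro p hp
  have h1 := key 1 (by norm_num) p hp
  have h2 := key (-1) (by norm_num) p hp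
  rw [abs_le]; constructor <;> linarith

theorem Ctx.R_ge (h : Ctx K S J t1 d) : ∀ p ∈ strip t1, -(K.N / 2) ≤ S.R p := by
  have := h.mp_one (f := fun y => -(K.N / 2) - S.R y)
    (continuousOn_const.sub (h.cont h.boot.sol.sm_R))
    (fun θ hθ => sub_nonpos.2 (abs_le.1 (h.init.R θ hθ)).1) (fun p hp h1 _ => by
      refine ⟨_, _, (h.evol p hp h1).jR.const_sub _, ?_⟩
      have : 0 ≤ 2 * (S.a p ^ 2 + (S.q : ℝ) * S.b p ^ 2 + 2 * S.c p ^ 2) := by positivity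
      linarith)
  exact fun p hp => sub_nonpos.1 (this p hp)

/-! ## Step 1 -/

theorem Consts.OK.q_geR (h : K.OK) : (10000 : ℝ) ≤ (K.q : ℝ) := by exact_mod_cast h.q_ge

theorem Consts.OK.lam_le (h : K.OK) : K.lam ≤ 2 := by
  have := h.th_pos; unfold Consts.lam; linarith

theorem Consts.OK.th_small (h : K.OK) : K.th ≤ 1 / 2000 := by
  have h1 := h.q_geR
  refine h.th_le.trans ?_
  rw [div_le_div_iff₀ (by linarith) (by norm_num)]; linarith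

theorem Consts.OK.lam_ge (h : K.OK) : 1999 / 1000 ≤ K.lam := by
  have := h.th_small; unfold Consts.lam; linarith

theorem Consts.OK.am_small (h : K.OK) : K.am ≤ 1 / 10 ^ 12 := by
  have h1 := h.q_geR
  refine h.am_le.trans (one_div_le_one_div_of_le (by norm_num) ?_)
  calc (10 : ℝ) ^ 12 = 10000 ^ 3 := by norm_num
    _ ≤ (K.q : ℝ) ^ 3 := pow_le_pow_left₀ (by norm_num) h1 3

theorem Consts.OK.N1_ge (h : K.OK) : 12 ≤ K.N1 := by
  have := h.M_ge; have := h.N_ge; unfold Consts.N1; linarith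

/-- Negative powers of `ρ` are bounded by the lower bound for `ρ`. -/
theorem rpow_neg_le {a σ ρ κ : ℝ} (ha : 0 < a) (hσ : 0 < σ) (hρ : 0 < ρ) (hκ : 0 ≤ κ)
    (h : a * σ ^ 3 ≤ 4 * ρ ^ 2) : ρ ^ (-(2 * κ)) ≤ (a / 4) ^ (-κ) * σ ^ (-(3 * κ)) := by
  have h1 : ρ ^ (-(2 * κ)) = (ρ ^ 2) ^ (-κ) := by
    rw [← rpow_natCast, ← rpow_mul hρ.le]; norm_num
  have h2 : σ ^ (-(3 * κ)) = (σ ^ 3) ^ (-κ) := by
    rw [← rpow_natCast, ← rpow_mul hσ.le]; norm_num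
  rw [h1, h2, ← mul_rpow (by positivity) (by positivity)]
  exact rpow_le_rpow_of_nonpos (by positivity) (by linarith) (by linarith)

theorem Ctx.G1_le (h : Ctx K S J t1 d) (hp : p ∈ strip t1) :
    S.ρ p ^ 2 * S.G1 p ≤ (K.am / 4) ^ (-(1 / 40 : ℝ)) * S.sg 0 ^ (7 / 4 : ℝ) := by
  have hρ := h.ρ_pos p
  have hσ : 0 < S.σ p := h.sg_pos hp.2
  have ha := h.boot.ok.am_pos
  have h1 := rpow_neg_le (κ := 1 / 40) ha hσ hρ (by norm_num)
    (by have := (h.boot.bds p hp).rho; linarith)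
  have h2 : S.ρ p ^ 2 * S.G1 p = S.σ p ^ (73 / 40 : ℝ) * S.ρ p ^ (-(2 * (1 / 40 : ℝ))) := by
    unfold Data.G1
    rw [← rpow_natCast, mul_left_comm, ← rpow_add hρ]; norm_num
  have h3 : S.σ p ^ (73 / 40 : ℝ) * S.σ p ^ (-(3 * (1 / 40 : ℝ))) = S.σ p ^ (7 / 4 : ℝ) := by
    rw [← rpow_add hσ]; norm_num
  have h4 : S.σ p ^ (7 / 4 : ℝ) ≤ S.sg 0 ^ (7 / 4 : ℝ) :=
    rpow_le_rpow hσ.le (h.sg_le hp.2) (by norm_num)
  calc S.ρ p ^ 2 * S.G1 p ≤ S.σ p ^ (73 / 40 : ℝ) *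
        ((K.am / 4) ^ (-(1 / 40 : ℝ)) * S.σ p ^ (-(3 * (1 / 40 : ℝ)))) := by
        rw [h2]; exact mul_le_mul_of_nonneg_left h1 (by positivity)
    _ = (K.am / 4) ^ (-(1 / 40 : ℝ)) * S.σ p ^ (7 / 4 : ℝ) := by rw [mul_left_comm, h3]
    _ ≤ _ := mul_le_mul_of_nonneg_left h4 (by positivity)

theorem Ctx.G2_le (h : Ctx K S J t1 d) (hp : p ∈ strip t1) : S.G2 p ≤ 1 :=
  rpow_le_one (h.ρ_pos p).le (h.ρ_le p hp) (by norm_num)

theorem Ctx.F2_le (h : Ctx K S J t1 d) (hp : p ∈ strip t1) : S.F2 K p ≤ 1 :=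
  rpow_le_one (h.ρ_pos p).le (h.ρ_le p hp) (by linarith [h.boot.ok.lam_ge])

/-- Where `σ ≤ ρ ^ 2` the weight `F1` is at most `1`. -/
theorem Ctx.F1_le (h : Ctx K S J t1 d) (hp : p ∈ strip t1) (h1 : S.sg 0 ≤ 1)
    (h2 : S.σ p ≤ S.ρ p ^ 2) : S.F1 K p ≤ 1 := by
  have hρ := h.ρ_pos p
  have hσ : 0 < S.σ p := h.sg_pos hp.2
  have hσ1 : S.σ p ≤ 1 := (h.sg_le hp.2).trans h1
  have h3 : S.σ p ^ (K.lam + 41 / 40) ≤ S.σ p ^ (41 / 40 : ℝ) :=
    rpow_le_rpow_of_exponent_ge hσ hσ1 (by linarith [h.boot.ok.lam_ge])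
  have h4 : S.σ p ^ (41 / 40 : ℝ) ≤ (S.ρ p ^ 2) ^ (41 / 40 : ℝ) :=
    rpow_le_rpow hσ.le h2 (by norm_num)
  have h5 : (S.ρ p ^ 2) ^ (41 / 40 : ℝ) * S.ρ p ^ (-41 / 20 : ℝ) = 1 := by
    rw [← rpow_natCast, ← rpow_mul hρ.le, ← rpow_add hρ]; norm_num
  unfold Data.F1
  rw [← h5]
  exact mul_le_mul_of_nonneg_right (h3.trans h4) (by positivity)

theorem Data.c_eq' (S : Data) (p : ℝ × ℝ) :
    ((S.q : ℝ) + 3) * S.c p = S.R p - S.U1 p - (S.q : ℝ) * S.U2 p := by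
  unfold Data.R Data.U1 Data.U2; ring

theorem c_bound {q c R U1 U2 r N u : ℝ} (hq : 10000 ≤ q) (hr : 0 ≤ r)
    (h : (q + 3) * c = R - U1 - q * U2) (hR : |R| ≤ 2 * N) (h1 : r * |U1| ≤ u)
    (h2 : r * |U2| ≤ u) : r * |c| ≤ u + 2 * N * r := by
  have hN : 0 ≤ 2 * N := (abs_nonneg _).trans hR
  have hu : 0 ≤ u := le_trans (by positivity) h1
  have h3 : (q + 3) * |c| ≤ |R| + |U1| + q * |U2| := by
    have e1 : (q + 3) * |c| = |R - U1 - q * U2| := by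
      rw [← h, abs_mul, abs_of_pos (by linarith : 0 < q + 3)]
    have e2 : |q * U2| = q * |U2| := by rw [abs_mul, abs_of_pos (by linarith : 0 < q)]
    rw [e1, ← e2]
    exact (abs_sub _ _).trans (by linarith [abs_sub R U1])
  have h4 : (q + 3) * (r * |c|) ≤ r * |R| + r * |U1| + q * (r * |U2|) := by
    nlinarith [mul_le_mul_of_nonneg_left h3 hr]
  have h5 : r * |R| ≤ 2 * N * r := by nlinarith
  have h6 : q * (r * |U2|) ≤ q * u := mul_le_mul_of_nonneg_left h2 (by linarith)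
  have h7 : 0 ≤ 2 * N * r := mul_nonneg hN hr
  refine le_of_mul_le_mul_left ?_ (by linarith : 0 < q + 3)
  nlinarith

theorem Z_bound {q Z φ2 r R a E A P N N1 : ℝ} (hq : 10000 ≤ q) (hr : 0 ≤ r) (hφ : 0 ≤ φ2)
    (h : (q + 1) * (q + 2) * Z = -φ2 * (R - 2 * a) - 2 * (q - 1) * E - 4 * (q + 1) * A * P
      - 2 * P ^ 2) (h1 : φ2 ≤ 11 / 10 * r) (hR : |R| ≤ 2 * N) (hN : 2 * N ≤ N1)
    (ha : r * |a| ≤ 1 / 100 + N1 * r) (hE : |E| ≤ 1) (hA : |A| ≤ 1) (hP : |P| ≤ 3) :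
    q * |Z| ≤ 2 * N1 * r + 15 := by
  have hN1 : 0 ≤ N1 := (abs_nonneg _).trans (hR.trans hN)
  have e1 : |φ2 * (R - 2 * a)| ≤ 4 * (N1 * r) + 1 := by
    rw [abs_mul, abs_of_nonneg hφ]
    have : |R - 2 * a| ≤ N1 + 2 * |a| := by
      have := abs_sub R (2 * a)
      rw [abs_mul, abs_two] at this
      linarith
    have h2 : φ2 * |R - 2 * a| ≤ 11 / 10 * r * (N1 + 2 * |a|) :=
      mul_le_mul h1 this (abs_nonneg _) (by positivity)
    have : 0 ≤ N1 * r := mul_nonneg hN1 hr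
    nlinarith
  have e2 : |A * P| ≤ 3 := by
    rw [abs_mul]; nlinarith [abs_nonneg A, abs_nonneg P]
  have e3 : P ^ 2 ≤ 9 := by rw [← sq_abs]; nlinarith [abs_nonneg P]
  have e4 : (q + 1) * (q + 2) * |Z| ≤ 4 * (N1 * r) + 14 * q + 29 := by
    have : (q + 1) * (q + 2) * |Z| = |(q + 1) * (q + 2) * Z| := by
      rw [abs_mul, abs_of_pos (by positivity : 0 < (q + 1) * (q + 2))]
    rw [this, h, abs_le]
    have := abs_le.1 e1
    have := abs_le.1 e2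
    have := abs_le.1 hE
    constructor <;> nlinarith [sq_nonneg P]
  have : 0 ≤ N1 * r := mul_nonneg hN1 hr
  refine le_of_mul_le_mul_left ?_ (by linarith : 0 < q + 1)
  nlinarith [abs_nonneg Z]

theorem Ctx.geo0 (h : Ctx K S J t1 d) (h1 : S.sg 0 ≤ 1)
    (h2 : 2 * K.M * (K.am / 4) ^ (-(1 / 40 : ℝ)) * S.sg 0 ^ (7 / 4 : ℝ) ≤ 1 / 200)
    (hp : p ∈ strip t1) : Geo0 K S p := by
  have hb := h.boot.bds p hp
  have hok := h.boot.ok
  have hρ := h.ρ_pos p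
  have hM := hok.M_ge
  have hN := hok.N_ge
  have hq := h.q_geR
  have hU : ∀ U : ℝ, |U| ≤ 2 * K.M * (S.G1 p + S.G2 p) →
      S.ρ p ^ 2 * |U| ≤ 1 / 200 + 2 * K.M * S.ρ p ^ 2 := by
    intro U hU
    have e1 := h.G1_le hp
    have e2 : S.ρ p ^ 2 * S.G2 p ≤ S.ρ p ^ 2 := mul_le_of_le_one_right (by positivity) (h.G2_le hp)
    have e3 := mul_le_mul_of_nonneg_left hU (sq_nonneg (S.ρ p))
    have e4 := mul_le_mul_of_nonneg_left (add_le_add e1 e2) (by linarith : 0 ≤ 2 * K.M)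
    nlinarith
  have hU1 := hU _ hb.U1
  have hU2 := hU _ hb.U2
  have hc := c_bound hq (sq_nonneg (S.ρ p)) (S.c_eq' p) hb.R hU1 hU2
  have hMr : 0 ≤ K.M * S.ρ p ^ 2 := by positivity
  have hab : ∀ x U : ℝ, U = x - S.c p → S.ρ p ^ 2 * |U| ≤ 1 / 200 + 2 * K.M * S.ρ p ^ 2 →
      S.ρ p ^ 2 * |x| ≤ 1 / 100 + K.N1 * S.ρ p ^ 2 := by
    intro x U e hU
    have e1 : |x| ≤ |U| + |S.c p| := by
      have := abs_add_le U (S.c p)
      rwa [e, sub_add_cancel, ← e] at this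
    have e2 := mul_le_mul_of_nonneg_left e1 (sq_nonneg (S.ρ p))
    unfold Consts.N1
    nlinarith
  have ha := hab _ _ rfl hU1
  have hE : S.φ p ^ 2 = (1 - S.E p) * S.ρ p ^ 2 := by unfold Data.E; field_simp; ring
  have hφ : S.φ p ^ 2 ≤ 11 / 10 * S.ρ p ^ 2 := by
    have := hb.Elow
    rw [hE]; exact mul_le_mul_of_nonneg_right (by linarith) (sq_nonneg _)
  have hE1 : |S.E p| ≤ 1 := by
    have e1 := hb.Elow
    have e2 : 0 ≤ S.φ p ^ 2 / S.ρ p ^ 2 := by positivity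
    rw [abs_le]; constructor
    · linarith
    · unfold Data.E; linarith
  refine ⟨h.sg_pos hp.2, h.sg_le hp.2, h.ρ_le p hp, h.A_le p hp, h.R_ge p hp, hU1, hU2, ha,
    hab _ _ rfl hU2, ?_, ?_, hφ, hE1, ?_⟩
  · unfold Consts.N1; nlinarith
  · by_contra hcon
    rw [not_or, not_le, not_le] at hcon
    have e1 := h.F1_le hp h1 hcon.2.le
    have e2 := h.F2_le hp
    have e3 := hok.am_small
    have e4 := hok.am_pos
    have e5 : S.E p ≤ 1 / 2 := by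
      have := (le_abs_self _).trans hb.E
      nlinarith
    have := mul_le_mul_of_nonneg_right e5 (sq_nonneg (S.ρ p))
    nlinarith [hcon.1]
  · rw [h.qK]
    exact Z_bound hq (sq_nonneg (S.ρ p)) (sq_nonneg (S.φ p)) (h.alg hp).Z_eq hφ hb.R
      (by unfold Consts.N1; linarith) ha hE1 (h.A_le p hp) (by have := hb.P; linarith)

theorem geo0 (K : Consts) : Ev K (fun S _ t1 => ∀ p ∈ strip t1, Geo0 K S p) :=
  ((Ev.small_one K 1 one_pos).and (Ev.small K (2 * K.M * (K.am / 4) ^ (-(1 / 40 : ℝ)))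
    (κ := 7 / 4) (η := 1 / 200) (by norm_num) (by norm_num))).mono
    fun _ _ _ _ h h1 _ hp => h.geo0 (by linarith [h1.1]) h1.2 hp

/-! ## Step 2 -/

/-- A function whose slope is bounded away from zero below the level `δ` is monotone there. -/
theorem mono_of_slope {f g : ℝ → ℝ} {l δ κ y : ℝ} (hl : 0 < l) (hκ : 0 < κ)
    (hf : ∀ x, HasDerivAt f (l * g x) x) (hg : Continuous g)
    (h : ∀ x ∈ Icc 0 y, f x ≤ δ → κ ≤ |g x|) (hy : f y ≤ δ) (hgy : 0 < g y) :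
    ∀ x ∈ Icc 0 y, f x ≤ f y ∧ κ ≤ g x := by
  have hmono : ∀ w ≤ y, (∀ x ∈ Ioo w y, 0 < g x) → ∀ x ∈ Icc w y, f x ≤ f y := by
    intro w hw hpos x hx
    refine monotoneOn_of_deriv_nonneg (convex_Icc w y)
      (fun z _ => (hf z).continuousAt.continuousWithinAt)
      (fun z _ => (hf z).differentiableAt.differentiableWithinAt) (fun z hz => ?_) hx
      ⟨hw, le_rfl⟩ hx.2
    rw [interior_Icc] at hz
    rw [(hf z).deriv]
    exact (mul_pos hl (hpos z hz)).le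
  have hpos : ∀ x ∈ Icc 0 y, 0 < g x := by
    by_contra hcon
    push Not at hcon
    have hc : IsCompact (Icc 0 y ∩ {x | g x ≤ 0}) :=
      isCompact_Icc.inter_right (isClosed_le hg continuous_const)
    obtain ⟨w, ⟨hw1, hw2⟩, hw3⟩ := hc.exists_isGreatest (by
      obtain ⟨x, hx, hx'⟩ := hcon
      exact ⟨x, hx, hx'⟩)
    have hw4 : ∀ x ∈ Ioc w y, 0 < g x := fun x hx => by
      by_contra hx'
      exact absurd (hw3 ⟨⟨hw1.1.trans hx.1.le, hx.2⟩, not_lt.1 hx'⟩) (not_le.2 hx.1)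
    have hw2' : g w ≤ 0 := hw2
    have hwy : w < y := lt_of_le_of_ne hw1.2 (by rintro rfl; linarith)
    have h1 : f w ≤ f y := hmono w hw1.2 (fun x hx => hw4 x ⟨hx.1, hx.2.le⟩) w ⟨le_rfl, hw1.2⟩
    have h2 := h w hw1 (h1.trans hy)
    rw [abs_of_nonpos hw2'] at h2
    have h3 : 0 ≤ g w := by
      refine ge_of_tendsto (hg.continuousAt.tendsto.mono_left
        (nhdsWithin_le_nhds (s := Ioi w))) ?_
      filter_upwards [Ioc_mem_nhdsGT hwy] with x hx using (hw4 x hx).le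
    linarith
  intro x hx
  have h1 := hmono 0 (hx.1.trans hx.2) (fun z hz => hpos z (Ioo_subset_Icc_self hz)) x hx
  have h2 := h x hx (h1.trans hy)
  rw [abs_of_pos (hpos x hx)] at h2
  exact ⟨h1, h2⟩

theorem Geo0.ric_le (h : Geo0 K S p) (hok : K.OK) (hφ : 0 ≤ S.φ p) (h1 : K.N1 * S.sg 0 ≤ 1 / 2)
    (hδ : S.φ p ≤ K.δ) : K.N1 * S.ρ p ^ 2 ≤ 1 / 2 := by
  have hN := hok.N1_ge
  rcases h.ρ_sq_le with h2 | h2
  · have h3 : S.φ p ^ 2 ≤ K.δ ^ 2 := pow_le_pow_left₀ hφ hδ 2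
    have h4 := hok.δ_le
    nlinarith
  · have := h.σ_le
    nlinarith

theorem Geo0.A_sq (h : Geo0 K S p) (hok : K.OK) (hq : S.q = K.q)
    (h1 : K.N1 * S.ρ p ^ 2 ≤ 1 / 2) : 1 - 21 / (K.q : ℝ) ≤ S.A p ^ 2 := by
  have h2 := h.Z_le
  have h3 := hok.q_geR
  have h4 : -16 ≤ (K.q : ℝ) * S.Z p := by
    have := neg_abs_le (S.Z p)
    nlinarith
  have h5 : 1 - 2 / (K.q : ℝ) ≤ ((K.q : ℝ) - 1) / ((K.q : ℝ) + 1) := by
    rw [le_div_iff₀ (by linarith)]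
    have : 2 / (K.q : ℝ) * (K.q : ℝ) = 2 := by field_simp
    have : 0 ≤ 2 / (K.q : ℝ) := by positivity
    nlinarith
  have h6 : -16 / (K.q : ℝ) ≤ S.Z p := by rw [div_le_iff₀ (by linarith)]; linarith
  have h7 : S.Z p = S.A p ^ 2 - ((K.q : ℝ) - 1) / ((K.q : ℝ) + 1) := by
    unfold Data.Z; rw [hq]
  have h8 : 21 / (K.q : ℝ) = 2 / (K.q : ℝ) - -16 / (K.q : ℝ) + 3 / (K.q : ℝ) := by ring
  have : 0 ≤ 3 / (K.q : ℝ) := by positivity
  linarith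

/-- If `φ ≤ δ` and `φ_s > 0` at a point, then `φ` is monotone between the left pole and the
point. -/
theorem Ctx.mono_aux (h : Ctx K S J t1 d) (hg : ∀ p ∈ strip t1, Geo0 K S p)
    (h1 : K.N1 * S.sg 0 ≤ 1 / 2) {θ t : ℝ} (hθ : θ ∈ Ioo 0 π) (ht : t ∈ Icc 0 t1)
    (hδ : S.φ (θ, t) ≤ K.δ) (hA : 0 < S.A (θ, t)) :
    ∀ θ' ∈ Icc 0 θ, S.φ (θ', t) ≤ S.φ (θ, t) ∧ 1 - 21 / (K.q : ℝ) ≤ S.A (θ', t) := by
  have hS := h.boot.sol
  have htJ := h.memJ ht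
  have hq := h.boot.ok.q_geR
  have hκ : 21 / (K.q : ℝ) < 1 := by rw [div_lt_one (by linarith)]; linarith
  have hκ' : 0 ≤ 21 / (K.q : ℝ) := by positivity
  refine mono_of_slope (f := fun x => S.φ (x, t)) (g := fun x => S.A (x, t)) (δ := K.δ)
    (hS.l_pos t htJ) (by linarith) (fun x => hS.hasDerivAt_slice hS.sm_φ x htJ)
    (continuous_iff_continuousAt.2 fun x => (hS.hasDerivAt_slice hS.sm_A x htJ).continuousAt)
    (fun x hx hx' => ?_) hδ hA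
  rcases hx.1.eq_or_lt with h0 | h0
  · rw [← h0, hS.A_zero t htJ, abs_one]; linarith
  · have hp : (x, t) ∈ strip t1 := ⟨⟨h0, hx.2.trans_lt hθ.2⟩, ht⟩
    have h2 := (hg _ hp).A_sq h.boot.ok h.boot.q_eq
      ((hg _ hp).ric_le h.boot.ok (h.alg hp).φ_pos.le h1 hx')
    have h3 := (hg _ hp).A_le
    rw [← sq_abs] at h2
    nlinarith [abs_nonneg (S.A (x, t))]

theorem Ctx.A_pos (h : Ctx K S J t1 d) (hg : ∀ p ∈ strip t1, Geo0 K S p)
    (h1 : K.N1 * S.sg 0 ≤ 1 / 2) {θ t : ℝ} (hθ : θ ∈ Ioc 0 (π / 2)) (ht : t ∈ Icc 0 t1)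
    (hδ : S.φ (θ, t) ≤ K.δ) : θ < π / 2 ∧ 0 < S.A (θ, t) := by
  have hS := h.boot.sol
  have htJ := h.memJ ht
  have hq := h.boot.ok.q_geR
  have hπ := pi_pos
  have hκ : 21 / (K.q : ℝ) < 1 := by rw [div_lt_one (by linarith)]; linarith
  have hhalf : S.A (π / 2, t) = 0 := by
    have := hS.A_sym (π / 2) htJ
    rw [show π - π / 2 = π / 2 by ring] at this
    linarith
  have hp : (θ, t) ∈ strip t1 := ⟨⟨hθ.1, by linarith [hθ.2]⟩, ht⟩
  have h2 := (hg _ hp).A_sq h.boot.ok h.boot.q_eq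
    ((hg _ hp).ric_le h.boot.ok (h.alg hp).φ_pos.le h1 hδ)
  have h3 : 0 < S.A (θ, t) := by
    by_contra hcon
    have h4 : S.A (θ, t) < 0 := by
      refine lt_of_le_of_ne (not_lt.1 hcon) fun h5 => ?_
      rw [h5] at h2; linarith
    have h5 := h.mono_aux hg h1 (θ := π - θ) ⟨by linarith [hθ.2], by linarith [hθ.1]⟩ ht
      (by rw [hS.φ_sym θ t htJ]; exact hδ) (by rw [hS.A_sym θ htJ]; linarith) (π / 2)
      ⟨by linarith, by linarith [hθ.2]⟩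
    linarith [h5.2]
  refine ⟨lt_of_le_of_ne hθ.2 fun h4 => ?_, h3⟩
  rw [h4] at h3; linarith

theorem Ctx.mono (h : Ctx K S J t1 d) (hg : ∀ p ∈ strip t1, Geo0 K S p)
    (h1 : K.N1 * S.sg 0 ≤ 1 / 2) {t : ℝ} (ht : t ∈ Icc 0 t1) : Mono K S t := by
  intro θ hθ hδ
  have h2 := h.A_pos hg h1 hθ ht hδ
  exact ⟨h2.1, h.mono_aux hg h1 ⟨hθ.1, by linarith [hθ.2, pi_pos]⟩ ht hδ h2.2⟩

theorem mono (K : Consts) : Ev K (fun S _ t1 => ∀ t ∈ Icc 0 t1, Mono K S t) :=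
  ((geo0 K).and (Ev.small_one K K.N1 (η := 1 / 2) (by norm_num))).mono
    fun _ _ _ _ h h1 _ ht => h.mono h1.1 h1.2 ht

/-- The integrated equation for `ρ ρ_s φ^q` on the left. -/
theorem Ctx.sig_aux (h : Ctx K S J t1 d) (hg : ∀ p ∈ strip t1, Geo0 K S p)
    (h1 : K.N1 * S.sg 0 ≤ 1 / 2) {θ t : ℝ} (hθ : θ ∈ Ioo 0 π) (ht : t ∈ Icc 0 t1)
    (hδ : S.φ (θ, t) ≤ K.δ) (hA : 0 < S.A (θ, t)) :
    (1 - 3 / (K.q : ℝ)) * S.φ (θ, t) ≤ S.β (θ, t) * S.ρ (θ, t) ^ 2 ∧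
      S.β (θ, t) * S.ρ (θ, t) ^ 2 ≤ (1 + 22 / (K.q : ℝ)) * S.φ (θ, t) := by
  have hS := h.boot.sol
  have htJ := h.memJ ht
  have hq := h.q_geR
  have hl := hS.l_pos t htJ
  have hm := h.mono_aux hg h1 hθ ht hδ hA
  rw [h.qK] at hm ⊢
  obtain ⟨n, hn⟩ : ∃ n : ℕ, S.q = n + 1 := ⟨S.q - 1, by have := h.q_ge; omega⟩
  have hn' : (S.q : ℝ) = n + 1 := by rw [hn]; push_cast; ring
  set G : ℝ → ℝ → ℝ := fun k x =>
    S.β (x, t) * S.ρ (x, t) ^ 2 * S.φ (x, t) ^ (n + 1) - k * S.φ (x, t) ^ (n + 2) with hG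
  have hρ : ∀ x, HasDerivAt (fun y => S.ρ (y, t)) (S.l t * (S.β (x, t) * S.ρ (x, t))) x := by
    intro x
    have := ((hS.hasDerivAt_slice hS.sm_u x htJ).exp).const_mul (√((S.q : ℝ) - 1))
    refine this.congr_deriv ?_
    unfold Data.ρ Data.β; ring
  have hd : ∀ k x, HasDerivAt (G k) (S.l t * ((S.Ds S.β (x, t) + 2 * S.β (x, t) ^ 2)
      * S.ρ (x, t) ^ 2 * S.φ (x, t) ^ (n + 1) + S.β (x, t) * S.ρ (x, t) ^ 2 * ((n + 1) *
        S.φ (x, t) ^ n * S.A (x, t)) - k * ((n + 2) * S.φ (x, t) ^ (n + 1) * S.A (x, t)))) x := by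
    intro k x
    have e1 := hS.hasDerivAt_slice hS.sm_φ x htJ
    have e2 := hS.hasDerivAt_slice hS.sm_β x htJ
    have := ((e2.mul ((hρ x).pow 2)).mul (e1.pow (n + 1))).sub ((e1.pow (n + 2)).const_mul k)
    refine this.congr_deriv ?_
    simp only [Pi.mul_apply, Pi.pow_apply, Nat.add_one_sub_one, Nat.cast_add, Nat.cast_ofNat,
      Nat.cast_one, pow_one]
    unfold Data.A
    ring
  have hd' : ∀ k, ∀ x ∈ Ioo 0 θ, deriv (G k) x = S.l t * S.φ (x, t) ^ (n + 1) *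
      ((S.q : ℝ) - 1 - S.ρ (x, t) ^ 2 * S.c (x, t) - k * (((S.q : ℝ) + 1) * S.A (x, t))) := by
    intro k x hx
    have ha := h.alg (p := (x, t)) ⟨⟨hx.1, hx.2.trans hθ.2⟩, ht⟩
    have := ha.ρ_pos
    rw [(hd k x).deriv, ha.c_eq, ← ha.vv_eq, hn']
    field_simp
    ring
  have hc : ∀ x ∈ Ioo 0 θ, |S.ρ (x, t) ^ 2 * S.c (x, t)| ≤ 1 ∧ 0 < S.φ (x, t) ∧
      S.A (x, t) ≤ 1 := by
    intro x hx
    have hp : (x, t) ∈ strip t1 := ⟨⟨hx.1, hx.2.trans hθ.2⟩, ht⟩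
    have e1 := (hg _ hp).ric_le h.boot.ok (h.alg hp).φ_pos.le h1
      ((hm x (Ioo_subset_Icc_self hx)).1.trans hδ)
    have e2 := (hg _ hp).c_le
    refine ⟨?_, (h.alg hp).φ_pos, (abs_le.1 (hg _ hp).A_le).2⟩
    rw [abs_mul, abs_of_nonneg (sq_nonneg _)]; linarith
  have hG0 : ∀ k, G k 0 = 0 := by intro k; simp [hG, hS.φ_zero htJ]
  have hφ := hS.φ_pos θ hθ t htJ
  have hiq : 1 / (S.q : ℝ) * (S.q : ℝ) = 1 := by field_simp
  have hiq' : 0 < 1 / (S.q : ℝ) := by positivity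
  have hiq'' : 1 / (S.q : ℝ) ≤ 1 / 10000 := one_div_le_one_div_of_le (by norm_num) hq
  constructor
  · have hmono := monotoneOn_of_deriv_nonneg (convex_Icc 0 θ) (f := G (1 - 3 / (S.q : ℝ)))
      (fun z _ => (hd _ z).continuousAt.continuousWithinAt)
      (fun z _ => (hd _ z).differentiableAt.differentiableWithinAt) (fun z hz => by
        rw [interior_Icc] at hz
        obtain ⟨e1, e2, e3⟩ := hc z hz
        rw [hd' _ z hz]
        refine mul_nonneg (by positivity) ?_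
        have e4 := (abs_le.1 e1).2
        have e5 : (1 - 3 / (S.q : ℝ)) * (((S.q : ℝ) + 1) * S.A (z, t))
            ≤ (1 - 3 / (S.q : ℝ)) * (((S.q : ℝ) + 1) * 1) := by
          refine mul_le_mul_of_nonneg_left (mul_le_mul_of_nonneg_left e3 (by linarith)) ?_
          rw [div_eq_mul_one_div 3]; linarith
        rw [div_eq_mul_one_div 3] at e5 ⊢
        nlinarith) ⟨le_rfl, hθ.1.le⟩ ⟨hθ.1.le, le_rfl⟩ hθ.1.le
    rw [hG0] at hmono
    refine le_of_mul_le_mul_right ?_ (pow_pos hφ (n + 1))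
    simp only [hG] at hmono
    rw [pow_succ' _ (n + 1), ← mul_assoc] at hmono
    linarith
  · have hanti := antitoneOn_of_deriv_nonpos (convex_Icc 0 θ) (f := G (1 + 22 / (S.q : ℝ)))
      (fun z _ => (hd _ z).continuousAt.continuousWithinAt)
      (fun z _ => (hd _ z).differentiableAt.differentiableWithinAt) (fun z hz => by
        rw [interior_Icc] at hz
        obtain ⟨e1, e2, e3⟩ := hc z hz
        rw [hd' _ z hz]
        refine mul_nonpos_of_nonneg_of_nonpos (by positivity) ?_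
        have e4 := (abs_le.1 e1).1
        have e5 : (1 + 22 / (S.q : ℝ)) * (((S.q : ℝ) + 1) * (1 - 21 / (S.q : ℝ)))
            ≤ (1 + 22 / (S.q : ℝ)) * (((S.q : ℝ) + 1) * S.A (z, t)) :=
          mul_le_mul_of_nonneg_left (mul_le_mul_of_nonneg_left
            (hm z (Ioo_subset_Icc_self hz)).2 (by linarith)) (by positivity)
        rw [div_eq_mul_one_div 22, div_eq_mul_one_div 21] at e5
        rw [div_eq_mul_one_div 22]
        nlinarith) ⟨le_rfl, hθ.1.le⟩ ⟨hθ.1.le, le_rfl⟩ hθ.1.le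
    rw [hG0] at hanti
    refine le_of_mul_le_mul_right ?_ (pow_pos hφ (n + 1))
    simp only [hG] at hanti
    rw [pow_succ' _ (n + 1), ← mul_assoc] at hanti
    linarith

/-- The same with a sign, on both sides. -/
theorem Ctx.sig (h : Ctx K S J t1 d) (hg : ∀ p ∈ strip t1, Geo0 K S p)
    (h1 : K.N1 * S.sg 0 ≤ 1 / 2) (hp : p ∈ strip t1) (hδ : S.φ p ≤ K.δ) :
    ∃ e : ℝ, e ^ 2 = 1 ∧ 1 - 21 / (K.q : ℝ) ≤ e * S.A p ∧
      (1 - 3 / (K.q : ℝ)) * S.φ p ≤ e * S.β p * S.ρ p ^ 2 ∧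
      e * S.β p * S.ρ p ^ 2 ≤ (1 + 22 / (K.q : ℝ)) * S.φ p := by
  obtain ⟨θ, t⟩ := p
  have hS := h.boot.sol
  have htJ := h.memJ hp.2
  have hθ : θ ∈ Ioo 0 π := hp.1
  rcases le_total θ (π / 2) with h2 | h2
  · have h3 := (h.A_pos hg h1 ⟨hθ.1, h2⟩ hp.2 hδ).2
    refine ⟨1, by norm_num, ?_, ?_⟩
    · simpa using (h.mono_aux hg h1 hθ hp.2 hδ h3 θ ⟨hθ.1.le, le_rfl⟩).2
    · simpa using h.sig_aux hg h1 hθ hp.2 hδ h3
  · have hθ' : π - θ ∈ Ioo 0 π := ⟨by linarith [hθ.2], by linarith [hθ.1]⟩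
    have hδ' : S.φ (π - θ, t) ≤ K.δ := by rw [hS.φ_sym θ t htJ]; exact hδ
    have h3 := (h.A_pos hg h1 ⟨hθ'.1, by linarith⟩ hp.2 hδ').2
    have h4 := (h.mono_aux hg h1 hθ' hp.2 hδ' h3 _ ⟨hθ'.1.le, le_rfl⟩).2
    have h5 := h.sig_aux hg h1 hθ' hp.2 hδ' h3
    have h6 : S.ρ (π - θ, t) = S.ρ (θ, t) := by unfold Data.ρ; rw [hS.u_sym θ t htJ]
    rw [hS.A_sym θ htJ] at h4
    rw [hS.β_sym θ htJ, hS.φ_sym θ t htJ, h6] at h5
    refine ⟨-1, by norm_num, ?_, ?_⟩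
    · simpa using h4
    · simpa using h5

theorem trap_alg {i A s e : ℝ} (hi0 : 0 < i) (hi : i ≤ 1 / 10000) (hA1 : 1 - 21 * i ≤ A)
    (hA2 : A ≤ 1) (hs1 : 1 - 3 * i ≤ s) (hs2 : s ≤ 1 + 22 * i) (he0 : 0 ≤ e) (he : e ≤ 11 / 10) :
    s ^ 2 * e ≤ 6 / 5 ∧ |s * e - A| ≤ 6 / 5 ∧ |A * s - 1| ≤ 44 * i := by
  have h1 : s ^ 2 ≤ 101 / 100 := by nlinarith
  have h2 : 0 ≤ s * e := mul_nonneg (by linarith) he0
  have h3 : s * e ≤ 6 / 5 := by nlinarith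
  have h4 : (1 - 21 * i) * (1 - 3 * i) ≤ A * s :=
    mul_le_mul hA1 hs1 (by linarith) (by linarith)
  have h5 : A * s ≤ 1 * (1 + 22 * i) := mul_le_mul hA2 hs2 (by linarith) (by linarith)
  refine ⟨by nlinarith, ?_, ?_⟩ <;> rw [abs_le] <;> constructor <;> nlinarith

theorem Ctx.trap (h : Ctx K S J t1 d) (hg : ∀ p ∈ strip t1, Geo0 K S p)
    (h1 : K.N1 * S.sg 0 ≤ 1 / 2) (hp : p ∈ strip t1) (hδ : S.φ p ≤ K.δ) : Trap K S p := by
  obtain ⟨e, he, e1, e2, e3⟩ := h.sig hg h1 hp hδ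
  have ha := h.alg hp
  have hφ := ha.φ_pos
  have hρ := ha.ρ_pos
  have g := hg p hp
  have hq := h.boot.ok.q_geR
  have hric := g.ric_le h.boot.ok hφ.le h1 hδ
  have he' : |e| = 1 := by rw [← sq_eq_sq₀ (abs_nonneg _) zero_le_one, sq_abs, he, one_pow]
  have hi0 : 0 < 1 / (K.q : ℝ) := by positivity
  have hi : 1 / (K.q : ℝ) ≤ 1 / 10000 := one_div_le_one_div_of_le (by norm_num) hq
  have hβ : S.β p = S.φ p * S.vv p := ha.vv_eq.symm
  obtain ⟨k1, k2, k3⟩ := trap_alg (A := e * S.A p) (s := e * S.vv p * S.ρ p ^ 2)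
    (e := S.φ p ^ 2 / S.ρ p ^ 2) hi0 hi (by rw [← div_eq_mul_one_div]; exact e1)
    (by have := le_abs_self (e * S.A p); rw [abs_mul, he'] at this; linarith [g.A_le])
    (by rw [← div_eq_mul_one_div]; refine le_of_mul_le_mul_right ?_ hφ; rw [hβ] at e2; linarith)
    (by rw [← div_eq_mul_one_div]; refine le_of_mul_le_mul_right ?_ hφ; rw [hβ] at e3; linarith)
    (by positivity) (by rw [div_le_iff₀ (by positivity)]; exact g.φ_sq_le)
  have l1 : S.β p ^ 2 * S.ρ p ^ 2 ≤ 6 / 5 := by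
    refine le_of_eq_of_le ?_ k1
    rw [hβ, mul_pow (e * S.vv p), mul_pow e, he]; field_simp
  have l2 : |S.P p| ≤ 6 / 5 := by
    have : e * S.vv p * S.ρ p ^ 2 * (S.φ p ^ 2 / S.ρ p ^ 2) - e * S.A p = e * S.P p := by
      unfold Data.P; rw [hβ]; field_simp
    rwa [this, abs_mul, he', one_mul] at k2
  have l3 : |S.ρ p ^ 2 * (S.A p * S.vv p) - 1| ≤ 44 / (K.q : ℝ) := by
    have : e * S.A p * (e * S.vv p * S.ρ p ^ 2) = S.ρ p ^ 2 * (S.A p * S.vv p) := by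
      linear_combination (S.ρ p ^ 2 * (S.A p * S.vv p)) * he
    rwa [this, ← div_eq_mul_one_div] at k3
  have hr : ∀ x, S.ρ p ^ 2 * |x| = |S.ρ p ^ 2 * x| := fun x => by
    rw [abs_mul, abs_of_nonneg (sq_nonneg (S.ρ p))]
  have hc := g.c_le
  have ha' := g.a_le
  have hb := g.b_le
  rw [hr] at hc ha' hb
  have l3' : |(K.q : ℝ) * (S.ρ p ^ 2 * (S.A p * S.vv p) - 1)| ≤ 44 := by
    rw [abs_mul, abs_of_nonneg (by linarith : 0 ≤ (K.q : ℝ))]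
    rw [le_div_iff₀ (by linarith)] at l3
    linarith
  have l4 : |S.ρ p ^ 2 * (S.Ds S.β p + S.β p ^ 2)| ≤ 50 := by
    have : S.ρ p ^ 2 * (S.Ds S.β p + S.β p ^ 2) = -(S.ρ p ^ 2 * S.c p)
        - (K.q : ℝ) * (S.ρ p ^ 2 * (S.A p * S.vv p) - 1) - 1 - S.β p ^ 2 * S.ρ p ^ 2 := by
      rw [ha.c_eq, h.qK]; field_simp; ring
    have h2 : 0 ≤ S.β p ^ 2 * S.ρ p ^ 2 := by positivity
    rw [this, abs_le]
    have := abs_le.1 hc
    have := abs_le.1 l3'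
    constructor <;> linarith
  have l5 : |(K.q : ℝ) * (S.ρ p ^ 2 * S.hh p)| ≤ 101 := by
    have : (K.q : ℝ) * (S.ρ p ^ 2 * S.hh p) = -(S.ρ p ^ 2 * S.a p)
        - 2 * (S.ρ p ^ 2 * (S.Ds S.β p + S.β p ^ 2)) := by
      unfold Data.a; rw [h.qK]; ring
    rw [this, abs_le]
    have := abs_le.1 ha'
    have := abs_le.1 l4
    constructor <;> linarith
  have l5' : (K.q : ℝ) * (S.ρ p ^ 2 * |S.hh p|) ≤ 101 := by
    rwa [abs_mul, abs_of_nonneg (by linarith : 0 ≤ (K.q : ℝ)), ← hr] at l5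
  refine ⟨g.A_sq h.boot.ok h.boot.q_eq hric, l1, l2, l3, by rwa [hr], l5', ?_, by linarith⟩
  have m1 : |S.ρ p ^ 2 * S.hh p| ≤ 1 := by
    rw [← hr]
    have : 0 ≤ S.ρ p ^ 2 * |S.hh p| := by positivity
    nlinarith
  have m2 : 44 / (K.q : ℝ) ≤ 1 / 2 := by rw [div_eq_mul_one_div]; linarith
  have m3 : ((K.q : ℝ) - 1) * (S.ρ p ^ 2 * S.kk p) = S.ρ p ^ 2 * S.b p + S.ρ p ^ 2 * S.hh p
      + 2 * (S.ρ p ^ 2 * (S.A p * S.vv p)) := by
    unfold Data.b; rw [h.qK]; ring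
  rw [hr, ← abs_of_nonneg (by linarith : 0 ≤ (K.q : ℝ) - 1), ← abs_mul, m3, abs_le]
  have := abs_le.1 hb
  have := abs_le.1 m1
  have := abs_le.1 l3
  constructor <;> linarith

theorem trap (K : Consts) : Ev K (fun S _ t1 => ∀ p ∈ strip t1, S.φ p ≤ K.δ → Trap K S p) :=
  ((geo0 K).and (Ev.small_one K K.N1 (η := 1 / 2) (by norm_num))).mono
    fun _ _ _ _ h h1 _ hp hδ => h.trap h1.1 h1.2 hp hδ

end Vale.Agent.P244Z.Q
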