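import Vale.Agent.P244Z.Boot2
import Vale.Agent.P244Z.QGeo

/-!
# P244: the solution survives until `σ → 0`, and the pole collapses
-/

open Set Real Filter Topology
open scoped ContDiff

namespace Vale.Agent.P244Z.Q

variable {S : Data} {J : Set ℝ} {K : Consts}

theorem Sol.restrict (hS : Sol S J) {J' : Set ℝ} (hJ : TimeSet J') (h : J' ⊆ J) : Sol S J' where
  time := hJ
  sm_l := hS.sm_l.mono h
  sm_sg := hS.sm_sg.mono h
  sm_φ := hS.sm_φ.mono (prod_mono subset_rfl h)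
  sm_u := hS.sm_u.mono (prod_mono subset_rfl h)
  sm_V := hS.sm_V.mono (prod_mono subset_rfl h)
  sm_kk := hS.sm_kk.mono (prod_mono subset_rfl h)
  sm_vv := hS.sm_vv.mono (prod_mono subset_rfl h)
  sm_hh := hS.sm_hh.mono (prod_mono subset_rfl h)
  l_pos t ht := hS.l_pos t (h ht)
  φ_odd θ t ht := hS.φ_odd θ t (h ht)
  φ_sym θ t ht := hS.φ_sym θ t (h ht)
  u_even θ t ht := hS.u_even θ t (h ht)
  u_sym θ t ht := hS.u_sym θ t (h ht)
  V_odd θ t ht := hS.V_odd θ t (h ht)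
  V_sym θ t ht := hS.V_sym θ t (h ht)
  φ_pos θ hθ t ht := hS.φ_pos θ hθ t (h ht)
  A_zero t ht := hS.A_zero t (h ht)
  kk_eq θ t ht := hS.kk_eq θ t (h ht)
  vv_eq θ t ht := hS.vv_eq θ t (h ht)
  hh_eq θ t ht := hS.hh_eq θ t (h ht)
  eq_φ θ hθ t ht := hS.eq_φ θ hθ t (h ht)
  eq_u θ hθ t ht := hS.eq_u θ hθ t (h ht)
  eq_V θ hθ t ht := hS.eq_V θ hθ t (h ht)
  eq_sg t ht := hS.eq_sg t (h ht)

theorem TimeSet.antitoneOn (hJ : TimeSet J) {f : ℝ → ℝ} (hf : ContinuousOn f J)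
    (h : ∀ t ∈ J, 0 < t → ∃ e ≤ 0, HasDerivAt f e t) : AntitoneOn f J := by
  have h0 : ∀ t ∈ interior J, 0 < t := by
    intro t ht
    obtain ⟨η, hη, h1⟩ := Metric.mem_nhds_iff.1 (mem_interior_iff_mem_nhds.1 ht)
    have := hJ.nonneg (t - η / 2)
      (h1 (by rw [Metric.mem_ball, Real.dist_eq, abs_lt]; constructor <;> linarith))
    linarith
  refine antitoneOn_of_deriv_nonpos hJ.convex hf (fun t ht => ?_) fun t ht => ?_
  · obtain ⟨e, -, he⟩ := h t (interior_subset ht) (h0 t ht)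
    exact he.differentiableAt.differentiableWithinAt
  · obtain ⟨e, h1, he⟩ := h t (interior_subset ht) (h0 t ht)
    rwa [he.deriv]

theorem Sol.hasDerivAt_sg (hS : Sol S J) {t : ℝ} (ht : t ∈ J) (h0 : 0 < t) :
    HasDerivAt S.sg (-S.l t ^ 2) t := by
  rw [← hS.eq_sg t ht h0]
  exact ((hS.sm_sg.contDiffAt (hS.time.mem_nhds ht h0)).differentiableAt (by simp)).hasDerivAt

theorem Sol.hasDerivAt_log_l (hS : Sol S J) {t : ℝ} (ht : t ∈ J) (h0 : 0 < t) :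
    ∃ θ ∈ Ioo 0 π, HasDerivAt (fun s => log (S.l s)) (-(S.l t ^ 2 * S.a (θ, t))) t := by
  have h1 : S.V (0, t) = 0 := by
    have := hS.V_odd 0 t ht
    rw [neg_zero] at this; linarith
  have h2 : S.V (π, t) = 0 := by
    have := hS.V_sym 0 t ht
    rw [sub_zero] at this; linarith
  obtain ⟨θ, hθ, h3⟩ := exists_hasDerivAt_eq_zero (f := fun x => S.V (x, t))
    (f' := fun x => d1 S.V (x, t)) pi_pos
    (fun x _ => (hasDerivAt_d1 hS.sm_V x ht).continuousAt.continuousWithinAt) (by rw [h1, h2])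
    fun x _ => hasDerivAt_d1 hS.sm_V x ht
  refine ⟨θ, hθ, ?_⟩
  have h4 := hS.eq_V θ hθ t ht h0
  have h5 := (((hS.sm_l.contDiffAt (hS.time.mem_nhds ht h0)).differentiableAt
    (by simp)).hasDerivAt).log (hS.l_pos t ht).ne'
  rwa [show deriv S.l t / S.l t = -(S.l t ^ 2 * S.a (θ, t)) by linarith] at h5

theorem Sol.log_l_le (hS : Sol S J) (hσ : ∀ t ∈ J, 0 ≤ S.sg t) {C : ℝ}
    (hC : ∀ θ ∈ Ioo 0 π, ∀ t ∈ J, |S.a (θ, t)| ≤ C) {t : ℝ} (ht : t ∈ J) :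
    |log (S.l t)| ≤ |log (S.l 0)| + C * S.sg 0 := by
  have hc : ContinuousOn (fun s => log (S.l s)) J :=
    hS.sm_l.continuousOn.log fun s hs => (hS.l_pos s hs).ne'
  have hC0 : 0 ≤ C := (abs_nonneg _).trans
    (hC (π / 2) ⟨by positivity, by linarith [pi_pos]⟩ 0 hS.time.zero_mem)
  have key : ∀ e : ℝ, |e| = 1 → e * log (S.l t) + C * S.sg t ≤ e * log (S.l 0) + C * S.sg 0 := by
    intro e he
    refine TimeSet.antitoneOn hS.time (f := fun s => e * log (S.l s) + C * S.sg s)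
      ((continuousOn_const.mul hc).add (continuousOn_const.mul hS.sm_sg.continuousOn))
      (fun s hs h0 => ?_) hS.time.zero_mem ht (hS.time.nonneg t ht)
    obtain ⟨θ, hθ, h1⟩ := hS.hasDerivAt_log_l hs h0
    refine ⟨_, ?_, (h1.const_mul e).add ((hS.hasDerivAt_sg hs h0).const_mul C)⟩
    have h2 : |e * S.a (θ, s)| ≤ C := by rw [abs_mul, he, one_mul]; exact hC θ hθ s hs
    nlinarith [(abs_le.1 h2).1, sq_nonneg (S.l s)]
  have h1 := key 1 abs_one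
  have h2 := key (-1) (by simp)
  have h3 := mul_nonneg hC0 (hσ t ht)
  have h4 := le_abs_self (log (S.l 0))
  have h5 := neg_abs_le (log (S.l 0))
  rw [abs_le]; constructor <;> linarith

theorem Sol.bddAbove (hS : Sol S J) (hσ : ∀ t ∈ J, 0 ≤ S.sg t) {m : ℝ} (hm : 0 < m)
    (h : ∀ t ∈ J, m ≤ S.l t) : BddAbove J := by
  refine ⟨S.sg 0 / m ^ 2, fun t ht => ?_⟩
  have h1 := TimeSet.antitoneOn hS.time (f := fun s => S.sg s + m ^ 2 * s)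
    (hS.sm_sg.continuousOn.add (by fun_prop)) (fun s hs h0 =>
      ⟨_, ?_, (hS.hasDerivAt_sg hs h0).add ((hasDerivAt_id s).const_mul (m ^ 2))⟩)
    hS.time.zero_mem ht (hS.time.nonneg t ht)
  · rw [le_div_iff₀ (by positivity)]
    have := hσ t ht
    simp only [mul_zero, add_zero] at h1
    linarith
  · nlinarith [h s hs]

/-- bounded on the open strip -/
def Bdd (J : Set ℝ) (f : ℝ × ℝ → ℝ) : Prop := ∃ B, ∀ θ ∈ Ioo 0 π, ∀ t ∈ J, |f (θ, t)| ≤ B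

theorem Bdd.const (c : ℝ) : Bdd J (fun _ => c) := ⟨|c|, fun _ _ _ _ => le_rfl⟩

theorem Bdd.add {f g : ℝ × ℝ → ℝ} (hf : Bdd J f) (hg : Bdd J g) : Bdd J (fun p => f p + g p) := by
  obtain ⟨B, hB⟩ := hf
  obtain ⟨C, hC⟩ := hg
  exact ⟨B + C, fun θ hθ t ht => (abs_add_le _ _).trans (add_le_add (hB θ hθ t ht) (hC θ hθ t ht))⟩

theorem Bdd.mul {f g : ℝ × ℝ → ℝ} (hf : Bdd J f) (hg : Bdd J g) : Bdd J (fun p => f p * g p) := by
  obtain ⟨B, hB⟩ := hf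
  obtain ⟨C, hC⟩ := hg
  refine ⟨B * C, fun θ hθ t ht => ?_⟩
  rw [abs_mul]
  exact mul_le_mul (hB θ hθ t ht) (hC θ hθ t ht) (abs_nonneg _) ((abs_nonneg _).trans (hB θ hθ t ht))

theorem Bdd.congr {f g : ℝ × ℝ → ℝ} (hf : Bdd J f)
    (h : ∀ θ ∈ Ioo 0 π, ∀ t ∈ J, g (θ, t) = f (θ, t)) : Bdd J g := by
  obtain ⟨B, hB⟩ := hf
  exact ⟨B, fun θ hθ t ht => by rw [h θ hθ t ht]; exact hB θ hθ t ht⟩

theorem Bdd.ev {f : ℝ × ℝ → ℝ} (hf : Bdd J f) :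
    ∀ᶠ B in atTop, ∀ θ ∈ Ioo 0 π, ∀ t ∈ J, |f (θ, t)| ≤ B := by
  obtain ⟨B, hB⟩ := hf
  filter_upwards [eventually_ge_atTop B] with C hC θ hθ t ht using (hB θ hθ t ht).trans hC

theorem Bdd.of_mul {f g : ℝ × ℝ → ℝ} {m C : ℝ} (hm : 0 < m)
    (h : ∀ θ ∈ Ioo 0 π, ∀ t ∈ J, m ≤ g (θ, t) ∧ g (θ, t) * |f (θ, t)| ≤ C) : Bdd J f :=
  ⟨C / m, fun θ hθ t ht => by
    rw [le_div_iff₀ hm]
    nlinarith [(h θ hθ t ht).1, (h θ hθ t ht).2, abs_nonneg (f (θ, t))]⟩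

theorem Bdd.of_cases {f : ℝ × ℝ → ℝ} {B C : ℝ}
    (h : ∀ θ ∈ Ioo 0 π, ∀ t ∈ J, |f (θ, t)| ≤ B ∨ |f (θ, t)| ≤ C) : Bdd J f :=
  ⟨max B C, fun θ hθ t ht => le_max_iff.2 (h θ hθ t ht)⟩

/-- If `σ` stays away from `0`, all the quantities of the continuation criterion are bounded. -/
theorem continuation_bound (hK : K.OK) (hq : S.q = K.q) (hS : Sol S J) {m : ℝ} (hm : 0 < m)
    (hσ : ∀ t ∈ J, m ≤ S.sg t) (hG : ∀ T ∈ J, Good K S T) :
    BddAbove J ∧ ∃ B : ℝ, ∀ θ ∈ Ioo 0 π, ∀ t ∈ J,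
      |S.kk (θ, t)| ≤ B ∧ |S.vv (θ, t)| ≤ B ∧ |S.hh (θ, t)| ≤ B ∧
      |S.Ds S.β (θ, t)| ≤ B ∧ |S.A (θ, t)| ≤ B ∧ |S.φ (θ, t)| ≤ B ∧
      |S.u (θ, t)| ≤ B ∧ |log (S.l t)| ≤ B ∧ S.l t * sin θ ≤ B * S.φ (θ, t) := by
  have hq2 : 2 ≤ S.q := by rw [hq]; exact le_trans (by norm_num) hK.q_ge
  have hqR : (10000 : ℝ) ≤ K.q := hK.q_geR
  have hδ := hK.δ_pos
  have ham := hK.am_pos
  have hN1 := hK.N1_ge
  have hg : ∀ θ ∈ Ioo 0 π, ∀ t ∈ J, Bds K S 1 (θ, t) ∧ Geo0 K S (θ, t) ∧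
      (S.φ (θ, t) ≤ K.δ → Trap K S (θ, t)) := fun θ hθ t ht =>
    have := (hG t ht).1 (θ, t) ⟨hθ, hS.time.nonneg t ht, le_rfl⟩
    ⟨this.1, this.2.1, this.2.2.1⟩
  set r := K.am * m ^ 3 / 2 with hr_def
  have hr : 0 < r := by positivity
  have hρ : ∀ θ ∈ Ioo 0 π, ∀ t ∈ J, r ≤ S.ρ (θ, t) ^ 2 ∧ S.ρ (θ, t) ^ 2 ≤ 1 := by
    intro θ hθ t ht
    have h1 := (hg θ hθ t ht).1.rho
    have h2 : m ^ 3 ≤ S.σ (θ, t) ^ 3 := pow_le_pow_left₀ hm.le (hσ t ht) 3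
    exact ⟨by nlinarith, pow_le_one₀ (S.ρ_pos hq2 _).le (hg θ hθ t ht).2.1.ρ_le⟩
  have hA : Bdd J S.A := ⟨1, fun θ hθ t ht => (hg θ hθ t ht).1.A⟩
  have hφ : Bdd J S.φ := ⟨2, fun θ hθ t ht => by
    refine abs_le_of_sq_le_sq ?_ (by norm_num)
    linarith [(hg θ hθ t ht).2.1.φ_sq_le, (hρ θ hθ t ht).2]⟩
  have ha : Bdd J S.a := Bdd.of_mul (g := fun p => S.ρ p ^ 2) (C := 1 / 100 + K.N1) hr
    fun θ hθ t ht => ⟨(hρ θ hθ t ht).1, by nlinarith [(hg θ hθ t ht).2.1.a_le, (hρ θ hθ t ht).2]⟩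
  have hb : Bdd J S.b := Bdd.of_mul (g := fun p => S.ρ p ^ 2) (C := 1 / 100 + K.N1) hr
    fun θ hθ t ht => ⟨(hρ θ hθ t ht).1, by nlinarith [(hg θ hθ t ht).2.1.b_le, (hρ θ hθ t ht).2]⟩
  have hc : Bdd J S.c := Bdd.of_mul (g := fun p => S.ρ p ^ 2) (C := 1 / 100 + K.N1) hr
    fun θ hθ t ht => ⟨(hρ θ hθ t ht).1, by nlinarith [(hg θ hθ t ht).2.1.c_le, (hρ θ hθ t ht).2]⟩
  have hkk : Bdd J S.kk := by
    refine Bdd.of_cases (B := 5 / r) (C := 1 / K.δ ^ 2) fun θ hθ t ht => ?_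
    rcases le_or_gt (S.φ (θ, t)) K.δ with h | h
    · left
      have h1 := ((hg θ hθ t ht).2.2 h).kk_le
      have h2 := mul_nonneg (sq_nonneg (S.ρ (θ, t))) (abs_nonneg (S.kk (θ, t)))
      rw [le_div_iff₀ hr]
      nlinarith [(hρ θ hθ t ht).1, abs_nonneg (S.kk (θ, t))]
    · right
      have h1 := hS.kk_eq θ t ht
      have h2 : S.A (θ, t) ^ 2 ≤ 1 := by
        rw [← sq_abs]; exact pow_le_one₀ (abs_nonneg _) (hg θ hθ t ht).1.A
      have h3 : K.δ ^ 2 ≤ S.φ (θ, t) ^ 2 := pow_le_pow_left₀ hδ.le h.le 2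
      have h4 : S.φ (θ, t) ^ 2 * |S.kk (θ, t)| ≤ 1 := by
        rw [← abs_of_nonneg (sq_nonneg (S.φ (θ, t))), ← abs_mul, h1, abs_le]
        constructor <;> nlinarith [sq_nonneg (S.A (θ, t))]
      rw [le_div_iff₀ (by positivity)]
      nlinarith [abs_nonneg (S.kk (θ, t))]
  have hvv : Bdd J S.vv := by
    refine Bdd.of_cases (B := 4 / r) (C := 3 / K.δ ^ 2) fun θ hθ t ht => ?_
    rcases le_or_gt (S.φ (θ, t)) K.δ with h | h
    · left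
      have h1 := ((hg θ hθ t ht).2.2 h).vv_le
      have h2 := ((hg θ hθ t ht).2.2 h).A_sq
      have h3 : 44 / (K.q : ℝ) ≤ 1 := by rw [div_le_one (by linarith)]; linarith
      have h4 : 21 / (K.q : ℝ) ≤ 1 / 2 := by rw [div_le_iff₀ (by linarith)]; linarith
      have h5 : 1 / 2 ≤ |S.A (θ, t)| := by
        refine le_of_sq_le_sq ?_ (abs_nonneg _)
        rw [sq_abs]; linarith
      have h6 : S.ρ (θ, t) ^ 2 * (|S.A (θ, t)| * |S.vv (θ, t)|) ≤ 2 := by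
        rw [← abs_of_nonneg (sq_nonneg (S.ρ (θ, t))), ← abs_mul, ← abs_mul, abs_le]
        constructor <;> linarith [(abs_le.1 h1).1, (abs_le.1 h1).2]
      have h7 : r * (1 / 2 * |S.vv (θ, t)|) ≤ S.ρ (θ, t) ^ 2 * (|S.A (θ, t)| * |S.vv (θ, t)|) :=
        mul_le_mul (hρ θ hθ t ht).1 (mul_le_mul_of_nonneg_right h5 (abs_nonneg _)) (by positivity)
          (sq_nonneg _)
      rw [le_div_iff₀ hr]
      linarith
    · right
      have h1 := hS.vv_eq θ t ht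
      have h2 := S.β_eq (θ, t)
      have h3 : K.δ ^ 2 ≤ S.φ (θ, t) ^ 2 := pow_le_pow_left₀ hδ.le h.le 2
      have h4 : S.φ (θ, t) ^ 2 * |S.vv (θ, t)| ≤ 3 := by
        rw [← abs_of_nonneg (sq_nonneg (S.φ (θ, t))), ← abs_mul,
          show S.φ (θ, t) ^ 2 * S.vv (θ, t) = S.A (θ, t) + S.P (θ, t) by rw [← h2, ← h1]; ring]
        linarith [abs_add_le (S.A (θ, t)) (S.P (θ, t)), (hg θ hθ t ht).1.A, (hg θ hθ t ht).1.P]
      rw [le_div_iff₀ (by positivity)]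
      nlinarith [abs_nonneg (S.vv (θ, t))]
  have hhh : Bdd J S.hh := ((((Bdd.const (-1)).mul hb).add (((Bdd.const (-2)).mul hA).mul hvv)).add
    ((Bdd.const ((S.q : ℝ) - 1)).mul hkk)).congr fun θ _ t _ => by simp only [Data.b]; ring
  have hβ : Bdd J S.β := (hφ.mul hvv).congr fun θ _ t ht => (hS.vv_eq θ t ht).symm
  have hq1 : (0 : ℝ) < (S.q : ℝ) - 1 := by rw [hq]; linarith
  have hexp : Bdd J (fun p => exp (-2 * S.u p)) :=
    Bdd.of_mul (g := fun p => S.ρ p ^ 2) (C := (S.q : ℝ) - 1) hr fun θ hθ t ht =>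
      ⟨(hρ θ hθ t ht).1, by
        have := (S.ρ_pos hq2 (θ, t)).ne'
        rw [abs_of_pos (exp_pos _), S.ρ_sq hq2]; exact le_of_eq (by field_simp)⟩
  have hdβ : Bdd J (S.Ds S.β) := (((((Bdd.const (-1)).mul hc).add
    (((Bdd.const (-(S.q : ℝ))).mul hA).mul hvv)).add (((Bdd.const (-2)).mul hβ).mul hβ)).add
      hexp).congr fun θ _ t _ => by simp only [Data.c]; ring
  have hu : Bdd J S.u := by
    obtain ⟨B, hB⟩ := hexp
    refine ⟨B, fun θ hθ t ht => ?_⟩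
    have h1 := hB θ hθ t ht
    have h2 : 1 ≤ exp (-2 * S.u (θ, t)) := by
      have := S.ρ_pos hq2 (θ, t)
      rw [S.ρ_sq hq2, le_div_iff₀ (by positivity), hq]
      linarith [(hρ θ hθ t ht).2]
    have h3 := one_le_exp_iff.1 h2
    have h4 := add_one_le_exp (-2 * S.u (θ, t))
    rw [abs_of_pos (exp_pos _)] at h1
    rw [abs_of_nonpos (by linarith)]
    linarith
  obtain ⟨C, hC⟩ := ha
  have hσ0 : ∀ t ∈ J, 0 ≤ S.sg t := fun t ht => hm.le.trans (hσ t ht)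
  set L := |log (S.l 0)| + C * S.sg 0 with hL
  have hl : ∀ t ∈ J, |log (S.l t)| ≤ L := fun t ht => hS.log_l_le hσ0 hC ht
  refine ⟨hS.bddAbove hσ0 (exp_pos (-L)) fun t ht =>
    (le_log_iff_exp_le (hS.l_pos t ht)).1 (abs_le.1 (hl t ht)).1, ?_⟩
  have hsin : ∀ θ ∈ Ioc 0 (π / 2), ∀ t ∈ J,
      S.l t * sin θ ≤ max 2 (exp L / K.δ) * S.φ (θ, t) := by
    intro θ hθ t ht
    have hl0 := hS.l_pos t ht
    have hφ0 := hS.φ_pos θ ⟨hθ.1, by linarith [hθ.2, pi_pos]⟩ t ht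
    rcases le_or_gt (S.φ (θ, t)) K.δ with h | h
    · have h1 := ((hG t ht).2.1 t ⟨hS.time.nonneg t ht, le_rfl⟩ θ hθ h).2
      obtain ⟨x, hx, h2⟩ := exists_hasDerivAt_eq_slope (fun y => S.φ (y, t))
        (fun y => S.l t * S.A (y, t)) hθ.1
        (fun y _ => (hS.hasDerivAt_slice hS.sm_φ y ht).continuousAt.continuousWithinAt)
        fun y _ => hS.hasDerivAt_slice hS.sm_φ y ht
      rw [hS.φ_zero ht, sub_zero, sub_zero, eq_div_iff hθ.1.ne'] at h2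
      have h3 := (h1 x (Ioo_subset_Icc_self hx)).2
      have h4 : 21 / (K.q : ℝ) ≤ 1 / 2 := by rw [div_le_iff₀ (by linarith)]; linarith
      have h5 := sin_le hθ.1.le
      have h6 : S.l t * θ * (1 / 2) ≤ S.l t * θ * S.A (x, t) :=
        mul_le_mul_of_nonneg_left (by linarith) (mul_pos hl0 hθ.1).le
      calc S.l t * sin θ ≤ S.l t * θ := mul_le_mul_of_nonneg_left h5 hl0.le
        _ ≤ 2 * S.φ (θ, t) := by linarith
        _ ≤ _ := mul_le_mul_of_nonneg_right (le_max_left _ _) hφ0.le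
    · have h1 : S.l t ≤ exp L := (log_le_iff_le_exp hl0).1 (abs_le.1 (hl t ht)).2
      calc S.l t * sin θ ≤ exp L * 1 :=
            mul_le_mul h1 (sin_le_one θ)
              (sin_nonneg_of_nonneg_of_le_pi hθ.1.le (by linarith [hθ.2, pi_pos])) (exp_pos _).le
        _ = exp L / K.δ * K.δ := by field_simp
        _ ≤ exp L / K.δ * S.φ (θ, t) := mul_le_mul_of_nonneg_left h.le (by positivity)
        _ ≤ _ := mul_le_mul_of_nonneg_right (le_max_right _ _) hφ0.le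
  obtain ⟨B, ⟨⟨⟨⟨⟨⟨⟨h1, h2⟩, h3⟩, h4⟩, h5⟩, h6⟩, h7⟩, h8⟩, h9⟩ :=
    ((((((((hkk.ev.and hvv.ev).and hhh.ev).and hdβ.ev).and hA.ev).and hφ.ev).and hu.ev).and
      (eventually_ge_atTop L)).and (eventually_ge_atTop (max 2 (exp L / K.δ)))).exists
  refine ⟨B, fun θ hθ t ht => ⟨h1 θ hθ t ht, h2 θ hθ t ht, h3 θ hθ t ht, h4 θ hθ t ht,
    h5 θ hθ t ht, h6 θ hθ t ht, h7 θ hθ t ht, (hl t ht).trans h8, ?_⟩⟩
  refine le_trans ?_ (mul_le_mul_of_nonneg_right h9 (hS.φ_pos θ hθ t ht).le)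
  rcases le_total θ (π / 2) with h | h
  · exact hsin θ ⟨hθ.1, h⟩ t ht
  · have := hsin (π - θ) ⟨by linarith [hθ.2], by linarith⟩ t ht
    rwa [sin_pi_sub, hS.φ_sym θ t ht] at this

/-- At the pole `ρ` is small when `σ` is small. -/
theorem pole_small (hK : K.OK) (hq : S.q = K.q) (hS : Sol S J) {T : ℝ} (hT : T ∈ J)
    (hσ : 0 < S.sg T) (hσ1 : S.sg T ≤ 1) (hG : Good K S T) : exp (S.u (0, T)) ≤ S.sg T := by
  have hq2 : 2 ≤ S.q := by rw [hq]; exact le_trans (by norm_num) hK.q_ge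
  have hqR : (10000 : ℝ) ≤ K.q := hK.q_geR
  have hT' : T ∈ Icc 0 T := ⟨hS.time.nonneg T hT, le_rfl⟩
  have h0 : (0 : ℝ) ∈ Icc 0 π := ⟨le_rfl, pi_pos.le⟩
  have h1 := nonneg_closed_θ (f := fun p => 1 * bdW K S 3 p - bdL K S 3 p)
    ((continuousOn_const.mul (bdW_cont hS hq2 hT hσ 3)).sub (bdL_cont hS hq2 hT 3)) hT'
    (fun x hx => sub_nonneg.2 (bds_iff.1 (hG.1 (x, T) ⟨hx, hT'⟩).1 3)) 0 h0
  have h2 := nonneg_closed_θ (f := fun p => 1 - S.ρ p)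
    (continuousOn_const.sub (hS.cont hT hS.sm_ρ)) hT'
    (fun x hx => sub_nonneg.2 (hG.1 (x, T) ⟨hx, hT'⟩).2.1.ρ_le) 0 h0
  simp only [bdL, bdW, Matrix.cons_val, Data.E, hS.φ_zero hT, Data.F1, Data.F2, Data.σ] at h1
  have hρ := S.ρ_pos hq2 (0, T)
  have hlam := hK.lam_ge
  have ham := hK.am_small
  have ham0 := hK.am_pos
  have h3 : S.ρ (0, T) ^ (2 * K.lam) ≤ 1 := rpow_le_one hρ.le (by linarith) (by linarith)
  have h4 : S.sg T ^ (K.lam + 41 / 40) ≤ S.sg T ^ (41 / 20 : ℝ) :=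
    rpow_le_rpow_of_exponent_ge hσ hσ1 (by linarith)
  have h5 : S.ρ (0, T) ≤ S.sg T := by
    by_contra hlt
    have h6 : S.sg T ^ (41 / 20 : ℝ) ≤ S.ρ (0, T) ^ (41 / 20 : ℝ) :=
      rpow_le_rpow hσ.le (not_le.1 hlt).le (by norm_num)
    have h7 : S.sg T ^ (K.lam + 41 / 40) * S.ρ (0, T) ^ (-41 / 20 : ℝ) ≤ 1 := by
      rw [show (-41 / 20 : ℝ) = -(41 / 20) by norm_num, rpow_neg hρ.le, ← div_eq_mul_inv,
        div_le_one (rpow_pos_of_pos hρ _)]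
      exact h4.trans h6
    norm_num at h1 ham
    nlinarith
  have h8 : 1 ≤ √((S.q : ℝ) - 1) := by rw [one_le_sqrt, hq]; linarith
  have h9 := exp_pos (S.u (0, T))
  unfold Data.ρ at h5
  nlinarith

end Vale.Agent.P244Z.Q
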