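import Mathlib.Geometry.Manifold.Instances.Real
import Mathlib.Geometry.Manifold.MFDeriv.Atlas
import Mathlib.LinearAlgebra.Matrix.NonsingularInverse

/-!
Definitions for the statement: Ricci and scalar curvature in coordinates, Ricci flows on a smooth
manifold.
-/

open scoped Manifold ContDiff
open Set

namespace Vale.Agent.P244Z.Geo

/-- Euclidean `n`-space. -/
abbrev Euc (n : ℕ) : Type := EuclideanSpace ℝ (Fin n)

variable {n : ℕ}

/-- The derivative `∂_i f` in the direction of the `i`-th coordinate. -/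
noncomputable def pd (i : Fin n) (f : Euc n → ℝ) (y : Euc n) : ℝ :=
  fderiv ℝ f y (EuclideanSpace.single i 1)

/-- The Christoffel symbol `Γ^k_ij = (1/2) g^kl (∂_i g_jl + ∂_j g_il - ∂_l g_ij)` of a metric with
matrix `G` in coordinates. -/
noncomputable def christoffel (G : Euc n → Matrix (Fin n) (Fin n) ℝ) (y : Euc n)
    (k i j : Fin n) : ℝ :=
  (1 / 2) * ∑ l, (G y)⁻¹ k l *
    (pd i (fun z => G z j l) y + pd j (fun z => G z i l) y - pd l (fun z => G z i j) y)

/-- The Ricci tensor `R_ij = ∂_k Γ^k_ij - ∂_i Γ^k_kj + Γ^k_kl Γ^l_ij - Γ^k_il Γ^l_kj`. -/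
noncomputable def ricci (G : Euc n → Matrix (Fin n) (Fin n) ℝ) (y : Euc n) (i j : Fin n) : ℝ :=
  ∑ k, (pd k (fun z => christoffel G z k i j) y - pd i (fun z => christoffel G z k k j) y) +
    ∑ k, ∑ l, (christoffel G y k k l * christoffel G y l i j -
      christoffel G y k i l * christoffel G y l k j)

/-- The scalar curvature `R = g^ij R_ij`. -/
noncomputable def scalar (G : Euc n → Matrix (Fin n) (Fin n) ℝ) (y : Euc n) : ℝ :=
  ∑ i, ∑ j, (G y)⁻¹ i j * ricci G y i j

/-- `b` is an inner product on `V`: bilinear, symmetric and positive definite. -/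
structure IsInner {V : Type} [AddCommGroup V] [Module ℝ V] (b : V → V → ℝ) : Prop where
  lin : ∀ u, IsLinearMap ℝ (b u)
  symm : ∀ u v, b u v = b v u
  pos : ∀ v, v ≠ 0 → 0 < b v v

/-- The differential of `f` at `y`, applied to the tangent vector `u`. -/
noncomputable def push {E : Type} [NormedAddCommGroup E] [NormedSpace ℝ E] {H : Type}
    [TopologicalSpace H] (I : ModelWithCorners ℝ E H) {N : Type} [TopologicalSpace N]
    [ChartedSpace H N] {M : Type} [TopologicalSpace M] [ChartedSpace H M] (f : N → M) (y : N)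
    (u : TangentSpace I y) : TangentSpace I (f y) :=
  mfderiv I I f y u

/-- Real functions of two tangent vectors at the same point of `M`. -/
abbrev Tensor (n : ℕ) (M : Type) [TopologicalSpace M] [ChartedSpace (Euc n) M] : Type :=
  (x : M) → TangentSpace (𝓡 n) x → TangentSpace (𝓡 n) x → ℝ

variable {M : Type} [TopologicalSpace M] [ChartedSpace (Euc n) M]

/-- `g x` is an inner product on the tangent space at `x`, for every `x`. -/
def IsMetric (g : Tensor n M) : Prop := ∀ x, IsInner (g x)

/-- The matrix `g_ij(y) = g(∂/∂y^i, ∂/∂y^j)` of `g` in the chart `e`, at the point with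
coordinates `y`. -/
noncomputable def inChart (g : Tensor n M) (e : OpenPartialHomeomorph M (Euc n)) (y : Euc n) :
    Matrix (Fin n) (Fin n) ℝ :=
  Matrix.of fun i j => g (e.symm y) (push (𝓡 n) e.symm y (EuclideanSpace.single i 1))
    (push (𝓡 n) e.symm y (EuclideanSpace.single j 1))

/-- The scalar curvature of `g` at the point `x` of `M`. -/
noncomputable def scalarCurv (g : Tensor n M) (x : M) : ℝ :=
  scalar (inChart g (chartAt (Euc n) x)) (chartAt (Euc n) x x)

/-- `g t`, `0 ≤ t < T`, is a smooth Ricci flow: a family of Riemannian metrics, smooth in space and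
time on `[0,T) × M`, with `∂_t g = -2 Ric`, in every chart of the atlas. -/
structure IsRicciFlow (g : ℝ → Tensor n M) (T : ℝ) : Prop where
  metric : ∀ t ∈ Ico 0 T, IsMetric (g t)
  smooth : ∀ e ∈ atlas (Euc n) M, ∀ i j, ContDiffOn ℝ ∞
    (fun z : ℝ × Euc n => inChart (g z.1) e z.2 i j) (Ico 0 T ×ˢ e.target)
  flow : ∀ e ∈ atlas (Euc n) M, ∀ t ∈ Ico 0 T, ∀ y ∈ e.target, ∀ i j,
    HasDerivWithinAt (fun s => inChart (g s) e y i j) (-2 * ricci (inChart (g t) e) y i j)
      (Ico 0 T) t

/-- The flow `g` on `[0,T)` extends past `T`. -/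
def ExtendsPast (g : ℝ → Tensor n M) (T : ℝ) : Prop :=
  ∃ ε > 0, ∃ g' : ℝ → Tensor n M, IsRicciFlow g' (T + ε) ∧ ∀ t ∈ Ico 0 T, g' t = g t

/-- There is a closed connected smooth `n`-manifold with a smooth Ricci flow on a bounded time
interval `[0,T)` which has bounded scalar curvature and does not extend past `T`. -/
def Counterexample (n : ℕ) : Prop :=
  ∃ (M : Type) (_ : TopologicalSpace M) (_ : T2Space M) (_ : CompactSpace M) (_ : ConnectedSpace M)
    (_ : ChartedSpace (Euc n) M) (_ : IsManifold (𝓡 n) ∞ M) (T : ℝ) (g : ℝ → Tensor n M),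
    0 < T ∧ IsRicciFlow g T ∧ (∃ C : ℝ, ∀ t ∈ Ico 0 T, ∀ x, |scalarCurv (g t) x| ≤ C) ∧
      ¬ ExtendsPast g T

end Vale.Agent.P244Z.Geo
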