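import Mathlib.Analysis.Calculus.ParametricIntervalIntegral
import Mathlib.Analysis.Calculus.ContDiff.Deriv
import Mathlib.Analysis.Calculus.ContDiff.RCLike
import Mathlib.Analysis.Calculus.BumpFunction.FiniteDimension
import Mathlib.Analysis.Calculus.BumpFunction.InnerProduct
import Mathlib.Analysis.SpecialFunctions.Integrals.Basic
import Mathlib.MeasureTheory.Integral.DominatedConvergence
import Mathlib.MeasureTheory.Integral.IntervalIntegral.FundThmCalculus
import Mathlib.Topology.MetricSpace.Contracting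
import Mathlib.Topology.ContinuousMap.Bounded.Normed

/-!
# Smooth solutions of a scalar equation with a regular singular point

The equation `r μ'(r) + ((k+1)/2) μ(r) = r R(r, μ(r))` with `R` smooth near the origin has a smooth
solution with `μ(0) = 0`.  It is the fixed point of
`μ(r) = r ∫₀¹ 2 s^(k+2) R(r s², μ(r s²)) ds`.
-/

open scoped ContDiff Topology BoundedContinuousFunction
open Set Filter MeasureTheory

namespace Vale.Agent.P244Z.Bubble

/-- The averaging operator `g ↦ ∫₀¹ 2 s^k g(r s²) ds`. -/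
noncomputable def avg (k : ℕ) (g : ℝ → ℝ) (r : ℝ) : ℝ :=
  ∫ s in (0 : ℝ)..1, 2 * s ^ k * g (r * s ^ 2)

theorem avg_continuous (k : ℕ) {g : ℝ → ℝ} (hg : Continuous g) : Continuous (avg k g) := by
  unfold avg
  exact intervalIntegral.continuous_parametric_intervalIntegral_of_continuous'
    (f := fun r s : ℝ => 2 * s ^ k * g (r * s ^ 2)) (by fun_prop) 0 1

theorem avg_hasDerivAt (k : ℕ) {g g' : ℝ → ℝ} (hg : ∀ x, HasDerivAt g (g' x) x)
    (hg' : Continuous g') (r : ℝ) : HasDerivAt (avg k g) (avg (k + 2) g' r) r := by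
  have hgc : Continuous g := continuous_iff_continuousAt.2 fun x => (hg x).continuousAt
  obtain ⟨C, hC⟩ := (isCompact_closedBall (0 : ℝ) (|r| + 1)).exists_bound_of_continuousOn
    hg'.continuousOn
  have key := intervalIntegral.hasDerivAt_integral_of_dominated_loc_of_deriv_le
    (μ := volume) (a := 0) (b := 1) (x₀ := r) (s := Metric.ball r 1)
    (F := fun r s : ℝ => 2 * s ^ k * g (r * s ^ 2))
    (F' := fun r s : ℝ => 2 * s ^ (k + 2) * g' (r * s ^ 2)) (bound := fun _ => 2 * C)
    (Metric.ball_mem_nhds r one_pos)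
    (Eventually.of_forall fun x => Continuous.aestronglyMeasurable (by fun_prop))
    (Continuous.intervalIntegrable (by fun_prop) _ _)
    (Continuous.aestronglyMeasurable (by fun_prop))
    (Eventually.of_forall fun s hs x hx => by
      rw [uIoc_of_le zero_le_one] at hs
      have hs2 : s ^ 2 ≤ 1 := pow_le_one₀ hs.1.le hs.2
      have hx' : |x| ≤ |r| + 1 := by
        have h1 : |x - r| < 1 := by simpa [Real.dist_eq] using hx
        have h2 := abs_sub_abs_le_abs_sub x r
        linarith
      have hmem : x * s ^ 2 ∈ Metric.closedBall (0 : ℝ) (|r| + 1) := by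
        rw [mem_closedBall_zero_iff, Real.norm_eq_abs, abs_mul, abs_of_nonneg (sq_nonneg s)]
        nlinarith [abs_nonneg x, sq_nonneg s]
      have hb := hC _ hmem
      have hp : s ^ (k + 2) ≤ 1 := pow_le_one₀ hs.1.le hs.2
      have hp0 : 0 ≤ s ^ (k + 2) := pow_nonneg hs.1.le _
      rw [norm_mul, Real.norm_eq_abs, abs_of_nonneg (by positivity)]
      nlinarith [norm_nonneg (g' (x * s ^ 2))])
    intervalIntegrable_const
    (Eventually.of_forall fun s _ x _ => by
      have h1 : HasDerivAt (fun x : ℝ => x * s ^ 2) (s ^ 2) x := by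
        simpa using (hasDerivAt_id x).mul_const (s ^ 2)
      refine (((hg (x * s ^ 2)).comp x h1).const_mul (2 * s ^ k)).congr_deriv ?_
      ring)
  exact key.2

theorem avg_contDiff (n : ℕ) : ∀ (k : ℕ) {g : ℝ → ℝ}, ContDiff ℝ n g → ContDiff ℝ n (avg k g) := by
  induction n with
  | zero =>
    intro k g hg
    exact contDiff_zero.2 (avg_continuous k hg.continuous)
  | succ n ih =>
    intro k g hg
    rw [Nat.cast_succ, contDiff_succ_iff_deriv] at hg ⊢
    have hd : ∀ r, HasDerivAt (avg k g) (avg (k + 2) (deriv g) r) r :=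
      avg_hasDerivAt k (fun x => (hg.1 x).hasDerivAt) hg.2.2.continuous
    refine ⟨fun r => (hd r).differentiableAt, by simp, ?_⟩
    rw [show deriv (avg k g) = avg (k + 2) (deriv g) from funext fun r => (hd r).deriv]
    exact ih _ hg.2.2

/-- Integration by parts against a primitive `G` of `g` with `G 0 = 0`. -/
theorem mul_avg_eq (k : ℕ) {G g : ℝ → ℝ} (hG : ∀ x, HasDerivAt G (g x) x) (hg : Continuous g)
    (h0 : G 0 = 0) (r : ℝ) : r * avg (k + 1) g r = G r - k / 2 * avg (k - 1) G r := by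
  have hGc : Continuous G := continuous_iff_continuousAt.2 fun x => (hG x).continuousAt
  have h := intervalIntegral.integral_eq_sub_of_hasDerivAt (a := (0 : ℝ)) (b := 1)
    (f := fun s : ℝ => s ^ k * G (r * s ^ 2))
    (f' := fun s : ℝ => r * (2 * s ^ (k + 1) * g (r * s ^ 2)) +
      (k / 2) * (2 * s ^ (k - 1) * G (r * s ^ 2)))
    (fun s _ => by
      have h1 : HasDerivAt (fun s : ℝ => r * s ^ 2) (r * (2 * s)) s := by
        simpa using (hasDerivAt_pow 2 s).const_mul r
      refine ((hasDerivAt_pow k s).fun_mul ((hG (r * s ^ 2)).comp s h1)).congr_deriv ?_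
      simp only [Function.comp]
      ring)
    (Continuous.intervalIntegrable (by fun_prop) _ _)
  rw [intervalIntegral.integral_add (Continuous.intervalIntegrable (by fun_prop) _ _)
    (Continuous.intervalIntegrable (by fun_prop) _ _), intervalIntegral.integral_const_mul,
    intervalIntegral.integral_const_mul] at h
  simp only [one_pow, mul_one, one_mul, ne_eq, OfNat.ofNat_ne_zero, not_false_eq_true, zero_pow,
    mul_zero, h0, sub_zero] at h
  simp only [avg]
  linarith

/-- The function `r ↦ r avg (k+1) g r` is differentiable as soon as `g` is continuous. -/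
theorem mul_avg_hasDerivAt (k : ℕ) {g : ℝ → ℝ} (hg : Continuous g) (r : ℝ) :
    HasDerivAt (fun r => r * avg (k + 1) g r) (g r - k / 2 * avg (k + 1) g r) r := by
  have hG : ∀ x, HasDerivAt (fun x => ∫ s in (0 : ℝ)..x, g s) (g x) x :=
    fun x => (hg.integral_hasStrictDerivAt 0 x).hasDerivAt
  have e : (fun r => r * avg (k + 1) g r) = fun r => (∫ s in (0 : ℝ)..r, g s) -
      k / 2 * avg (k - 1) (fun x => ∫ s in (0 : ℝ)..x, g s) r :=
    funext fun r => mul_avg_eq k hG hg (by simp) r
  rw [e]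
  refine ((hG r).sub ((avg_hasDerivAt (k - 1) hG hg r).const_mul _)).congr_deriv ?_
  rcases Nat.eq_zero_or_pos k with rfl | hk
  · simp
  · rw [show k - 1 + 2 = k + 1 by omega]

theorem abs_avg_le (k : ℕ) {g : ℝ → ℝ} {C : ℝ} {r : ℝ}
    (h : ∀ s ∈ Icc (0 : ℝ) 1, |g (r * s ^ 2)| ≤ C) : |avg k g r| ≤ 2 * C := by
  have := intervalIntegral.norm_integral_le_of_norm_le_const (a := (0 : ℝ)) (b := 1) (C := 2 * C)
    (f := fun s : ℝ => 2 * s ^ k * g (r * s ^ 2)) fun s hs => by
      rw [uIoc_of_le zero_le_one] at hs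
      have hp : s ^ k ≤ 1 := pow_le_one₀ hs.1.le hs.2
      have hp0 : 0 ≤ s ^ k := pow_nonneg hs.1.le _
      have hb := h s ⟨hs.1.le, hs.2⟩
      rw [norm_mul, Real.norm_eq_abs, Real.norm_eq_abs, abs_of_nonneg (by positivity)]
      nlinarith [abs_nonneg (g (r * s ^ 2))]
  simpa [avg] using this

theorem avg_sub (k : ℕ) {g h : ℝ → ℝ} (hg : Continuous g) (hh : Continuous h) (r : ℝ) :
    avg k (fun x => g x - h x) r = avg k g r - avg k h r := by
  simp only [avg]
  rw [← intervalIntegral.integral_sub (Continuous.intervalIntegrable (by fun_prop) _ _)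
    (Continuous.intervalIntegrable (by fun_prop) _ _)]
  congr 1
  funext s
  ring

theorem mul_avg_succ (k : ℕ) (g : ℝ → ℝ) (r : ℝ) :
    r * avg (k + 2) g r = avg k (fun x => x * g x) r := by
  simp only [avg]
  rw [← intervalIntegral.integral_const_mul]
  congr 1
  funext s
  ring

/-- A continuous solution of the integral equation is smooth and solves the equation. -/
theorem smooth_of_fixed (k : ℕ) {R : ℝ × ℝ → ℝ} (hR : ContDiff ℝ ∞ R) {μ : ℝ → ℝ}
    (hμ : Continuous μ) (hfix : ∀ r, μ r = r * avg (k + 1) (fun x => R (x, μ x)) r) :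
    ContDiff ℝ ∞ μ ∧ ∀ r, r * deriv μ r + k / 2 * μ r = r * R (r, μ r) := by
  have hg : Continuous fun x => R (x, μ x) := hR.continuous.comp (by fun_prop)
  have hd : ∀ r, HasDerivAt μ (R (r, μ r) - k / 2 * avg (k + 1) (fun x => R (x, μ x)) r) r := by
    intro r
    have := mul_avg_hasDerivAt k hg r
    rwa [← funext hfix] at this
  have hder : deriv μ = fun r => R (r, μ r) - k / 2 * avg (k + 1) (fun x => R (x, μ x)) r :=
    funext fun r => (hd r).deriv
  refine ⟨contDiff_infty.2 fun n => ?_, fun r => ?_⟩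
  · induction n with
    | zero => exact contDiff_zero.2 hμ
    | succ n ih =>
      rw [Nat.cast_succ, contDiff_succ_iff_deriv]
      refine ⟨fun r => (hd r).differentiableAt, by simp, ?_⟩
      have h1 : ContDiff ℝ n fun x => R (x, μ x) :=
        (hR.of_le (by exact_mod_cast le_top)).comp (contDiff_id.prodMk ih)
      rw [hder]
      exact h1.sub (contDiff_const.mul (avg_contDiff n _ h1))
  · rw [hder]
    conv_lhs => rw [hfix r]
    ring

/-- Existence for a globally small and smooth right-hand side. -/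
theorem exists_fixed (k : ℕ) {R : ℝ × ℝ → ℝ} (hR : Continuous R) {δ C L : ℝ} (hδ : 0 ≤ δ)
    (hL : 0 ≤ L) (hsmall : δ * L ≤ 1 / 4) (hsupp : ∀ r y, δ ≤ |r| → R (r, y) = 0)
    (hC : ∀ z, |R z| ≤ C) (hlip : ∀ r y y', |R (r, y) - R (r, y')| ≤ L * |y - y'|) :
    ∃ μ : ℝ → ℝ, Continuous μ ∧ ∀ r, μ r = r * avg (k + 2) (fun x => R (x, μ x)) r := by
  have hC0 : 0 ≤ C := (abs_nonneg _).trans (hC 0)
  have hb : ∀ x y, |x * R (x, y)| ≤ δ * C := by
    intro x y
    rcases le_total δ |x| with h | h
    · rw [hsupp x y h, mul_zero, abs_zero]; positivity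
    · rw [abs_mul]; exact mul_le_mul h (hC _) (abs_nonneg _) hδ
  have hl : ∀ x y y', |x * R (x, y) - x * R (x, y')| ≤ 1 / 4 * |y - y'| := by
    intro x y y'
    rcases le_total δ |x| with h | h
    · rw [hsupp x y h, hsupp x y' h]; simp
    · rw [← mul_sub, abs_mul]
      calc |x| * |R (x, y) - R (x, y')| ≤ δ * (L * |y - y'|) :=
            mul_le_mul h (hlip x y y') (abs_nonneg _) hδ
        _ = δ * L * |y - y'| := by ring
        _ ≤ 1 / 4 * |y - y'| := mul_le_mul_of_nonneg_right hsmall (abs_nonneg _)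
  have hcont : ∀ f : ℝ →ᵇ ℝ, Continuous fun x => x * R (x, f x) := fun f =>
    continuous_id.mul (hR.comp (continuous_id.prodMk f.continuous))
  let T : (ℝ →ᵇ ℝ) → (ℝ →ᵇ ℝ) := fun f =>
    BoundedContinuousFunction.ofNormedAddCommGroup (avg k fun x => x * R (x, f x))
      (avg_continuous k (hcont f)) (2 * (δ * C)) fun r => abs_avg_le k fun s _ => hb _ _
  have hT : ∀ f r, T f r = avg k (fun x => x * R (x, f x)) r := fun f r => rfl
  have hcontr : ContractingWith (1 / 2) T := by
    refine ⟨by norm_num, LipschitzWith.of_dist_le_mul fun f g => ?_⟩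
    refine (BoundedContinuousFunction.dist_le (by positivity)).2 fun r => ?_
    rw [hT, hT, Real.dist_eq, ← avg_sub k (hcont f) (hcont g)]
    refine (abs_avg_le k (C := 1 / 4 * dist f g) fun s _ => (hl _ _ _).trans ?_).trans_eq ?_
    · have := BoundedContinuousFunction.dist_coe_le_dist (f := f) (g := g) (r * s ^ 2)
      rw [Real.dist_eq] at this
      linarith
    · push_cast
      ring
  obtain ⟨f, hf⟩ : ∃ f, T f = f := ⟨_, hcontr.fixedPoint_isFixedPt⟩
  refine ⟨f, f.continuous, fun r => ?_⟩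
  rw [mul_avg_succ, ← hT, hf]

/-- **Regular singular point.**  If `R` is smooth on an open set containing the origin, the equation
`r μ' + ((k+1)/2) μ = r R(r, μ)` has a smooth solution near `0` with `μ 0 = 0`. -/
theorem briot_bouquet (k : ℕ) {U : Set (ℝ × ℝ)} (hU : IsOpen U) (h0 : (0 : ℝ × ℝ) ∈ U)
    {R : ℝ × ℝ → ℝ} (hR : ContDiffOn ℝ ∞ R U) :
    ∃ μ : ℝ → ℝ, ContDiff ℝ ∞ μ ∧ μ 0 = 0 ∧
      ∀ᶠ r in 𝓝 (0 : ℝ), r * deriv μ r + (k + 1) / 2 * μ r = r * R (r, μ r) := by
  obtain ⟨ε, hε, hεU⟩ := Metric.isOpen_iff.1 hU 0 h0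
  let χ : ContDiffBump (0 : ℝ × ℝ) := ⟨ε / 4, ε / 2, by positivity, by linarith⟩
  have hχU : tsupport χ ⊆ U := by
    rw [χ.tsupport_eq]
    exact (Metric.closedBall_subset_ball (by simp [χ]; linarith)).trans hεU
  have hR1 : ContDiff ℝ ∞ fun z => χ z * R z := by
    rw [contDiff_iff_contDiffAt]
    intro z
    by_cases hz : z ∈ U
    · exact χ.contDiff.contDiffAt.mul (hR.contDiffAt (hU.mem_nhds hz))
    · have hz' : z ∉ tsupport χ := fun h => hz (hχU h)
      have : (fun z => χ z * R z) =ᶠ[𝓝 z] fun _ => 0 := by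
        filter_upwards [notMem_tsupport_iff_eventuallyEq.1 hz'] with w hw
        simp [hw]
      exact contDiffAt_const.congr_of_eventuallyEq this
  have hsupp1 : HasCompactSupport fun z => χ z * R z := χ.hasCompactSupport.mul_right
  obtain ⟨L, hL⟩ := hR1.lipschitzWith_of_hasCompactSupport hsupp1 (by simp)
  obtain ⟨C, hC⟩ := hsupp1.exists_bound_of_continuous hR1.continuous
  have hL0 : (0 : ℝ) ≤ L := L.2
  let δ : ℝ := 1 / (4 * (L + 1))
  have hδ : 0 < δ := by positivity
  let ξ : ContDiffBump (0 : ℝ) := ⟨δ / 2, δ, by positivity, by linarith⟩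
  have hR2 : ContDiff ℝ ∞ fun z : ℝ × ℝ => ξ z.1 * (χ z * R z) :=
    (ξ.contDiff.comp contDiff_fst).mul hR1
  obtain ⟨μ, hμc, hμ⟩ := exists_fixed k (R := fun z : ℝ × ℝ => ξ z.1 * (χ z * R z))
    hR2.continuous (δ := δ) (C := C) (L := L) hδ.le hL0
    (by
      simp only [δ]
      rw [div_mul_eq_mul_div, div_le_div_iff₀ (by positivity) (by norm_num)]
      linarith)
    (fun r y hr => by
      rw [ξ.zero_of_le_dist (by simpa [ξ, Real.dist_eq] using hr), zero_mul])
    (fun z => by
      rw [abs_mul, abs_of_nonneg ξ.nonneg]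
      have h1 := hC z
      rw [Real.norm_eq_abs] at h1
      exact (mul_le_of_le_one_left (abs_nonneg _) ξ.le_one).trans h1)
    (fun r y y' => by
      rw [← mul_sub, abs_mul, abs_of_nonneg ξ.nonneg]
      have h1 := hL.dist_le_mul (r, y) (r, y')
      rw [Real.dist_eq, Prod.dist_eq, dist_self, Real.dist_eq,
        max_eq_right (abs_nonneg _)] at h1
      exact (mul_le_of_le_one_left (abs_nonneg _) ξ.le_one).trans h1)
  obtain ⟨hs, hode⟩ := smooth_of_fixed (k + 1) hR2 hμc hμ
  have hμ0 : μ 0 = 0 := by rw [hμ 0, zero_mul]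
  refine ⟨μ, hs, hμ0, ?_⟩
  have h1 : ∀ᶠ r in 𝓝 (0 : ℝ), ξ r = 1 := ξ.eventuallyEq_one
  have h2 : ∀ᶠ r in 𝓝 (0 : ℝ), χ (r, μ r) = 1 := by
    have hc : Tendsto (fun r => (r, μ r)) (𝓝 0) (𝓝 (0 : ℝ × ℝ)) := by
      have : Continuous fun r => (r, μ r) := continuous_id.prodMk hμc
      have h := this.tendsto 0
      rwa [hμ0] at h
    exact hc.eventually χ.eventuallyEq_one
  filter_upwards [h1, h2] with r e1 e2
  have := hode r
  simp only [e1, e2, one_mul] at this
  push_cast at this
  exact this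

end Vale.Agent.P244Z.Bubble
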