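import Vale.Agent.P244Z.BubbleCore

/-!
# The Ricci-flat bubble on `ℝ^(q+1) × S²`: equations and bounds in the variable `x = φ`

`bU = log ψ`, `bZ = φ_s²`, `bY = x bU'`, `bE = x² exp (-2 bU) / (q - 1)`, all even smooth functions
of `x = φ`.
-/

open scoped ContDiff Topology
open Set Filter

namespace Vale.Agent.P244Z.Bubble

/-- `e` as a function of `r = x²`. -/
noncomputable def eR (q : ℝ) (P : ℝ → ℝ) (r : ℝ) : ℝ := r * Real.exp (-2 * P r) / (q - 1)

/-- `Y` as a function of `r = x²`. -/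
noncomputable def yR (P : ℝ → ℝ) (r : ℝ) : ℝ := 2 * r * deriv P r

/-- The quadratic polynomial `D`. -/
def dQ (q Y : ℝ) : ℝ := q * (q - 1) + 4 * q * Y + 2 * Y ^ 2

/-- `Z` as a function of `r = x²`. -/
noncomputable def zR (q : ℝ) (P : ℝ → ℝ) (r : ℝ) : ℝ :=
  (q - 1) * (q + 2 * eR q P r) / dQ q (yR P r)

/-- The profile of the bubble. -/
structure IsBubble (q : ℝ) (P : ℝ → ℝ) : Prop where
  seven_le : 7 ≤ q
  smooth : ContDiff ℝ ∞ P
  zero : P 0 = 0
  deriv_zero : deriv P 0 = 1 / (2 * (q + 1))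
  ode : ∀ r, 0 < r → HasDerivAt (fun r => (eR q P r, yR P r))
    ((2 * r)⁻¹ • fld q (eR q P r, yR P r)) r
  trap : ∀ r, 0 < r → Trap (eR q P r, yR P r)

theorem exists_isBubble (k : ℕ) (hk : 7 ≤ k) : ∃ P, IsBubble (k : ℝ) P := by
  obtain ⟨P, h1, h2, h3, h4⟩ := exists_profile k hk rfl
  exact ⟨P, by exact_mod_cast hk, h1, h2, h3, fun r hr => (h4 r hr).1, fun r hr => (h4 r hr).2⟩

/-- `U = log ψ` as a function of `x = φ`. -/
noncomputable def bU (P : ℝ → ℝ) (x : ℝ) : ℝ := P (x ^ 2)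

/-- `e = x² exp (-2 U) / (q - 1)`. -/
noncomputable def bE (q : ℝ) (P : ℝ → ℝ) (x : ℝ) : ℝ := eR q P (x ^ 2)

/-- `Y = x U'`. -/
noncomputable def bY (P : ℝ → ℝ) (x : ℝ) : ℝ := yR P (x ^ 2)

/-- `Z = φ_s²`. -/
noncomputable def bZ (q : ℝ) (P : ℝ → ℝ) (x : ℝ) : ℝ := zR q P (x ^ 2)

/-- `W = -(1/2) log e = U - log x + (1/2) log (q - 1)`. -/
noncomputable def bW (q : ℝ) (P : ℝ → ℝ) (x : ℝ) : ℝ := -Real.log (bE q P x) / 2

theorem bE_eq (q : ℝ) (P : ℝ → ℝ) (x : ℝ) :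
    bE q P x = x ^ 2 * Real.exp (-2 * bU P x) / (q - 1) := rfl

theorem bZ_eq (q : ℝ) (P : ℝ → ℝ) (x : ℝ) :
    bZ q P x = (q - 1) * (q + 2 * bE q P x) / dQ q (bY P x) := rfl

theorem bU_neg (P : ℝ → ℝ) (x : ℝ) : bU P (-x) = bU P x := by simp [bU]

theorem bE_neg (q : ℝ) (P : ℝ → ℝ) (x : ℝ) : bE q P (-x) = bE q P x := by simp [bE]

theorem bY_neg (P : ℝ → ℝ) (x : ℝ) : bY P (-x) = bY P x := by simp [bY]

theorem bZ_neg (q : ℝ) (P : ℝ → ℝ) (x : ℝ) : bZ q P (-x) = bZ q P x := by simp [bZ]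

theorem bE_zero (q : ℝ) (P : ℝ → ℝ) : bE q P 0 = 0 := by simp [bE, eR]

theorem bY_zero (P : ℝ → ℝ) : bY P 0 = 0 := by simp [bY, yR]

namespace IsBubble

variable {q : ℝ} {P : ℝ → ℝ} (h : IsBubble q P)
include h

theorem q_pos : 0 < q := by linarith [h.seven_le]

theorem q_sub_one_pos : 0 < q - 1 := by linarith [h.seven_le]

theorem bU_zero : bU P 0 = 0 := by simp [bU, h.zero]

theorem bZ_zero : bZ q P 0 = 1 := by
  have h1 := h.q_pos.ne'
  have h2 := h.q_sub_one_pos.ne'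
  rw [bZ_eq, bE_zero, bY_zero, dQ]
  field_simp
  ring

theorem deriv_smooth : ContDiff ℝ ∞ (deriv P) := (contDiff_infty_iff_deriv.1 h.smooth).2

theorem eR_smooth : ContDiff ℝ ∞ (eR q P) := by
  have := h.smooth
  unfold eR
  fun_prop

theorem yR_smooth : ContDiff ℝ ∞ (yR P) := by
  have := h.deriv_smooth
  unfold yR
  fun_prop

theorem bU_smooth : ContDiff ℝ ∞ (bU P) := h.smooth.comp (contDiff_id.pow 2)

theorem bE_smooth : ContDiff ℝ ∞ (bE q P) := h.eR_smooth.comp (contDiff_id.pow 2)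

theorem bY_smooth : ContDiff ℝ ∞ (bY P) := h.yR_smooth.comp (contDiff_id.pow 2)

theorem trapx {x : ℝ} (hx : x ≠ 0) : Trap (bE q P x, bY P x) := h.trap _ (by positivity)

theorem bY_pos {x : ℝ} (hx : x ≠ 0) : 0 < bY P x := (h.trapx hx).snd_pos

theorem bY_lt_bE {x : ℝ} (hx : x ≠ 0) : bY P x < bE q P x := (h.trapx hx).1

theorem bE_pos {x : ℝ} (hx : x ≠ 0) : 0 < bE q P x := (h.trapx hx).fst_pos

theorem two_bE_lt {x : ℝ} (hx : x ≠ 0) : 2 * bE q P x < 3 * bY P x := (h.trapx hx).2.2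

theorem bY_nonneg (x : ℝ) : 0 ≤ bY P x := by
  rcases eq_or_ne x 0 with rfl | hx
  · rw [bY_zero]
  · exact (h.bY_pos hx).le

theorem bY_le_bE (x : ℝ) : bY P x ≤ bE q P x := by
  rcases eq_or_ne x 0 with rfl | hx
  · rw [bY_zero, bE_zero]
  · exact (h.bY_lt_bE hx).le

theorem bE_nonneg (x : ℝ) : 0 ≤ bE q P x := (h.bY_nonneg x).trans (h.bY_le_bE x)

theorem two_bE_le (x : ℝ) : 2 * bE q P x ≤ 3 * bY P x := by
  rcases eq_or_ne x 0 with rfl | hx
  · rw [bY_zero, bE_zero]; norm_num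
  · exact (h.two_bE_lt hx).le

/-- `1 - Y < 2 (1 - e)`. -/
theorem xi_lt (x : ℝ) : 1 - bY P x < 2 * (1 - bE q P x) := by
  rcases eq_or_ne x 0 with rfl | hx
  · rw [bY_zero, bE_zero]; norm_num
  · have := (h.trapx hx).2.1
    simp only at this
    linarith

theorem bE_lt_one (x : ℝ) : bE q P x < 1 := by
  have := h.xi_lt x
  have := h.bY_le_bE x
  linarith

theorem bY_lt_one (x : ℝ) : bY P x < 1 := (h.bY_le_bE x).trans_lt (h.bE_lt_one x)

theorem dQ_pos (x : ℝ) : 0 < dQ q (bY P x) := by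
  have h1 := h.bY_nonneg x
  have h2 := h.q_pos
  have h3 := h.q_sub_one_pos
  unfold dQ
  positivity

theorem bZ_smooth : ContDiff ℝ ∞ (bZ q P) := by
  have h1 := h.bE_smooth
  have h2 := h.bY_smooth
  have : bZ q P = fun x => (q - 1) * (q + 2 * bE q P x) /
      (q * (q - 1) + 4 * q * bY P x + 2 * bY P x ^ 2) := rfl
  rw [this]
  exact ContDiff.div (by fun_prop) (by fun_prop) fun x => (h.dQ_pos x).ne'

/-- The constraint equation. -/
theorem constraint (x : ℝ) : bZ q P x * dQ q (bY P x) = (q - 1) * (q + 2 * bE q P x) := by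
  rw [bZ_eq, div_mul_cancel₀ _ (h.dQ_pos x).ne']

theorem bZ_pos (x : ℝ) : 0 < bZ q P x := by
  have h1 := h.bE_nonneg x
  have h2 := h.q_pos
  exact div_pos (mul_pos h.q_sub_one_pos (by positivity)) (h.dQ_pos x)

theorem bZ_le_one (x : ℝ) : bZ q P x ≤ 1 := by
  rw [bZ_eq, div_le_one (h.dQ_pos x), dQ]
  have h1 := h.two_bE_le x
  have h2 := h.bY_nonneg x
  have h3 := h.q_pos
  nlinarith [mul_le_mul_of_nonneg_left h1 h.q_sub_one_pos.le]

/-- `Z` stays above the cone value `(q - 1) / (q + 1)`. -/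
theorem z0_lt_bZ (x : ℝ) : (q - 1) / (q + 1) < bZ q P x := by
  have h3 := h.q_pos
  rw [bZ_eq, div_lt_div_iff₀ (by linarith) (h.dQ_pos x), mul_assoc, dQ]
  refine mul_lt_mul_of_pos_left ?_ h.q_sub_one_pos
  have h1 := h.bY_le_bE x
  have h2 := h.bY_nonneg x
  have h4 := h.bY_lt_one x
  nlinarith [mul_pos (sub_pos.2 h4) (show 0 < q + bY P x by linarith),
    mul_le_mul_of_nonneg_left h1 (show 0 ≤ q + 1 by linarith)]

theorem bU_hasDerivAt' (x : ℝ) : HasDerivAt (bU P) (2 * x * deriv P (x ^ 2)) x := by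
  have h1 : HasDerivAt (fun x : ℝ => x ^ 2) (2 * x) x := by simpa using hasDerivAt_pow 2 x
  exact (((h.smooth.differentiable (by simp) (x ^ 2)).hasDerivAt).comp x h1).congr_deriv (by ring)

theorem mul_deriv_bU (x : ℝ) : x * deriv (bU P) x = bY P x := by
  rw [(h.bU_hasDerivAt' x).deriv, bY, yR]
  ring

theorem bU_hasDerivAt {x : ℝ} (hx : x ≠ 0) : HasDerivAt (bU P) (bY P x / x) x := by
  refine (h.bU_hasDerivAt' x).congr_deriv ?_
  rw [bY, yR]
  field_simp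

theorem pair_hasDerivAt {x : ℝ} (hx : x ≠ 0) :
    HasDerivAt (fun x => (bE q P x, bY P x)) (x⁻¹ • fld q (bE q P x, bY P x)) x := by
  have h1 : HasDerivAt (fun x : ℝ => x ^ 2) (2 * x) x := by simpa using hasDerivAt_pow 2 x
  refine ((h.ode (x ^ 2) (by positivity)).scomp x h1).congr_deriv ?_
  rw [smul_smul]
  congr 1
  field_simp

/-- `x e' = 2 e (1 - Y)`. -/
theorem bE_hasDerivAt {x : ℝ} (hx : x ≠ 0) :
    HasDerivAt (bE q P) (2 * bE q P x * (1 - bY P x) / x) x := by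
  refine (hda_fst (h.pair_hasDerivAt hx)).congr_deriv ?_
  simp only [fld, Prod.smul_fst, smul_eq_mul]
  field_simp

/-- `x Y' = (q - 1) (e - Y) / Z`. -/
theorem bY_hasDerivAt {x : ℝ} (hx : x ≠ 0) :
    HasDerivAt (bY P) ((q - 1) * (bE q P x - bY P x) / bZ q P x / x) x := by
  refine (hda_snd (h.pair_hasDerivAt hx)).congr_deriv ?_
  have h1 := h.bE_nonneg x
  have h2 := h.q_pos
  have h3 := h.q_sub_one_pos.ne'
  have h4 := (h.dQ_pos x).ne'
  have h5 : q + 2 * bE q P x ≠ 0 := by positivity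
  simp only [fld, Prod.smul_snd, smul_eq_mul, bZ_eq]
  unfold dQ at *
  field_simp

/-- `x Z' = 2 (q - 1) (1 - Z) - 4 Z Y`. -/
theorem bZ_hasDerivAt {x : ℝ} (hx : x ≠ 0) :
    HasDerivAt (bZ q P) ((2 * (q - 1) * (1 - bZ q P x) - 4 * bZ q P x * bY P x) / x) x := by
  have hE := h.bE_hasDerivAt hx
  have hY := h.bY_hasDerivAt hx
  have h4 := (h.dQ_pos x).ne'
  have hD : HasDerivAt (fun x => dQ q (bY P x))
      ((4 * q + 4 * bY P x) * ((q - 1) * (bE q P x - bY P x) / bZ q P x / x)) x := by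
    refine (((hY.const_mul (4 * q)).const_add (q * (q - 1))).fun_add
      ((hY.fun_pow 2).const_mul 2)).congr_deriv ?_
    push_cast
    ring
  refine ((((hE.const_mul 2).const_add q).const_mul (q - 1)).fun_div hD h4).congr_deriv ?_
  have h1 := h.bE_nonneg x
  have h2 := h.q_pos
  have h3 := h.q_sub_one_pos.ne'
  have h5 : q + 2 * bE q P x ≠ 0 := by positivity
  rw [bZ_eq]
  field_simp
  unfold dQ
  ring

/-- The second order equation `Z U'' + (q - 1 + Z) U' / x = exp (-2 U)`. -/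
theorem bU_ode {x : ℝ} (hx : x ≠ 0) :
    bZ q P x * deriv (deriv (bU P)) x + (q - 1 + bZ q P x) * deriv (bU P) x / x =
      Real.exp (-2 * bU P x) := by
  have h1 : deriv (bU P) =ᶠ[𝓝 x] fun y => bY P y / y := by
    filter_upwards [isOpen_ne.mem_nhds hx] with y hy
    exact (h.bU_hasDerivAt hy).deriv
  have h2 := (h.bY_hasDerivAt hx).fun_div (hasDerivAt_id' x) hx
  have h3 := h.q_sub_one_pos.ne'
  have h4 := (h.bZ_pos x).ne'
  have h5 : Real.exp (-2 * bU P x) = (q - 1) * bE q P x / x ^ 2 := by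
    rw [bE_eq]; field_simp
  rw [h1.deriv_eq, h2.deriv, h1.eq_of_nhds, h5]
  field_simp
  ring

theorem bW_pos {x : ℝ} (hx : x ≠ 0) : 0 < bW q P x := by
  have := Real.log_neg (h.bE_pos hx) (h.bE_lt_one x)
  unfold bW
  linarith

theorem exp_bW {x : ℝ} (hx : x ≠ 0) : Real.exp (-2 * bW q P x) = bE q P x := by
  rw [bW, show -2 * (-Real.log (bE q P x) / 2) = Real.log (bE q P x) by ring,
    Real.exp_log (h.bE_pos hx)]

theorem bW_eq {x : ℝ} (hx : 0 < x) :
    bW q P x = bU P x - Real.log x + Real.log (q - 1) / 2 := by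
  rw [bW, bE_eq, Real.log_div (by positivity) h.q_sub_one_pos.ne',
    Real.log_mul (by positivity) (Real.exp_pos _).ne', Real.log_exp, Real.log_pow]
  push_cast
  ring

/-- `x W' = -(1 - Y)`. -/
theorem bW_hasDerivAt {x : ℝ} (hx : x ≠ 0) : HasDerivAt (bW q P) (-(1 - bY P x) / x) x := by
  have h1 := (h.bE_pos hx).ne'
  refine (((h.bE_hasDerivAt hx).log h1).neg.div_const 2).congr_deriv ?_
  field_simp

theorem one_sub_bE_le {x : ℝ} (hx : x ≠ 0) : 1 - bE q P x ≤ 2 * bW q P x := by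
  have := Real.add_one_le_exp (-2 * bW q P x)
  rw [h.exp_bW hx] at this
  linarith

theorem le_one_sub_bE {x : ℝ} (hx : x ≠ 0) :
    2 * bW q P x * bE q P x ≤ 1 - bE q P x := by
  have h1 := Real.add_one_le_exp (2 * bW q P x)
  have h2 : Real.exp (2 * bW q P x) * bE q P x = 1 := by
    rw [← h.exp_bW hx, ← Real.exp_add]; simp
  nlinarith [h.bE_pos hx]

/-- `Z - z₀` is of the order of `1 - Y`. -/
theorem bZ_sub_le (x : ℝ) : bZ q P x - (q - 1) / (q + 1) ≤ (1 - bY P x) := by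
  have h1 := h.bE_lt_one x
  have h2 := h.bY_nonneg x
  have h3 := h.bY_lt_one x
  have h4 := h.seven_le
  have h5 := h.dQ_pos x
  rw [bZ_eq, sub_le_iff_le_add, div_le_iff₀ h5]
  have h6 : (q - 1) / (q + 1) * dQ q (bY P x) ≥ (q - 1) * (q + 2) - 4 * (q - 1) * (1 - bY P x) := by
    rw [div_mul_eq_mul_div, ge_iff_le, le_div_iff₀ (by linarith), dQ]
    nlinarith [mul_nonneg (show 0 ≤ q - 1 by linarith) (sq_nonneg (1 - bY P x))]
  have h7 : 4 * (q - 1) ≤ dQ q (bY P x) := by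
    unfold dQ
    nlinarith
  nlinarith [mul_le_mul_of_nonneg_left h7 (sub_pos.2 h3).le]

/-- `1 - Z ≤ Y`. -/
theorem one_sub_bZ_le (x : ℝ) : 1 - bZ q P x ≤ bY P x := by
  have h1 := h.bY_le_bE x
  have h2 := h.bY_nonneg x
  have h3 := h.bY_lt_one x
  have h4 := h.seven_le
  have h5 := h.dQ_pos x
  rw [bZ_eq, sub_le_comm, le_div_iff₀ h5, dQ]
  nlinarith [mul_nonneg h2 h2, mul_nonneg h2 (mul_nonneg h2 h2),
    mul_nonneg h2 (show 0 ≤ q * (q - 5) by nlinarith), mul_nonneg (mul_nonneg h2 h2) h.q_pos.le,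
    mul_le_mul_of_nonneg_left h1 h.q_sub_one_pos.le]

theorem bU_nonneg (x : ℝ) : 0 ≤ bU P x := by
  have hmono : MonotoneOn (bU P) (Ici 0) := by
    refine monotoneOn_of_deriv_nonneg (convex_Ici 0) h.bU_smooth.continuous.continuousOn
      (h.bU_smooth.differentiable (by simp)).differentiableOn fun y hy => ?_
    rw [interior_Ici] at hy
    rw [(h.bU_hasDerivAt (ne_of_gt hy)).deriv]
    exact div_nonneg (h.bY_nonneg y) (le_of_lt hy)
  have h1 := hmono (le_refl (0 : ℝ)) (abs_nonneg x) (abs_nonneg x)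
  rw [h.bU_zero] at h1
  rcases abs_choice x with e | e
  · rwa [e] at h1
  · rwa [e, bU_neg] at h1

theorem bE_le_sq (x : ℝ) : bE q P x ≤ x ^ 2 / (q - 1) := by
  rw [bE_eq]
  refine div_le_div_of_nonneg_right ?_ h.q_sub_one_pos.le
  have : Real.exp (-2 * bU P x) ≤ 1 := Real.exp_le_one_iff.2 (by linarith [h.bU_nonneg x])
  nlinarith [sq_nonneg x]

/-- The weighted bound at the tip: `e ≤ 2 x² / (1 + x²)`. -/
theorem bE_le_weight (x : ℝ) : bE q P x ≤ 2 * x ^ 2 / (1 + x ^ 2) := by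
  have h1 := h.bE_lt_one x
  have h2 := h.bE_le_sq x
  have h3 : x ^ 2 / (q - 1) ≤ x ^ 2 :=
    div_le_self (sq_nonneg x) (by linarith [h.seven_le])
  rw [le_div_iff₀ (by positivity)]
  nlinarith [sq_nonneg x]

end IsBubble

end Vale.Agent.P244Z.Bubble
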