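import Mathlib.Analysis.ODE.ExistUnique
import Mathlib.Analysis.Calculus.ContDiff.Deriv
import Mathlib.Analysis.Calculus.Deriv.MeanValue
import Mathlib.Analysis.SpecialFunctions.ExpDeriv

/-!
# General tools for ordinary differential equations

Global existence for bounded Lipschitz fields, smoothness of solutions, and invariance of a region
cut out by finitely many functions.
-/

open scoped ContDiff Topology NNReal
open Set Filter

namespace Vale.Agent.P244Z.Bubble

/-- A bounded Lipschitz field has global solutions. -/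
theorem exists_global_solution {E : Type*} [NormedAddCommGroup E] [NormedSpace ℝ E]
    [CompleteSpace E] {f : E → E} {K L : ℝ≥0} (hK : LipschitzWith K f) (hL : ∀ x, ‖f x‖ ≤ L)
    (x₀ : E) : ∃ α : ℝ → E, α 0 = x₀ ∧ ∀ t, HasDerivAt α (f (α t)) t := by
  have hloc : ∀ n : ℕ, ∃ α : ℝ → E, α 0 = x₀ ∧
      ∀ t ∈ Ioo (-(n + 1 : ℝ)) (n + 1), HasDerivAt α (f (α t)) t := by
    intro n
    have hn : (0 : ℝ) ≤ n + 1 := by positivity
    have h0 : (0 : ℝ) ∈ Icc (-(n + 1 : ℝ)) (n + 1) := ⟨by linarith, hn⟩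
    have hpl : IsPicardLindelof (fun _ => f) (tmin := -(n + 1 : ℝ)) (tmax := n + 1) ⟨0, h0⟩ x₀
        (L * (n + 1)) 0 L K :=
      IsPicardLindelof.of_time_independent (fun x _ => hL x) hK.lipschitzOnWith (by simp)
    obtain ⟨α, h1, h2⟩ := hpl.exists_eq_forall_mem_Icc_hasDerivWithinAt₀
    exact ⟨α, h1, fun t ht => (h2 t (Ioo_subset_Icc_self ht)).hasDerivAt (Icc_mem_nhds ht.1 ht.2)⟩
  choose α hα0 hα using hloc
  have hagree : ∀ m n : ℕ, m ≤ n → EqOn (α m) (α n) (Ioo (-(m + 1 : ℝ)) (m + 1)) := by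
    intro m n hmn
    have hmn' : (m : ℝ) ≤ n := by exact_mod_cast hmn
    have hm : (0 : ℝ) < m + 1 := by positivity
    refine ODE_solution_unique_of_mem_Ioo (v := fun _ => f) (s := fun _ => univ) (K := K)
      (t₀ := 0) (fun _ _ => hK.lipschitzOnWith) ⟨by linarith, hm⟩
      (fun t ht => ⟨hα m t ht, trivial⟩)
      (fun t ht => ⟨hα n t ⟨by linarith [ht.1], by linarith [ht.2]⟩, trivial⟩) ?_
    rw [hα0, hα0]
  have hmem : ∀ t : ℝ, t ∈ Ioo (-((⌈|t|⌉₊ : ℝ) + 1)) ((⌈|t|⌉₊ : ℝ) + 1) := by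
    intro t
    have h1 := Nat.le_ceil |t|
    have h2 := le_abs_self t
    have h3 := neg_abs_le t
    exact ⟨by linarith, by linarith⟩
  have hloc : ∀ (n : ℕ) (t : ℝ), t ∈ Ioo (-(n + 1 : ℝ)) (n + 1) → α ⌈|t|⌉₊ t = α n t := by
    intro n t ht
    rcases le_total ⌈|t|⌉₊ n with h | h
    · exact hagree _ _ h (hmem t)
    · exact (hagree _ _ h ht).symm
  refine ⟨fun t => α ⌈|t|⌉₊ t, hα0 _, fun t => ?_⟩
  have h := hα _ t (hmem t)
  refine h.congr_of_eventuallyEq ?_
  filter_upwards [isOpen_Ioo.mem_nhds (hmem t)] with s hs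
  exact hloc _ s hs

/-- A solution of a smooth equation is smooth. -/
theorem contDiffOn_of_ode {E : Type*} [NormedAddCommGroup E] [NormedSpace ℝ E] {s : Set ℝ}
    (hs : IsOpen s) {U : Set (ℝ × E)} {F : ℝ × E → E} (hF : ContDiffOn ℝ ∞ F U) {α : ℝ → E}
    (hU : ∀ t ∈ s, (t, α t) ∈ U) (hα : ∀ t ∈ s, HasDerivAt α (F (t, α t)) t) :
    ContDiffOn ℝ ∞ α s := by
  rw [contDiffOn_infty]
  intro n
  induction n with
  | zero => exact contDiffOn_zero.2 fun t ht => (hα t ht).continuousAt.continuousWithinAt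
  | succ n ih =>
    rw [Nat.cast_succ, contDiffOn_succ_iff_deriv_of_isOpen hs]
    refine ⟨fun t ht => (hα t ht).differentiableAt.differentiableWithinAt, by simp, ?_⟩
    have h1 : ContDiffOn ℝ n (fun t => F (t, α t)) s :=
      (hF.of_le (by exact_mod_cast le_top)).comp (contDiffOn_id.prodMk ih) hU
    exact h1.congr fun t ht => (hα t ht).deriv

/-- A function with `h' ≥ -C h` cannot reach zero. -/
theorem le_of_deriv_ge_neg_mul {h h' : ℝ → ℝ} {a b C : ℝ} (hab : a ≤ b)
    (hc : ContinuousOn h (Icc a b)) (hd : ∀ t ∈ Ioo a b, HasDerivAt h (h' t) t)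
    (hi : ∀ t ∈ Ioo a b, -C * h t ≤ h' t) : Real.exp (C * a) * h a ≤ Real.exp (C * b) * h b := by
  have hg : ∀ t ∈ Ioo a b, HasDerivAt (fun t => Real.exp (C * t) * h t)
      (Real.exp (C * t) * C * h t + Real.exp (C * t) * h' t) t := fun t ht => by
    have h1 : HasDerivAt (fun t => C * t) C t := by simpa using (hasDerivAt_id t).const_mul C
    exact h1.exp.fun_mul (hd t ht)
  have hmono : MonotoneOn (fun t => Real.exp (C * t) * h t) (Icc a b) := by
    refine monotoneOn_of_deriv_nonneg (convex_Icc a b) (ContinuousOn.mul (by fun_prop) hc) ?_ ?_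
    · rw [interior_Icc]
      exact fun t ht => (hg t ht).differentiableAt.differentiableWithinAt
    · rw [interior_Icc]
      intro t ht
      rw [(hg t ht).deriv]
      have := hi t ht
      have he := Real.exp_pos (C * t)
      nlinarith
  exact hmono ⟨le_rfl, hab⟩ ⟨hab, le_rfl⟩ hab

/-- Invariance of a region `{h i > 0}`: it is enough that `h i' ≥ -C h i` inside the region. -/
theorem pos_of_family {ι : Type*} [Finite ι] {h h' : ι → ℝ → ℝ} {a C : ℝ}
    (hd : ∀ i t, a ≤ t → HasDerivAt (h i) (h' i t) t) (h0 : ∀ i, 0 < h i a)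
    (hi : ∀ t, a ≤ t → (∀ j, 0 < h j t) → ∀ i, -C * h i t ≤ h' i t) :
    ∀ t, a ≤ t → ∀ i, 0 < h i t := by
  by_contra hcon
  push Not at hcon
  have hcont : ∀ i, ContinuousOn (h i) (Ici a) := fun i t ht =>
    (hd i t ht).continuousAt.continuousWithinAt
  let S : Set ℝ := ⋃ i, Ici a ∩ h i ⁻¹' Iic 0
  have hS : IsClosed S :=
    isClosed_iUnion_of_finite fun i => (hcont i).preimage_isClosed_of_isClosed isClosed_Ici
      isClosed_Iic
  have hne : S.Nonempty := by
    obtain ⟨t, ht, i, hi⟩ := hcon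
    exact ⟨t, mem_iUnion.2 ⟨i, ht, hi⟩⟩
  have hbdd : BddBelow S := ⟨a, fun t ht => by
    obtain ⟨i, hi⟩ := mem_iUnion.1 ht
    exact hi.1⟩
  obtain ⟨i, hia, hi0⟩ := mem_iUnion.1 (hS.csInf_mem hne hbdd)
  have hpos : ∀ t ∈ Ioo a (sInf S), ∀ j, 0 < h j t := by
    intro t ht j
    by_contra hj
    exact absurd (csInf_le hbdd (mem_iUnion.2 ⟨j, ht.1.le, not_lt.1 hj⟩)) (not_le.2 ht.2)
  have := le_of_deriv_ge_neg_mul (C := C) hia ((hcont i).mono Icc_subset_Ici_self)
    (fun t ht => hd i t ht.1.le) (fun t ht => hi t ht.1.le (hpos t ht) i)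
  have h1 := mul_pos (Real.exp_pos (C * a)) (h0 i)
  have h2 : Real.exp (C * sInf S) * h i (sInf S) ≤ 0 :=
    mul_nonpos_of_nonneg_of_nonpos (Real.exp_pos _).le hi0
  linarith

/-- Two solutions glued at a point where they have the same value and the same derivative. -/
theorem hasDerivAt_glue {E : Type*} [NormedAddCommGroup E] [NormedSpace ℝ E] {α β : ℝ → E}
    {a : ℝ} {d : E} (hα : HasDerivAt α d a) (hβ : HasDerivAt β d a) (h : α a = β a) :
    HasDerivAt (fun t => if t ≤ a then α t else β t) d a := by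
  have h1 : HasDerivWithinAt (fun t => if t ≤ a then α t else β t) d (Iic a) a :=
    hα.hasDerivWithinAt.congr (fun t ht => if_pos ht) (if_pos le_rfl)
  have h2 : HasDerivWithinAt (fun t => if t ≤ a then α t else β t) d (Ici a) a := by
    refine hβ.hasDerivWithinAt.congr (fun t ht => ?_) (by rw [if_pos le_rfl, h])
    rcases eq_or_lt_of_le (mem_Ici.1 ht) with e | e
    · rw [← e, if_pos le_rfl, h]
    · exact if_neg (not_le.2 e)
  have := h1.union h2
  rwa [Iic_union_Ici, hasDerivWithinAt_univ] at this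

end Vale.Agent.P244Z.Bubble
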