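import Vale.Agent.P244Z.BubbleBB
import Vale.Agent.P244Z.BubbleODE
import Mathlib.Analysis.SpecialFunctions.SmoothTransition
import Mathlib.Analysis.SpecialFunctions.Log.Deriv

/-!
# The Ricci-flat bubble on `ℝ^(q+1) × S²`: construction

With `x = φ`, `r = x²`, `ψ = exp (P r)`, put `e = r exp (-2 P) / (q - 1)` and `Y = 2 r P'`.  The
Ricci-flat equations reduce to the plane system `e' = 2 e (1 - Y)`,
`Y' = (e - Y) D(Y) / (q + 2 e)` in the time `log x`, where `D(Y) = q (q - 1) + 4 q Y + 2 Y²`.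
For `q ≥ 7` the orbit leaving the saddle `(0, 0)` stays in the region `Y < e`, `2 e < 1 + Y`,
`2 e < 3 Y`.
-/

open scoped ContDiff Topology NNReal
open Set Filter

namespace Vale.Agent.P244Z.Bubble

theorem hda_fst {α : ℝ → ℝ × ℝ} {d : ℝ × ℝ} {t : ℝ} (h : HasDerivAt α d t) :
    HasDerivAt (fun t => (α t).1) d.1 t := h.fst

theorem hda_snd {α : ℝ → ℝ × ℝ} {d : ℝ × ℝ} {t : ℝ} (h : HasDerivAt α d t) :
    HasDerivAt (fun t => (α t).2) d.2 t := h.snd

/-- The plane vector field in the time `log x`. -/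
noncomputable def fld (q : ℝ) (z : ℝ × ℝ) : ℝ × ℝ :=
  (2 * z.1 * (1 - z.2), (z.1 - z.2) * (q * (q - 1) + 4 * q * z.2 + 2 * z.2 ^ 2) / (q + 2 * z.1))

/-- The trapping region. -/
def Trap (z : ℝ × ℝ) : Prop := z.2 < z.1 ∧ 2 * z.1 < 1 + z.2 ∧ 2 * z.1 < 3 * z.2

theorem Trap.snd_pos {z : ℝ × ℝ} (h : Trap z) : 0 < z.2 := by
  obtain ⟨h1, _, h3⟩ := h; linarith

theorem Trap.fst_pos {z : ℝ × ℝ} (h : Trap z) : 0 < z.1 := h.snd_pos.trans h.1

theorem Trap.fst_lt_one {z : ℝ × ℝ} (h : Trap z) : z.1 < 1 := by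
  obtain ⟨h1, h2, _⟩ := h; linarith

theorem Trap.snd_lt_one {z : ℝ × ℝ} (h : Trap z) : z.2 < 1 := h.1.trans h.fst_lt_one

theorem fld_contDiffOn (q : ℝ) : ContDiffOn ℝ ∞ (fld q) {z | q + 2 * z.1 ≠ 0} := by
  unfold fld
  refine ContDiffOn.prodMk (by fun_prop) (ContDiffOn.div (by fun_prop) (by fun_prop) fun z hz => hz)

/-- Forward solutions starting in the trapping region exist and stay there. -/
theorem exists_forward {q : ℝ} (hq : 7 ≤ q) {z₀ : ℝ × ℝ} (h₀ : Trap z₀) :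
    ∃ α : ℝ → ℝ × ℝ, α 0 = z₀ ∧ ∀ t, 0 ≤ t → HasDerivAt α (fld q (α t)) t ∧ Trap (α t) := by
  let cl : ℝ × ℝ → ℝ × ℝ := fun z => (max 0 (min 1 z.1), max 0 (min 1 z.2))
  have hcl : LipschitzWith 1 cl := by
    have h1 := ((LipschitzWith.prod_fst (α := ℝ) (β := ℝ)).const_min 1).const_max 0
    have h2 := ((LipschitzWith.prod_snd (α := ℝ) (β := ℝ)).const_min 1).const_max 0
    simpa using h1.prodMk h2
  let K : Set (ℝ × ℝ) := Icc 0 1 ×ˢ Icc 0 1
  have hKc : IsCompact K := isCompact_Icc.prod isCompact_Icc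
  have hclK : ∀ z, cl z ∈ K := fun z =>
    ⟨⟨le_max_left _ _, max_le zero_le_one (min_le_left _ _)⟩,
      ⟨le_max_left _ _, max_le zero_le_one (min_le_left _ _)⟩⟩
  have hfK : ContDiffOn ℝ ∞ (fld q) K := (fld_contDiffOn q).mono fun z hz => by
    have := hz.1.1
    change q + 2 * z.1 ≠ 0
    linarith
  obtain ⟨L, hL⟩ := hfK.exists_lipschitzOnWith (by simp) ((convex_Icc 0 1).prod (convex_Icc 0 1))
    hKc
  obtain ⟨B, hB⟩ := hKc.exists_bound_of_continuousOn hfK.continuousOn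
  have hlip : LipschitzWith (L * 1) fun z => fld q (cl z) := by
    rw [← lipschitzOnWith_univ]
    exact hL.comp hcl.lipschitzOnWith fun z _ => hclK z
  obtain ⟨α, hα0, hα⟩ := exists_global_solution (L := ⟨max B 0, le_max_right _ _⟩) hlip
    (fun z => (hB _ (hclK z)).trans (le_max_left _ _)) z₀
  have hid : ∀ z, Trap z → cl z = z := fun z hz => by
    simp only [cl, min_eq_right hz.fst_lt_one.le, min_eq_right hz.snd_lt_one.le,
      max_eq_right hz.fst_pos.le, max_eq_right hz.snd_pos.le]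
  have h1 : ∀ t, HasDerivAt (fun t => (α t).1) (fld q (cl (α t))).1 t := fun t => hda_fst (hα t)
  have h2 : ∀ t, HasDerivAt (fun t => (α t).2) (fld q (cl (α t))).2 t := fun t => hda_snd (hα t)
  have key := pos_of_family (ι := Fin 3) (a := 0) (C := q + 4)
    (h := ![fun t => (α t).1 - (α t).2, fun t => 1 + (α t).2 - 2 * (α t).1,
      fun t => 3 * (α t).2 - 2 * (α t).1])
    (h' := ![fun t => (fld q (cl (α t))).1 - (fld q (cl (α t))).2,
      fun t => (fld q (cl (α t))).2 - 2 * (fld q (cl (α t))).1,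
      fun t => 3 * (fld q (cl (α t))).2 - 2 * (fld q (cl (α t))).1])
    (fun i t _ => by
      fin_cases i
      · exact (h1 t).sub (h2 t)
      · exact ((h2 t).const_add 1).sub ((h1 t).const_mul 2)
      · exact ((h2 t).const_mul 3).sub ((h1 t).const_mul 2))
    (fun i => by
      obtain ⟨a1, a2, a3⟩ := h₀
      fin_cases i <;> simp [hα0] <;> linarith)
    (fun t _ hpos i => by
      have p0 := hpos 0
      have p1 := hpos 1
      have p2 := hpos 2
      simp only [Matrix.cons_val_zero, Matrix.cons_val_one, Matrix.cons_val] at p0 p1 p2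
      have ht : Trap (α t) := ⟨by linarith, by linarith, by linarith⟩
      have e0 := ht.fst_pos
      have e1 := ht.fst_lt_one
      have y0 := ht.snd_pos
      have y1 := ht.snd_lt_one
      set e := (α t).1 with he
      set Y := (α t).2 with hY
      have hden : 0 < q + 2 * e := by linarith
      obtain ⟨w, hw⟩ : ∃ w, w = (q * (q - 1) + 4 * q * Y + 2 * Y ^ 2) / (q + 2 * e) := ⟨_, rfl⟩
      have hw1 : w ≤ q + 4 := by
        rw [hw, div_le_iff₀ hden]
        nlinarith [mul_pos (show 0 < q by linarith) (sub_pos.2 y1), mul_pos e0 (show 0 < q by linarith)]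
      have hw2 : 8 * e ≤ w := by
        rw [hw, le_div_iff₀ hden]
        nlinarith [mul_pos (show 0 < q by linarith) p1, mul_nonneg (sub_nonneg.2 hq) (show 0 ≤ q + 2 by linarith),
          mul_pos p1 (show 0 < 1 + Y + 2 * e by linarith)]
      have hw3 : 4 ≤ w := by
        rw [hw, le_div_iff₀ hden]
        nlinarith [mul_pos (show 0 < q by linarith) y0, mul_nonneg (sub_nonneg.2 hq) (show 0 ≤ q + 2 by linarith)]
      have hf1 : (fld q (α t)).1 = 2 * e * (1 - Y) := rfl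
      have hf2 : (fld q (α t)).2 = (e - Y) * w := by rw [hw, ← mul_div_assoc]; rfl
      fin_cases i
      · simp only [Fin.zero_eta, Matrix.cons_val_zero, hid _ ht, hf1, hf2]
        nlinarith [mul_pos e0 (sub_pos.2 y1), mul_nonneg p0.le (sub_nonneg.2 hw1)]
      · simp only [Fin.mk_one, Matrix.cons_val_one, Matrix.cons_val_zero, hid _ ht, hf1, hf2]
        nlinarith [mul_nonneg (sub_pos.2 e1).le (sub_nonneg.2 hw2),
          mul_nonneg p1.le (sub_nonneg.2 hw1), mul_nonneg p1.le e0.le]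
      · simp only [Fin.reduceFinMk, Matrix.cons_val, hid _ ht, hf1, hf2]
        nlinarith [mul_nonneg e0.le (sub_nonneg.2 hw3), mul_nonneg p2.le (sub_nonneg.2 hw1),
          mul_nonneg e0.le y0.le])
  refine ⟨α, hα0, fun t ht => ?_⟩
  have p0 := key t ht 0
  have p1 := key t ht 1
  have p2 := key t ht 2
  simp only [Matrix.cons_val_zero, Matrix.cons_val_one, Matrix.cons_val] at p0 p1 p2
  have ht' : Trap (α t) := ⟨by linarith, by linarith, by linarith⟩
  exact ⟨by simpa only [hid _ ht'] using hα t, ht'⟩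

/-- The unstable curve `Y = e m(e)` of the saddle. -/
theorem exists_slope (k : ℕ) (hk : 0 < k) {q : ℝ} (hq : q = k) :
    ∃ m : ℝ → ℝ, ContDiff ℝ ∞ m ∧ m 0 = (q - 1) / (q + 1) ∧
    ∀ᶠ η in 𝓝 (0 : ℝ), η * deriv m η + m η =
      (1 - m η) * (q * (q - 1) + 4 * q * (η * m η) + 2 * (η * m η) ^ 2) /
        (2 * (1 - η * m η) * (q + 2 * η)) := by
  have hq0 : 0 < q := by rw [hq]; exact_mod_cast hk
  obtain ⟨c, hc⟩ : ∃ c, c = (q - 1) / (q + 1) := ⟨_, rfl⟩
  have hc' : c * (q + 1) = q - 1 := by rw [hc]; field_simp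
  let U : Set (ℝ × ℝ) := {z | 2 * (1 - z.1 * (c + z.2)) * (q + 2 * z.1) ≠ 0}
  have hU : IsOpen U := isOpen_ne_fun (by fun_prop) continuous_const
  have h0 : (0 : ℝ × ℝ) ∈ U := by simp [U, hq0.ne']
  obtain ⟨μ, hμ, hμ0, hode⟩ := briot_bouquet k hU h0
    (R := fun z : ℝ × ℝ => (1 - (c + z.2)) * (4 * q * (c + z.2) +
      2 * z.1 * (c + z.2) ^ 2 - (q - 1) * (2 - q * (c + z.2) - 2 * z.1 * (c + z.2))) /
      (2 * (1 - z.1 * (c + z.2)) * (q + 2 * z.1)))
    (ContDiffOn.div (by fun_prop) (by fun_prop) fun z hz => hz)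
  refine ⟨fun η => c + μ η, contDiff_const.add hμ, by simp [hμ0, hc], ?_⟩
  have hlim : Tendsto (fun η => (η, μ η)) (𝓝 0) (𝓝 (0 : ℝ × ℝ)) := by
    have : Continuous fun η => (η, μ η) := continuous_id.prodMk hμ.continuous
    have h := this.tendsto 0
    rwa [hμ0] at h
  filter_upwards [hode, hlim.eventually (hU.mem_nhds h0)] with η h1 h2
  have h2' : 2 * (1 - η * (c + μ η)) * (q + 2 * η) ≠ 0 := h2
  rw [deriv_const_add]
  rw [eq_div_iff h2']
  rw [← mul_div_assoc, eq_div_iff h2', ← hq] at h1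
  linear_combination h1 + (1 - η * (c + μ η)) * (q + 2 * η) * hc'

/-- The local solution near the tip. -/
theorem exists_local (k : ℕ) (hk : 7 ≤ k) {q : ℝ} (hq : q = k) :
    ∃ (P : ℝ → ℝ) (ε : ℝ), 0 < ε ∧ ContDiffOn ℝ ∞ P (Ioo (-ε) ε) ∧ P 0 = 0 ∧
    HasDerivAt P (1 / (2 * (q + 1))) 0 ∧ ∃ Y : ℝ → ℝ, ∀ r ∈ Ioo 0 ε,
      HasDerivAt P (Y r / (2 * r)) r ∧
      HasDerivAt (fun r => (r * Real.exp (-2 * P r) / (q - 1), Y r))
        ((2 * r)⁻¹ • fld q (r * Real.exp (-2 * P r) / (q - 1), Y r)) r ∧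
      Trap (r * Real.exp (-2 * P r) / (q - 1), Y r) := by
  obtain ⟨m, hm, hm0, hode⟩ := exists_slope k (by omega) hq
  have hq7 : 7 ≤ q := by rw [hq]; exact_mod_cast hk
  have hq1 : 0 < q - 1 := by linarith
  have hq1' : q - 1 ≠ 0 := hq1.ne'
  let G : ℝ × ℝ → ℝ := fun z =>
    Real.exp (-2 * z.2) * m (z.1 * Real.exp (-2 * z.2) / (q - 1)) / (2 * (q - 1))
  have hG : ContDiff ℝ ∞ G := by
    refine ContDiff.div_const (ContDiff.mul (by fun_prop) (hm.comp (by fun_prop))) _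
  have hF : ContDiff ℝ ∞ fun z : ℝ × ℝ => ((1 : ℝ), G z) := contDiff_const.prodMk hG
  obtain ⟨α, hα0, ε₀, hε₀, hα⟩ :=
    ((hF.of_le (by simp)).contDiffAt (x := (0 : ℝ × ℝ))
      (n := 1)).exists_forall_mem_closedBall_exists_eq_forall_mem_Ioo_hasDerivAt₀ 0
  simp only [zero_sub, zero_add] at hα
  have hfst : ∀ t ∈ Ioo (-ε₀) ε₀, (α t).1 = t := by
    intro t ht
    have hd : ∀ s ∈ Ioo (-ε₀) ε₀, HasDerivAt (fun s => (α s).1 - s) 0 s := fun s hs => by
      simpa using (hda_fst (hα s hs)).fun_sub (hasDerivAt_id' s)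
    have := isOpen_Ioo.is_const_of_deriv_eq_zero isPreconnected_Ioo
      (fun s hs => (hd s hs).differentiableAt.differentiableWithinAt)
      (fun s hs => (hd s hs).deriv) ht (show (0 : ℝ) ∈ Ioo (-ε₀) ε₀ from ⟨by linarith, hε₀⟩)
    simp only [hα0, Prod.fst_zero, sub_zero] at this
    linarith
  let P : ℝ → ℝ := fun t => (α t).2
  have hP0 : P 0 = 0 := by simp [P, hα0]
  have hP : ∀ t ∈ Ioo (-ε₀) ε₀, HasDerivAt P (G (t, P t)) t := fun t ht => by
    have h := hda_snd (hα t ht)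
    have e : α t = (t, P t) := Prod.ext (hfst t ht) rfl
    rwa [e] at h
  have hPs : ContDiffOn ℝ ∞ P (Ioo (-ε₀) ε₀) :=
    contDiffOn_of_ode isOpen_Ioo hG.contDiffOn (fun _ _ => mem_univ _) hP
  have h0mem : (0 : ℝ) ∈ Ioo (-ε₀) ε₀ := ⟨by linarith, hε₀⟩
  let e : ℝ → ℝ := fun r => r * Real.exp (-2 * P r) / (q - 1)
  have hec : Tendsto e (𝓝 0) (𝓝 0) := by
    have h1 : ContinuousAt P 0 := (hP 0 h0mem).continuousAt
    have h2 : ContinuousAt e 0 := by
      simp only [e]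
      fun_prop
    have h := h2.tendsto
    simpa [e] using h
  have hmc : Tendsto (fun r => m (e r)) (𝓝 0) (𝓝 ((q - 1) / (q + 1))) := by
    have h := (hm.continuous.tendsto 0).comp hec
    rwa [hm0] at h
  have hev : ∀ᶠ r in 𝓝 (0 : ℝ), r ∈ Ioo (-ε₀) ε₀ ∧ e r < 1 / 4 ∧ 2 / 3 < m (e r) ∧ m (e r) < 1 ∧
      e r * deriv m (e r) + m (e r) =
        (1 - m (e r)) * (q * (q - 1) + 4 * q * (e r * m (e r)) + 2 * (e r * m (e r)) ^ 2) /
          (2 * (1 - e r * m (e r)) * (q + 2 * e r)) := by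
    have c1 : (2 / 3 : ℝ) < (q - 1) / (q + 1) := by
      rw [lt_div_iff₀ (by linarith)]; linarith
    have c2 : (q - 1) / (q + 1) < 1 := by
      rw [div_lt_one (by linarith)]; linarith
    filter_upwards [isOpen_Ioo.mem_nhds h0mem,
      hec.eventually (gt_mem_nhds (by norm_num : (0 : ℝ) < 1 / 4)),
      hmc.eventually (lt_mem_nhds c1), hmc.eventually (gt_mem_nhds c2),
      hec.eventually hode] with r a1 a2 a3 a4 a5
    exact ⟨a1, a2, a3, a4, a5⟩
  obtain ⟨ε, hε, hball⟩ := Metric.eventually_nhds_iff_ball.1 hev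
  simp only [Real.ball_eq_Ioo, zero_sub, zero_add] at hball
  refine ⟨P, ε, hε, hPs.mono fun r hr => (hball r hr).1, hP0, ?_, fun r => e r * m (e r),
    fun r hr => ?_⟩
  · have := hP 0 h0mem
    simp only [G, hP0, mul_zero, Real.exp_zero, zero_mul, zero_div, hm0] at this
    refine this.congr_deriv ?_
    have : q + 1 ≠ 0 := by linarith
    field_simp
  obtain ⟨a1, a2, a3, a4, a5⟩ := hball r ⟨by linarith [hr.1], hr.2⟩
  have hr0 : r ≠ 0 := hr.1.ne'
  have he0 : 0 < e r := by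
    simp only [e]
    have := hr.1
    positivity
  have hPd : HasDerivAt P (e r * m (e r) / (2 * r)) r := by
    refine (hP r a1).congr_deriv ?_
    simp only [G, e]
    field_simp
  have hed : HasDerivAt e (e r * (1 - e r * m (e r)) / r) r := by
    have h1 := (((hasDerivAt_id r).fun_mul (hPd.const_mul (-2)).exp)).div_const (q - 1)
    refine h1.congr_deriv ?_
    simp only [id, e]
    field_simp
    ring
  have hY1 : e r * m (e r) < 1 := by nlinarith
  have htrap : Trap (e r, e r * m (e r)) := by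
    refine ⟨?_, ?_, ?_⟩ <;> simp only <;> nlinarith
  refine ⟨hPd, ?_, htrap⟩
  have hmd : HasDerivAt m (deriv m (e r)) (e r) := (hm.differentiable (by simp) _).hasDerivAt
  refine (hed.prodMk (hed.fun_mul (hmd.comp r hed))).congr_deriv ?_
  have h10 : q + 2 * e r ≠ 0 := by linarith
  have h11 : 1 - e r * m (e r) ≠ 0 := by linarith
  change _ = (2 * r)⁻¹ • fld q (e r, e r * m (e r))
  simp only [fld, Prod.smul_mk, smul_eq_mul, Function.comp, Prod.mk.injEq]
  constructor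
  · field_simp
  · have : e r * (1 - e r * m (e r)) / r * m (e r) +
        e r * (deriv m (e r) * (e r * (1 - e r * m (e r)) / r)) =
        e r * (1 - e r * m (e r)) / r * (e r * deriv m (e r) + m (e r)) := by ring
    rw [this, a5]
    field_simp

/-- A smooth retraction of the line onto a neighbourhood of `[0, ∞)`. -/
theorem exists_smooth_ext {ε : ℝ} (hε : 0 < ε) {f : ℝ → ℝ} (hf : ContDiffOn ℝ ∞ f (Ioi (-ε))) :
    ∃ g : ℝ → ℝ, ContDiff ℝ ∞ g ∧ (∀ r, -ε / 4 < r → g r = f r) ∧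
      ∀ r, ∃ s, -ε < s ∧ g r = f s := by
  let ρ : ℝ → ℝ := fun r => r * Real.smoothTransition (2 + 4 * r / ε)
  have hρ : ContDiff ℝ ∞ ρ := contDiff_id.mul (Real.smoothTransition.contDiff.comp (by fun_prop))
  have hmem : ∀ r, -ε < ρ r := by
    intro r
    rcases le_total r (-ε / 2) with h | h
    · have : 2 + 4 * r / ε ≤ 0 := by
        rw [add_div' _ _ _ hε.ne', div_nonpos_iff]
        right
        exact ⟨by linarith, hε.le⟩
      simp only [ρ, Real.smoothTransition.zero_of_nonpos this, mul_zero]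
      linarith
    · have h0 := Real.smoothTransition.nonneg (2 + 4 * r / ε)
      have h1 := Real.smoothTransition.le_one (2 + 4 * r / ε)
      simp only [ρ]
      nlinarith
  refine ⟨fun r => f (ρ r), hf.comp_contDiff hρ hmem, fun r hr => ?_, fun r => ⟨ρ r, hmem r, rfl⟩⟩
  have : 1 ≤ 2 + 4 * r / ε := by
    rw [add_div' _ _ _ hε.ne', le_div_iff₀ hε]
    linarith
  simp only [ρ, Real.smoothTransition.one_of_one_le this, mul_one]

/-- **The bubble.**  A smooth profile `P` such that `e = r exp (-2 P) / (q - 1)` and `Y = 2 r P'`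
solve the plane system for all `r > 0` and stay in the trapping region. -/
theorem exists_profile (k : ℕ) (hk : 7 ≤ k) {q : ℝ} (hq : q = k) :
    ∃ P : ℝ → ℝ, ContDiff ℝ ∞ P ∧ P 0 = 0 ∧ deriv P 0 = 1 / (2 * (q + 1)) ∧ ∀ r, 0 < r →
      HasDerivAt (fun r => (r * Real.exp (-2 * P r) / (q - 1), 2 * r * deriv P r))
        ((2 * r)⁻¹ • fld q (r * Real.exp (-2 * P r) / (q - 1), 2 * r * deriv P r)) r ∧
      Trap (r * Real.exp (-2 * P r) / (q - 1), 2 * r * deriv P r) := by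
  obtain ⟨P₀, ε, hε, hP₀s, hP₀0, hP₀d, Y₀, hloc⟩ := exists_local k hk hq
  have hq7 : 7 ≤ q := by rw [hq]; exact_mod_cast hk
  have hq1 : 0 < q - 1 := by linarith
  have hr₀ : ε / 2 ∈ Ioo 0 ε := ⟨by linarith, by linarith⟩
  obtain ⟨α, hα0, hα⟩ := exists_forward hq7 (hloc _ hr₀).2.2
  let z₀ : ℝ → ℝ × ℝ := fun r => (r * Real.exp (-2 * P₀ r) / (q - 1), Y₀ r)
  let z₁ : ℝ → ℝ × ℝ := fun r => α (Real.log (r / (ε / 2)) / 2)
  let z : ℝ → ℝ × ℝ := fun r => if r ≤ ε / 2 then z₀ r else z₁ r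
  have hz₁ : ∀ r, ε / 2 ≤ r → HasDerivAt z₁ ((2 * r)⁻¹ • fld q (z₁ r)) r ∧ Trap (z₁ r) := by
    intro r hr
    have hr0 : 0 < r := by linarith
    have hlog : 0 ≤ Real.log (r / (ε / 2)) / 2 :=
      div_nonneg (Real.log_nonneg ((one_le_div hr₀.1).2 hr)) zero_le_two
    refine ⟨?_, (hα _ hlog).2⟩
    have h1 : HasDerivAt (fun r => Real.log (r / (ε / 2)) / 2) (2 * r)⁻¹ r := by
      refine ((((hasDerivAt_id' r).div_const (ε / 2)).log (by positivity)).div_const 2).congr_deriv ?_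
      field_simp
    exact (hα _ hlog).1.scomp r h1
  have hmatch : z₀ (ε / 2) = z₁ (ε / 2) := by
    simp only [z₀, z₁, div_self hr₀.1.ne', Real.log_one, zero_div, hα0]
  have hz : ∀ r, 0 < r → HasDerivAt z ((2 * r)⁻¹ • fld q (z r)) r ∧ Trap (z r) := by
    intro r hr
    rcases lt_trichotomy r (ε / 2) with h | h | h
    · have e : z =ᶠ[𝓝 r] z₀ := by
        filter_upwards [gt_mem_nhds h] with s hs
        exact if_pos hs.le
      rw [e.eq_of_nhds]
      have := hloc r ⟨hr, by linarith⟩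
      exact ⟨this.2.1.congr_of_eventuallyEq e, this.2.2⟩
    · subst h
      have e : z (ε / 2) = z₀ (ε / 2) := if_pos le_rfl
      rw [e]
      refine ⟨hasDerivAt_glue (hloc _ hr₀).2.1 ?_ hmatch, (hloc _ hr₀).2.2⟩
      have := (hz₁ _ le_rfl).1
      rwa [← hmatch] at this
    · have e : z =ᶠ[𝓝 r] z₁ := by
        filter_upwards [lt_mem_nhds h] with s hs
        exact if_neg (not_le.2 hs)
      rw [e.eq_of_nhds]
      exact ⟨(hz₁ r h.le).1.congr_of_eventuallyEq e, (hz₁ r h.le).2⟩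
  have hzs : ContDiffOn ℝ ∞ z (Ioi 0) := by
    refine contDiffOn_of_ode isOpen_Ioi (U := {w : ℝ × ℝ × ℝ | 0 < w.1 ∧ q + 2 * w.2.1 ≠ 0})
      (F := fun w => (2 * w.1)⁻¹ • fld q w.2) ?_ (fun r hr => ⟨hr, ?_⟩) fun r hr => (hz r hr).1
    · have a1 : ContDiffOn ℝ ∞ (fun w : ℝ × ℝ × ℝ => (2 * w.1)⁻¹)
          {w : ℝ × ℝ × ℝ | 0 < w.1 ∧ q + 2 * w.2.1 ≠ 0} :=
        ContDiffOn.inv (by fun_prop) fun w hw => (mul_pos two_pos hw.1).ne'
      have a2 : ContDiffOn ℝ ∞ (fun w : ℝ × ℝ × ℝ => fld q w.2)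
          {w : ℝ × ℝ × ℝ | 0 < w.1 ∧ q + 2 * w.2.1 ≠ 0} :=
        (fld_contDiffOn q).comp contDiffOn_snd fun w hw => hw.2
      exact a1.smul a2
    · have := (hz r hr).2.fst_pos
      change q + 2 * (z r).1 ≠ 0
      linarith
  let P₁ : ℝ → ℝ := fun r => if r ≤ ε / 2 then P₀ r else -(Real.log ((q - 1) * (z r).1 / r)) / 2
  have hP₁ : ∀ r, 0 < r → P₁ r = -(Real.log ((q - 1) * (z r).1 / r)) / 2 := by
    intro r hr
    by_cases h : r ≤ ε / 2
    · simp only [P₁, z, z₀, if_pos h]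
      rw [show (q - 1) * (r * Real.exp (-2 * P₀ r) / (q - 1)) / r = Real.exp (-2 * P₀ r) by
        field_simp, Real.log_exp]
      ring
    · simp only [P₁, if_neg h]
  have hP₁e : ∀ r, 0 < r → r * Real.exp (-2 * P₁ r) / (q - 1) = (z r).1 := by
    intro r hr
    have := (hz r hr).2.fst_pos
    rw [hP₁ r hr, show -2 * (-(Real.log ((q - 1) * (z r).1 / r)) / 2) =
      Real.log ((q - 1) * (z r).1 / r) by ring, Real.exp_log (by positivity)]
    field_simp
  have hP₁d : ∀ r, 0 < r → HasDerivAt P₁ ((z r).2 / (2 * r)) r := by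
    intro r hr
    have hp := (hz r hr).2.fst_pos
    have h1 := ((((hda_fst (hz r hr).1).const_mul (q - 1)).fun_div (hasDerivAt_id' r)
      hr.ne').log (by positivity)).neg.div_const 2
    refine (h1.congr_deriv ?_).congr_of_eventuallyEq ?_
    · simp only [fld, Prod.smul_fst, smul_eq_mul]
      field_simp
      ring
    · filter_upwards [lt_mem_nhds hr] with s hs
      exact hP₁ s hs
  have hP₁0 : ∀ r, r < ε / 2 → P₁ =ᶠ[𝓝 r] P₀ := fun r hr => by
    filter_upwards [gt_mem_nhds hr] with s hs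
    exact if_pos hs.le
  have hP₁s : ContDiffOn ℝ ∞ P₁ (Ioi (-ε)) := by
    intro r hr
    refine ContDiffAt.contDiffWithinAt ?_
    rcases lt_or_ge r (ε / 2) with h | h
    · exact (hP₀s.contDiffAt (Ioo_mem_nhds hr (by linarith))).congr_of_eventuallyEq (hP₁0 r h)
    · have hr0 : 0 < r := by linarith
      have hp := (hz r hr0).2.fst_pos
      have h1 : ContDiffAt ℝ ∞ (fun r => (z r).1) r := (hzs.contDiffAt (Ioi_mem_nhds hr0)).fst
      have h2 : ContDiffAt ℝ ∞ (fun r => -(Real.log ((q - 1) * (z r).1 / r)) / 2) r :=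
        (((contDiffAt_const.mul h1).div contDiffAt_id hr0.ne').log
          (div_pos (mul_pos hq1 hp) hr0).ne').neg.div_const 2
      refine h2.congr_of_eventuallyEq ?_
      filter_upwards [lt_mem_nhds hr0] with s hs
      exact hP₁ s hs
  obtain ⟨P, hP, hPe, -⟩ := exists_smooth_ext hε hP₁s
  have hPev : ∀ r, 0 ≤ r → P =ᶠ[𝓝 r] P₁ := fun r hr => by
    filter_upwards [lt_mem_nhds (show -ε / 4 < r by linarith)] with s hs
    exact hPe s hs
  have hzz : ∀ r, 0 < r → (r * Real.exp (-2 * P r) / (q - 1), 2 * r * deriv P r) = z r := by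
    intro r hr
    rw [(hPev r hr.le).deriv_eq, (hPev r hr.le).eq_of_nhds, hP₁e r hr, (hP₁d r hr).deriv]
    refine Prod.ext rfl ?_
    simp only
    field_simp
  refine ⟨P, hP, ?_, ?_, fun r hr => ?_⟩
  · rw [(hPev 0 le_rfl).eq_of_nhds, (hP₁0 0 hr₀.1).eq_of_nhds, hP₀0]
  · rw [(hPev 0 le_rfl).deriv_eq, (hP₁0 0 hr₀.1).deriv_eq, hP₀d.deriv]
  · rw [hzz r hr]
    refine ⟨(hz r hr).1.congr_of_eventuallyEq ?_, (hz r hr).2⟩
    filter_upwards [lt_mem_nhds hr] with s hs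
    exact hzz s hs

end Vale.Agent.P244Z.Bubble
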