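import Vale.Agent.P244Z.BubbleBasic
import Mathlib.Topology.Order.MonotoneConvergence
import Mathlib.Analysis.SpecialFunctions.Pow.Deriv
import Mathlib.Analysis.SpecialFunctions.Pow.Asymptotics

/-!
# The bubble on `ℝ^(q+1) × S²`, `q` large: monotone quantities and the behaviour at infinity
-/

open scoped ContDiff Topology
open Set Filter

namespace Vale.Agent.P244Z.Bubble

/-- A function that is nondecreasing wherever it is negative stays nonnegative. -/
theorem nonneg_of_deriv {F F' : ℝ → ℝ} {a : ℝ} (hc : ContinuousOn F (Ici a)) (h0 : 0 ≤ F a)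
    (hd : ∀ x, a < x → HasDerivAt F (F' x) x) (hi : ∀ x, a < x → F x < 0 → 0 ≤ F' x) :
    ∀ x, a ≤ x → 0 ≤ F x := by
  intro b hab
  by_contra hb
  push Not at hb
  let S : Set ℝ := Icc a b ∩ F ⁻¹' Ici 0
  have hS : IsClosed S :=
    (hc.mono Icc_subset_Ici_self).preimage_isClosed_of_isClosed isClosed_Icc isClosed_Ici
  have hne : S.Nonempty := ⟨a, ⟨le_rfl, hab⟩, h0⟩
  have hbdd : BddAbove S := ⟨b, fun t ht => ht.1.2⟩
  obtain ⟨⟨h1, h2⟩, h3⟩ := hS.csSup_mem hne hbdd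
  have hneg : ∀ t ∈ Ioo (sSup S) b, F t < 0 := by
    intro t ht
    by_contra h
    exact absurd (le_csSup hbdd ⟨⟨h1.trans ht.1.le, ht.2.le⟩, not_lt.1 h⟩) (not_le.2 ht.1)
  have hmono : MonotoneOn F (Icc (sSup S) b) := by
    refine monotoneOn_of_deriv_nonneg (convex_Icc _ _)
      (hc.mono fun t ht => h1.trans ht.1) ?_ ?_
    · rw [interior_Icc]
      exact fun t ht => (hd t (h1.trans_lt ht.1)).differentiableAt.differentiableWithinAt
    · rw [interior_Icc]
      intro t ht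
      rw [(hd t (h1.trans_lt ht.1)).deriv]
      exact hi t (h1.trans_lt ht.1) (hneg t ht)
  have := hmono ⟨le_rfl, h2⟩ ⟨h2, le_rfl⟩ h2
  exact absurd (le_trans h3 this) (not_le.2 hb)

theorem monotoneOn_Ici_of_hasDerivAt {F F' : ℝ → ℝ} {a : ℝ} (hc : ContinuousOn F (Ici a))
    (hd : ∀ x, a < x → HasDerivAt F (F' x) x) (hi : ∀ x, a < x → 0 ≤ F' x) :
    MonotoneOn F (Ici a) := by
  refine monotoneOn_of_deriv_nonneg (convex_Ici a) hc ?_ ?_
  · rw [interior_Ici]
    exact fun x hx => (hd x hx).differentiableAt.differentiableWithinAt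
  · rw [interior_Ici]
    intro x hx
    rw [(hd x hx).deriv]
    exact hi x hx

theorem ratio_aux {q α M W ρ t k : ℝ} (hq : 20 ≤ q) (hα : α ^ 2 - (q + 1) * α + 2 * (q + 1) = 0)
    (hα3 : α ≤ 3) (hM : 40 * q ≤ M) (hW : 0 < W) (hρ0 : 0 ≤ ρ) (hρ1 : ρ ≤ 4)
    (ht1 : t ≤ 2) (ht2 : 2 - t ≤ 4 * W) (hk0 : 0 ≤ k) (hk1 : k ≤ q + 1)
    (hk2 : q + 1 - k ≤ 8 * (q + 1) * W) (hneg : M ^ 2 * W ^ 2 - (ρ - α) ^ 2 < 0) :
    0 ≤ -2 * M ^ 2 * W * (ρ * W) - 2 * (ρ - α) * (ρ ^ 2 - k * (ρ - t)) := by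
  obtain ⟨err, herr⟩ : ∃ err, err = k * (t - 2) + (k - (q + 1)) * (2 - ρ) := ⟨_, rfl⟩
  have hsplit : ρ ^ 2 - k * (ρ - t) = (ρ - α) * (ρ - (q + 1 - α)) + err := by
    rw [herr]; linear_combination hα
  have c1 : k * (2 - t) ≤ (q + 1) * (4 * W) := mul_le_mul hk1 ht2 (by linarith) (by linarith)
  have c2 : 0 ≤ k * (2 - t) := mul_nonneg hk0 (by linarith)
  have c3 : (q + 1 - k) * (2 - ρ) ≤ 16 * (q + 1) * W := by
    nlinarith [mul_nonneg (sub_nonneg.2 hk1) hρ0]
  have c4 : -(16 * (q + 1) * W) ≤ (q + 1 - k) * (2 - ρ) := by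
    nlinarith [mul_nonneg (sub_nonneg.2 hk1) (sub_nonneg.2 hρ1)]
  have hqW : (q + 1) * W ≤ 2 * q * W := mul_le_mul_of_nonneg_right (by linarith) hW.le
  have herr1 : err ^ 2 ≤ (40 * q * W) ^ 2 := by
    refine sq_le_sq' ?_ ?_ <;> rw [herr] <;> nlinarith
  have b1 : (40 * q * W) ^ 2 ≤ M ^ 2 * W ^ 2 := by
    rw [← mul_pow]
    exact pow_le_pow_left₀ (by positivity) (mul_le_mul_of_nonneg_right hM hW.le) 2
  have b2 : M ^ 2 * W ^ 2 * ρ ≤ M ^ 2 * W ^ 2 * 4 :=
    mul_le_mul_of_nonneg_left hρ1 (by positivity)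
  have b3 : (ρ - α) ^ 2 * 14 ≤ (ρ - α) ^ 2 * (q + 1 - α - ρ) :=
    mul_le_mul_of_nonneg_left (by linarith) (sq_nonneg _)
  have b4 : 2 * (ρ - α) * err ≤ (ρ - α) ^ 2 + err ^ 2 := by nlinarith [sq_nonneg (ρ - α - err)]
  have e : -2 * M ^ 2 * W * (ρ * W) - 2 * (ρ - α) * ((ρ - α) * (ρ - (q + 1 - α)) + err) =
      -2 * (M ^ 2 * W ^ 2 * ρ) + 2 * ((ρ - α) ^ 2 * (q + 1 - α - ρ)) - 2 * (ρ - α) * err := by
    ring
  rw [hsplit, e]
  have := sq_nonneg (ρ - α)
  linarith

namespace IsBubble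

variable {q : ℝ} {P : ℝ → ℝ} (h : IsBubble q P)
include h

/-- The trap `40 (e - Y) ≤ Y (1 - e)`. -/
theorem forty_le (hq : 250 ≤ q) {x : ℝ} (hx : 0 ≤ x) :
    40 * (bE q P x - bY P x) ≤ bY P x * (1 - bE q P x) := by
  have key := nonneg_of_deriv (a := 0)
    (F := fun x => 41 * bY P x - bE q P x * bY P x - 40 * bE q P x)
    (F' := fun x => ((41 - bE q P x) * ((q - 1) * (bE q P x - bY P x) / bZ q P x) -
      (bY P x + 40) * (2 * bE q P x * (1 - bY P x))) / x)
    (by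
      have h1 := h.bY_smooth.continuous
      have h2 := h.bE_smooth.continuous
      fun_prop)
    (by simp [bY_zero, bE_zero])
    (fun x hx => by
      refine ((((h.bY_hasDerivAt hx.ne').const_mul 41).fun_sub
        ((h.bE_hasDerivAt hx.ne').fun_mul (h.bY_hasDerivAt hx.ne'))).fun_sub
        ((h.bE_hasDerivAt hx.ne').const_mul 40)).congr_deriv ?_
      ring)
    (fun x hx hneg => by
      refine div_nonneg (sub_nonneg.2 ?_) hx.le
      have e1 := h.bE_lt_one x
      have y0 := h.bY_nonneg x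
      have y1 := h.bY_lt_one x
      have hz := h.bZ_pos x
      have z1 := h.bZ_le_one x
      have t1 := h.bY_le_bE x
      have t2 := h.xi_lt x
      have t3 := h.two_bE_le x
      set e := bE q P x
      set Y := bY P x
      set Z := bZ q P x
      have a1 : (q - 1) * (e - Y) ≤ (q - 1) * (e - Y) / Z :=
        le_div_self (mul_nonneg (by linarith) (by linarith)) hz z1
      have a2 : 40 * ((q - 1) * (e - Y)) ≤ (41 - e) * ((q - 1) * (e - Y) / Z) :=
        mul_le_mul (by linarith) a1 (mul_nonneg (by linarith) (by linarith)) (by linarith)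
      have a3 : 2 * e * (1 - Y) ≤ 3 * Y * (2 * (1 - e)) :=
        mul_le_mul t3 t2.le (by linarith) (by linarith)
      have a4 : (Y + 40) * (2 * e * (1 - Y)) ≤ 41 * (3 * Y * (2 * (1 - e))) :=
        mul_le_mul (by linarith) a3 (mul_nonneg (by linarith) (by linarith)) (by norm_num)
      have a5 : 0 ≤ Y * (1 - e) := mul_nonneg y0 (by linarith)
      have a6 : (q - 1) * (Y * (1 - e)) ≤ (q - 1) * (40 * (e - Y)) :=
        mul_le_mul_of_nonneg_left (by linarith) (by linarith)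
      nlinarith [mul_le_mul_of_nonneg_right (show 246 ≤ q - 1 by linarith) a5])
    x hx
  linarith

theorem xi_le_W {x : ℝ} (hx : x ≠ 0) : 1 - bY P x ≤ 4 * bW q P x := by
  have h1 := h.xi_lt x
  have h2 := h.one_sub_bE_le hx
  linarith

theorem bE_mono : MonotoneOn (bE q P) (Ici 0) :=
  monotoneOn_Ici_of_hasDerivAt h.bE_smooth.continuous.continuousOn
    (fun _ hx => h.bE_hasDerivAt hx.ne') fun x hx =>
    div_nonneg (mul_nonneg (mul_nonneg zero_le_two (h.bE_nonneg x))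
      (sub_pos.2 (h.bY_lt_one x)).le) hx.le

theorem W_le_xi {x : ℝ} (hx : 1 ≤ x) : 2 * bE q P 1 * bW q P x ≤ 1 - bY P x := by
  have hx0 : x ≠ 0 := by linarith
  have h1 := h.le_one_sub_bE hx0
  have h2 := h.bE_mono (show (0 : ℝ) ≤ 1 by norm_num) (show (0 : ℝ) ≤ x by linarith) hx
  have h3 := h.bW_pos hx0
  have h4 := h.bY_le_bE x
  nlinarith

/-- The ratio `(1 - Y) / W` differs from `α` by at most a multiple of `W`. -/
theorem ratio_le (hq : 20 ≤ q) {α : ℝ} (hα : α ^ 2 - (q + 1) * α + 2 * (q + 1) = 0)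
    (hα0 : 0 ≤ α) (hα3 : α ≤ 3) : ∃ M, 0 ≤ M ∧ ∀ x, 1 ≤ x →
    |(1 - bY P x) / bW q P x - α| ≤ M * bW q P x := by
  have hW1 := h.bW_pos one_ne_zero
  obtain ⟨M, hM⟩ : ∃ M, M = 40 * q + 4 / bW q P 1 := ⟨_, rfl⟩
  have hM60 : 40 * q ≤ M := by
    have : 0 < 4 / bW q P 1 := by positivity
    linarith
  have hd : ∀ x, 1 ≤ x → HasDerivAt
      (fun x => M ^ 2 * bW q P x ^ 2 - ((1 - bY P x) / bW q P x - α) ^ 2)
      ((-2 * M ^ 2 * bW q P x * (1 - bY P x) - 2 * ((1 - bY P x) / bW q P x - α) *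
        (((1 - bY P x) / bW q P x) ^ 2 -
          (q - 1) * (bE q P x - bY P x) / bZ q P x / bW q P x)) / x) x := by
    intro x hx
    have hx0 : x ≠ 0 := by linarith
    have hW := (h.bW_pos hx0).ne'
    have hz := (h.bZ_pos x).ne'
    refine ((((h.bW_hasDerivAt hx0).fun_pow 2).const_mul (M ^ 2)).fun_sub
      (((((h.bY_hasDerivAt hx0).const_sub 1).fun_div (h.bW_hasDerivAt hx0) hW).sub_const
        α).fun_pow 2)).congr_deriv ?_
    push_cast
    field_simp
    ring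
  have key := nonneg_of_deriv (a := 1)
    (fun x hx => (hd x hx).continuousAt.continuousWithinAt) ?_ (fun x hx => hd x hx.le) ?_
  · refine ⟨M, by linarith, fun x hx => ?_⟩
    have h1 := key x hx
    have h2 := h.bW_pos (show x ≠ 0 by linarith)
    have h3 : 0 ≤ M := by linarith
    exact abs_le_of_sq_le_sq (by rw [mul_pow]; linarith) (by positivity)
  · have h1 := h.xi_le_W one_ne_zero
    have h2 := h.bY_lt_one 1
    have h3 : (1 - bY P 1) / bW q P 1 ≤ 4 := by rwa [div_le_iff₀ hW1]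
    have h4 : 0 ≤ (1 - bY P 1) / bW q P 1 := div_nonneg (by linarith) hW1.le
    have h5 : 4 ≤ M * bW q P 1 := by
      rw [hM, add_mul, div_mul_cancel₀ _ hW1.ne']
      have : 0 ≤ 40 * q * bW q P 1 := by positivity
      linarith
    rw [← mul_pow]
    nlinarith
  · intro x hx hneg
    have hx0 : x ≠ 0 := by linarith
    refine div_nonneg ?_ (by linarith)
    have hW := h.bW_pos hx0
    have hz := h.bZ_pos x
    have z0 := h.z0_lt_bZ x
    have z1 := h.bZ_le_one x
    have z2 := h.bZ_sub_le x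
    have x1 := h.xi_le_W hx0
    have y1 := h.bY_lt_one x
    have e1 := h.one_sub_bE_le hx0
    have e2 := h.le_one_sub_bE hx0
    set e := bE q P x
    set Y := bY P x
    set Z := bZ q P x
    set W := bW q P x
    rw [div_lt_iff₀ (by linarith)] at z0
    have z3 : Z * (q + 1) - (q - 1) ≤ 4 * W * (q + 1) := by
      have := mul_le_mul_of_nonneg_right (z2.trans x1) (show 0 ≤ q + 1 by linarith)
      rwa [sub_mul, div_mul_cancel₀ _ (by linarith)] at this
    obtain ⟨ρ, hρ⟩ : ∃ ρ, ρ = (1 - Y) / W := ⟨_, rfl⟩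
    obtain ⟨t, ht⟩ : ∃ t, t = (1 - e) / W := ⟨_, rfl⟩
    obtain ⟨k, hk⟩ : ∃ k, k = (q - 1) / Z := ⟨_, rfl⟩
    have hρW : 1 - Y = ρ * W := by rw [hρ]; field_simp
    have htW : 1 - e = t * W := by rw [ht]; field_simp
    have hkZ : k * Z = q - 1 := by rw [hk]; field_simp
    have hρ0 : 0 ≤ ρ := by rw [hρ]; exact div_nonneg (by linarith) hW.le
    have hρ1 : ρ ≤ 4 := by rw [hρ, div_le_iff₀ hW]; exact x1
    have ht1 : t ≤ 2 := by rw [ht, div_le_iff₀ hW]; exact e1
    have ht2 : 2 - t ≤ 4 * W := by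
      have : 2 * e ≤ t := by rw [ht, le_div_iff₀ hW]; linarith
      linarith
    have hk0 : 0 ≤ k := by rw [hk]; exact div_nonneg (by linarith) hz.le
    have hk1 : k ≤ q + 1 := by rw [hk, div_le_iff₀ hz]; linarith
    have hZ2 : 1 ≤ 2 * Z := by nlinarith
    have hk2 : q + 1 - k ≤ 8 * (q + 1) * W := by
      have h1 : 4 * W * (q + 1) * 1 ≤ 4 * W * (q + 1) * (2 * Z) :=
        mul_le_mul_of_nonneg_left hZ2 (by positivity)
      have : (q + 1 - k) * Z ≤ 8 * (q + 1) * W * Z := by nlinarith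
      exact le_of_mul_le_mul_right this hz
    have hq' : (q - 1) * (e - Y) / Z / W = k * (ρ - t) := by
      rw [hρ, ht, hk]
      field_simp
      ring
    rw [← hρ] at hneg ⊢
    rw [hq', hρW]
    exact ratio_aux hq hα hα3 hM60 hW hρ0 hρ1 ht1 ht2 hk0 hk1 hk2 hneg

/-- `x ^ α W` has a positive limit. -/
theorem W_asym (hq : 20 ≤ q) {α : ℝ} (hα : α ^ 2 - (q + 1) * α + 2 * (q + 1) = 0)
    (hα0 : 0 < α) (hα3 : α ≤ 3) : ∃ cB : ℝ, 0 < cB ∧ Tendsto (bW q P) atTop (𝓝 0) ∧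
    Tendsto (fun x => x ^ α * bW q P x) atTop (𝓝 cB) := by
  obtain ⟨M, hM0, hM⟩ := h.ratio_le hq hα hα0.le hα3
  have hE1 := h.bE_pos one_ne_zero
  obtain ⟨K, hK⟩ : ∃ K, K = M / (2 * bE q P 1) := ⟨_, rfl⟩
  have hK0 : 0 ≤ K := by rw [hK]; positivity
  have hMK : ∀ x, 1 ≤ x → |(1 - bY P x) / bW q P x - α| ≤ K * (1 - bY P x) := by
    intro x hx
    refine (hM x hx).trans ?_
    have := mul_le_mul_of_nonneg_left (h.W_le_xi hx) hK0
    rw [hK] at this ⊢
    calc M * bW q P x = M / (2 * bE q P 1) * (2 * bE q P 1 * bW q P x) := by field_simp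
      _ ≤ _ := this
  let Φ : ℝ → ℝ := fun x => Real.log (bW q P x) + α * Real.log x
  have hΦ : ∀ x, 1 ≤ x → HasDerivAt Φ ((α - (1 - bY P x) / bW q P x) / x) x := by
    intro x hx
    have hx0 : x ≠ 0 := by linarith
    have hW := (h.bW_pos hx0).ne'
    refine (((h.bW_hasDerivAt hx0).log hW).fun_add
      ((Real.hasDerivAt_log hx0).const_mul α)).congr_deriv ?_
    field_simp
    ring
  have hexp : ∀ x, 1 ≤ x → Real.exp (Φ x) = x ^ α * bW q P x := by
    intro x hx
    have hx0 : 0 < x := by linarith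
    simp only [Φ]
    rw [Real.exp_add, Real.exp_log (h.bW_pos hx0.ne'), Real.rpow_def_of_pos hx0, mul_comm,
      mul_comm α]
  have hlow : MonotoneOn (fun x => Φ x - K * bW q P x) (Ici 1) := by
    have hd := fun x (hx : 1 ≤ x) => (hΦ x hx).fun_sub
      ((h.bW_hasDerivAt (show x ≠ 0 by linarith)).const_mul K)
    refine monotoneOn_Ici_of_hasDerivAt (fun x hx => (hd x hx).continuousAt.continuousWithinAt)
      (fun x hx => hd x hx.le) fun x hx => ?_
    have := (abs_le.1 (hMK x hx.le)).2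
    rw [← mul_div_assoc, ← sub_div]
    exact div_nonneg (by linarith) (by linarith)
  have hup : MonotoneOn (fun x => -Φ x - K * bW q P x) (Ici 1) := by
    have hd := fun x (hx : 1 ≤ x) => (hΦ x hx).fun_neg.fun_sub
      ((h.bW_hasDerivAt (show x ≠ 0 by linarith)).const_mul K)
    refine monotoneOn_Ici_of_hasDerivAt (fun x hx => (hd x hx).continuousAt.continuousWithinAt)
      (fun x hx => hd x hx.le) fun x hx => ?_
    have := (abs_le.1 (hMK x hx.le)).1
    rw [← mul_div_assoc, ← neg_div, ← sub_div]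
    exact div_nonneg (by linarith) (by linarith)
  have hKW : ∀ x, 1 ≤ x → 0 ≤ K * bW q P x := fun x hx =>
    mul_nonneg hK0 (h.bW_pos (by linarith)).le
  have hb : ∀ x, 1 ≤ x → Φ x ≤ Φ 1 + K * bW q P 1 := by
    intro x hx
    have h2 := hup (le_refl (1 : ℝ)) hx hx
    have h3 := hKW x hx
    simp only at h2
    linarith
  have hW0 : Tendsto (bW q P) atTop (𝓝 0) := by
    have h1 : Tendsto (fun x : ℝ => Real.exp (Φ 1 + K * bW q P 1) * x ^ (-α)) atTop (𝓝 0) := by
      simpa using (tendsto_rpow_neg_atTop hα0).const_mul (Real.exp (Φ 1 + K * bW q P 1))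
    refine tendsto_of_tendsto_of_tendsto_of_le_of_le' tendsto_const_nhds h1 ?_ ?_
    · filter_upwards [eventually_ge_atTop 1] with x hx
      exact (h.bW_pos (by linarith)).le
    · filter_upwards [eventually_ge_atTop 1] with x hx
      have hx0 : 0 < x := by linarith
      rw [Real.rpow_neg hx0.le, ← div_eq_mul_inv, le_div_iff₀ (Real.rpow_pos_of_pos hx0 _),
        mul_comm, ← hexp x hx]
      exact Real.exp_le_exp.2 (hb x hx)
  obtain ⟨l, hl⟩ : ∃ l, Tendsto (fun x => Φ x - K * bW q P x) atTop (𝓝 l) := by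
    have hm : Monotone fun x : ℝ => Φ (max x 1) - K * bW q P (max x 1) := fun x y hxy =>
      hlow (le_max_right x 1) (le_max_right y 1) (max_le_max_right 1 hxy)
    have hbd : BddAbove (range fun x : ℝ => Φ (max x 1) - K * bW q P (max x 1)) := by
      refine ⟨Φ 1 + K * bW q P 1, ?_⟩
      rintro _ ⟨x, rfl⟩
      have h1 := hb _ (le_max_right x 1)
      have h2 := hKW _ (le_max_right x 1)
      simp only
      linarith
    refine ⟨_, (tendsto_atTop_ciSup hm hbd).congr' ?_⟩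
    filter_upwards [eventually_ge_atTop 1] with x hx
    rw [max_eq_left hx]
  have hΦl : Tendsto Φ atTop (𝓝 l) := by
    simpa using hl.add (hW0.const_mul K)
  refine ⟨Real.exp l, Real.exp_pos l, hW0, ((Real.continuous_exp.tendsto l).comp hΦl).congr' ?_⟩
  filter_upwards [eventually_ge_atTop 1] with x hx
  exact hexp x hx

/-- `x ^ α (1 - e) / e` has a positive limit. -/
theorem E_asym (hq : 20 ≤ q) {α : ℝ} (hα : α ^ 2 - (q + 1) * α + 2 * (q + 1) = 0)
    (hα0 : 0 < α) (hα3 : α ≤ 3) : ∃ c : ℝ, 0 < c ∧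
    Tendsto (fun x => x ^ α * ((1 - bE q P x) / bE q P x)) atTop (𝓝 c) := by
  obtain ⟨cB, hc, hW0, hW⟩ := h.W_asym hq hα hα0 hα3
  have he : Tendsto (bE q P) atTop (𝓝 1) := by
    have h1 := (Real.continuous_exp.tendsto _).comp (hW0.const_mul (-2))
    rw [mul_zero, Real.exp_zero] at h1
    refine h1.congr' ?_
    filter_upwards [eventually_gt_atTop 0] with x hx
    exact h.exp_bW hx.ne'
  refine ⟨2 * cB, by positivity, ?_⟩
  have h2 : Tendsto (fun x => 2 * (x ^ α * bW q P x) / bE q P x) atTop (𝓝 (2 * cB)) := by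
    have := (hW.const_mul 2).div he one_ne_zero
    rw [div_one] at this
    exact this
  refine tendsto_of_tendsto_of_tendsto_of_le_of_le' (hW.const_mul 2) h2 ?_ ?_
  · filter_upwards [eventually_gt_atTop 0] with x hx
    have h3 := h.le_one_sub_bE hx.ne'
    rw [← le_div_iff₀ (h.bE_pos hx.ne')] at h3
    have := mul_le_mul_of_nonneg_left h3 (Real.rpow_pos_of_pos hx α).le
    linarith
  · filter_upwards [eventually_gt_atTop 0] with x hx
    have h3 := div_le_div_of_nonneg_right (h.one_sub_bE_le hx.ne') (h.bE_pos hx.ne').le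
    refine (mul_le_mul_of_nonneg_left h3 (Real.rpow_pos_of_pos hx α).le).trans_eq ?_
    ring

end IsBubble

end Vale.Agent.P244Z.Bubble
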