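import Mathlib.Analysis.SpecialFunctions.Pow.Real
import Mathlib.Analysis.SpecialFunctions.Sqrt
import Mathlib.Analysis.SpecialFunctions.Trigonometric.Basic
import Mathlib.Analysis.SpecialFunctions.SmoothTransition
import Mathlib.Analysis.Calculus.ContDiff.Defs
import Mathlib.Analysis.Calculus.Deriv.Basic
import Mathlib.MeasureTheory.Integral.IntervalIntegral.Basic

/-!
# P244: doubly warped Ricci flows on S^11 x S^2, basic definitions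

The metric is `g = l(t)^2 dθ^2 + φ^2 g_{S^10} + exp(2u) g_{S^2}`, `θ ∈ [0, π]`; points of the strip
are pairs `p = (θ, t)`.  The time `t` is the normalised time, `sg t = T - (physical time)`.
`Ds` is the arclength derivative, `Dt` the physical time derivative along the Ricci flow.
-/

open Set Real
open scoped ContDiff

namespace Vale.Agent.P244Z

/-- derivative in the first variable -/
noncomputable def d1 (F : ℝ × ℝ → ℝ) (p : ℝ × ℝ) : ℝ := deriv (fun x => F (x, p.2)) p.1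

/-- derivative in the second variable -/
noncomputable def d2 (F : ℝ × ℝ → ℝ) (p : ℝ × ℝ) : ℝ := deriv (fun t => F (p.1, t)) p.2

/-- the slow decay exponent: the smaller root of `x^2 - 11 x + 22` -/
noncomputable def al : ℝ := (11 - √33) / 2

/-- the exponent of the supersolution, slightly larger than `al` -/
noncomputable def al1 : ℝ := 8 / 3

/-- the value of `φ_s^2` on the cone -/
noncomputable def z0 : ℝ := 9 / 11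

/-- The raw data of a flow.  `kk`, `vv`, `hh` are the quantities `(1 - φ_s^2)/φ^2`, `u_s/φ`,
`φ_ss/φ`, extended smoothly to the poles. -/
structure Data where
  l : ℝ → ℝ
  sg : ℝ → ℝ
  φ : ℝ × ℝ → ℝ
  u : ℝ × ℝ → ℝ
  V : ℝ × ℝ → ℝ
  kk : ℝ × ℝ → ℝ
  vv : ℝ × ℝ → ℝ
  hh : ℝ × ℝ → ℝ

namespace Data

variable (S : Data)

/-- arclength derivative -/
noncomputable def Ds (F : ℝ × ℝ → ℝ) (p : ℝ × ℝ) : ℝ := d1 F p / S.l p.2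

/-- physical time derivative along the Ricci flow -/
noncomputable def Dt (F : ℝ × ℝ → ℝ) (p : ℝ × ℝ) : ℝ := (d2 F p - S.V p * d1 F p) / S.l p.2 ^ 2

/-- `φ_s` -/
noncomputable def A : ℝ × ℝ → ℝ := S.Ds S.φ

/-- `u_s` -/
noncomputable def β : ℝ × ℝ → ℝ := S.Ds S.u

/-- `φ_s^2` -/
noncomputable def z (p : ℝ × ℝ) : ℝ := S.A p ^ 2

/-- `(log φ)_s` -/
noncomputable def fs (p : ℝ × ℝ) : ℝ := S.A p / S.φ p

/-- mean curvature of the orbits -/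
noncomputable def H (p : ℝ × ℝ) : ℝ := 10 * S.fs p + 2 * S.β p

/-- Laplacian of invariant functions -/
noncomputable def lap (F : ℝ × ℝ → ℝ) (p : ℝ × ℝ) : ℝ := S.Ds (S.Ds F) p + S.H p * S.Ds F p

/-- heat operator -/
noncomputable def box (F : ℝ × ℝ → ℝ) (p : ℝ × ℝ) : ℝ := S.Dt F p - S.lap F p

/-- Ricci curvature in the radial direction -/
noncomputable def a (p : ℝ × ℝ) : ℝ := -10 * S.hh p - 2 * (S.Ds S.β p + S.β p ^ 2)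

/-- Ricci curvature in the direction of `S^10` -/
noncomputable def b (p : ℝ × ℝ) : ℝ := -S.hh p - 2 * S.A p * S.vv p + 9 * S.kk p

/-- Ricci curvature in the direction of `S^2` -/
noncomputable def c (p : ℝ × ℝ) : ℝ :=
  -S.Ds S.β p - 10 * S.A p * S.vv p - 2 * S.β p ^ 2 + exp (-2 * S.u p)

/-- scalar curvature -/
noncomputable def R (p : ℝ × ℝ) : ℝ := S.a p + 10 * S.b p + 2 * S.c p

/-- tracefree parts -/
noncomputable def ao (p : ℝ × ℝ) : ℝ := S.a p - S.R p / 13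
noncomputable def bt (p : ℝ × ℝ) : ℝ := S.b p - S.R p / 13
noncomputable def ct (p : ℝ × ℝ) : ℝ := S.c p - S.R p / 13

/-- squared norm of the tracefree Ricci tensor -/
noncomputable def ric0 (p : ℝ × ℝ) : ℝ := S.ao p ^ 2 + 10 * S.bt p ^ 2 + 2 * S.ct p ^ 2

/-- deviation from the cone: `log (3 ψ / φ)` -/
noncomputable def w (p : ℝ × ℝ) : ℝ := S.u p + log 3 - log (S.φ p)

/-- `exp (-2 w)`, written so that it is smooth at the poles -/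
noncomputable def e (p : ℝ × ℝ) : ℝ := S.φ p ^ 2 * exp (-2 * S.u p) / 9

/-- `w_s` -/
noncomputable def η (p : ℝ × ℝ) : ℝ := S.β p - S.fs p

/-- `φ w_s` -/
noncomputable def om (p : ℝ × ℝ) : ℝ := S.φ p * S.β p - S.A p

/-- `x u_x` in the coordinate `x = φ` -/
noncomputable def Y (p : ℝ × ℝ) : ℝ := S.φ p * S.β p / S.A p

/-- `- x w_x` in the coordinate `x = φ` -/
noncomputable def ξ (p : ℝ × ℝ) : ℝ := 1 - S.Y p

/-- reaction term of the equation of `w` -/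
noncomputable def G (p : ℝ × ℝ) : ℝ := 9 / S.φ p ^ 2 - exp (-2 * S.u p)

/-- time derivative of `w` -/
noncomputable def D (p : ℝ × ℝ) : ℝ := S.b p - S.c p

/-- `T -` physical time, as a function on the strip -/
noncomputable def σ (p : ℝ × ℝ) : ℝ := S.sg p.2

/-- a function `h (x, σ)` evaluated along the flow -/
noncomputable def ev (h : ℝ × ℝ → ℝ) (p : ℝ × ℝ) : ℝ := h (S.φ p, S.sg p.2)

end Data

/-- `J` is a time interval `[0, τ)` or `[0, ∞)`. -/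
structure TimeSet (J : Set ℝ) : Prop where
  zero_mem : (0 : ℝ) ∈ J
  nonneg : ∀ t ∈ J, 0 ≤ t
  down : ∀ t ∈ J, Icc 0 t ⊆ J
  up : ∀ t ∈ J, ∃ t' ∈ J, t < t'

/-- `S` is a smooth reflection symmetric solution of the (gauge modified, normalised) doubly warped
Ricci flow on the time set `J`. -/
structure Sol (S : Data) (J : Set ℝ) : Prop where
  time : TimeSet J
  sm_l : ContDiffOn ℝ ∞ S.l J
  sm_sg : ContDiffOn ℝ ∞ S.sg J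
  sm_φ : ContDiffOn ℝ ∞ S.φ (univ ×ˢ J)
  sm_u : ContDiffOn ℝ ∞ S.u (univ ×ˢ J)
  sm_V : ContDiffOn ℝ ∞ S.V (univ ×ˢ J)
  sm_kk : ContDiffOn ℝ ∞ S.kk (univ ×ˢ J)
  sm_vv : ContDiffOn ℝ ∞ S.vv (univ ×ˢ J)
  sm_hh : ContDiffOn ℝ ∞ S.hh (univ ×ˢ J)
  l_pos : ∀ t ∈ J, 0 < S.l t
  φ_odd : ∀ θ, ∀ t ∈ J, S.φ (-θ, t) = -S.φ (θ, t)
  φ_sym : ∀ θ, ∀ t ∈ J, S.φ (π - θ, t) = S.φ (θ, t)
  u_even : ∀ θ, ∀ t ∈ J, S.u (-θ, t) = S.u (θ, t)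
  u_sym : ∀ θ, ∀ t ∈ J, S.u (π - θ, t) = S.u (θ, t)
  V_odd : ∀ θ, ∀ t ∈ J, S.V (-θ, t) = -S.V (θ, t)
  V_sym : ∀ θ, ∀ t ∈ J, S.V (π - θ, t) = -S.V (θ, t)
  φ_pos : ∀ θ ∈ Ioo 0 π, ∀ t ∈ J, 0 < S.φ (θ, t)
  A_zero : ∀ t ∈ J, S.A (0, t) = 1
  kk_eq : ∀ θ, ∀ t ∈ J, S.φ (θ, t) ^ 2 * S.kk (θ, t) = 1 - S.A (θ, t) ^ 2
  vv_eq : ∀ θ, ∀ t ∈ J, S.φ (θ, t) * S.vv (θ, t) = S.β (θ, t)
  hh_eq : ∀ θ, ∀ t ∈ J, S.φ (θ, t) * S.hh (θ, t) = S.Ds S.A (θ, t)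
  eq_φ : ∀ θ ∈ Ioo 0 π, ∀ t ∈ J, 0 < t → S.Dt S.φ (θ, t) = -S.b (θ, t) * S.φ (θ, t)
  eq_u : ∀ θ ∈ Ioo 0 π, ∀ t ∈ J, 0 < t → S.Dt S.u (θ, t) = -S.c (θ, t)
  eq_V : ∀ θ ∈ Ioo 0 π, ∀ t ∈ J, 0 < t →
    d1 S.V (θ, t) = S.l t ^ 2 * S.a (θ, t) + deriv S.l t / S.l t
  eq_sg : ∀ t ∈ J, 0 < t → deriv S.sg t = -S.l t ^ 2

/-- The Ricci flat bubble on `ℝ^11 × S^2`, `g = dx^2 / Z + x^2 g_{S^10} + exp(2U) g_{S^2}`, and the
supersolution `(HB, HC)` of the tracefree Lichnerowicz system on it. -/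
structure Bub where
  U : ℝ → ℝ
  Z : ℝ → ℝ
  υ : ℝ → ℝ
  κ : ℝ → ℝ
  HB : ℝ → ℝ
  HC : ℝ → ℝ
  cB : ℝ
  c0 : ℝ
  C0 : ℝ

namespace Bub

variable (B : Bub)

/-- `x U'(x)` -/
noncomputable def Y (x : ℝ) : ℝ := x ^ 2 * B.υ x

/-- `exp (-2 W)` -/
noncomputable def e (x : ℝ) : ℝ := x ^ 2 * exp (-2 * B.U x) / 9

/-- deviation from the cone -/
noncomputable def W (x : ℝ) : ℝ := B.U x + log 3 - log x

/-- the coefficients of the Lichnerowicz system, times `x^2`, as functions of `(z, Y, e)` -/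
noncomputable def m11 (z Y : ℝ) : ℝ := 18 + 20 * (9 * (1 - z) - 2 * z * Y - 2 * z)
noncomputable def m12 (z Y : ℝ) : ℝ := -4 * (9 * (1 - z) - 3 * z * Y - z)
noncomputable def m21 (z Y e : ℝ) : ℝ := -20 * (9 * e - 11 * z * Y - 2 * z * Y ^ 2)
noncomputable def m22 (z Y e : ℝ) : ℝ := 18 * e + 4 * (9 * e - 10 * z * Y - 3 * z * Y ^ 2)

/-- the reference scale of the bubble: `cB lam^al = σ^3` -/
noncomputable def lam (s : ℝ) : ℝ := (s ^ 3 / B.cB) ^ (1 / al)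

/-- the weight for the tracefree Ricci tensor -/
noncomputable def Om (x s : ℝ) : ℝ :=
  s ^ (2 + (al1 - al) / 2) * (x ^ 2 + B.lam s ^ 2) ^ (-al1 / 2) + x ^ (4 - al)

end Bub

/-- the weight for `w` -/
noncomputable def Wt (x s : ℝ) : ℝ := x ^ (-al) * (s ^ 3 + x ^ 6)

/-- everything that is used about the bubble -/
structure IsBub (B : Bub) : Prop where
  sm_U : ContDiff ℝ ∞ B.U
  sm_Z : ContDiff ℝ ∞ B.Z
  sm_υ : ContDiff ℝ ∞ B.υ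
  sm_κ : ContDiff ℝ ∞ B.κ
  U_even : ∀ x, B.U (-x) = B.U x
  Z_even : ∀ x, B.Z (-x) = B.Z x
  U_zero : B.U 0 = 0
  υ_eq : ∀ x, deriv B.U x = x * B.υ x
  κ_eq : ∀ x, 1 - B.Z x = x ^ 2 * B.κ x
  ode_Y : ∀ x, B.Z x * (x * deriv B.Y x) = 9 * (B.e x - B.Y x)
  ode_Z : ∀ x, x * deriv B.Z x = 18 * (1 - B.Z x) - 4 * B.Z x * B.Y x
  constraint : ∀ x, 90 * (1 - B.Z x) + 18 * B.e x = B.Z x * (2 * B.Y x ^ 2 + 40 * B.Y x)
  cB_pos : 0 < B.cB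
  c0_pos : 0 < B.c0
  one_le_C0 : 1 ≤ B.C0
  Z_ge : ∀ x, z0 ≤ B.Z x
  Z_le : ∀ x, B.Z x ≤ 1
  Y_nonneg : ∀ x, 0 ≤ B.Y x
  Y_le : ∀ x, B.Y x ≤ 1
  e_le : ∀ x, B.e x ≤ 1
  Y_near : ∀ x, B.Y x ≤ B.C0 * (x ^ 2 / (1 + x ^ 2))
  e_near : ∀ x, B.e x ≤ B.C0 * (x ^ 2 / (1 + x ^ 2))
  Z_near : ∀ x, 1 - B.Z x ≤ B.C0 * (x ^ 2 / (1 + x ^ 2))
  dY_near : ∀ x, |x * deriv B.Y x| ≤ B.C0 * (x ^ 2 / (1 + x ^ 2))
  dZ_near : ∀ x, |x * deriv B.Z x| ≤ B.C0 * (x ^ 2 / (1 + x ^ 2))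
  Y_far : ∀ x, 0 ≤ x → 1 - B.Y x ≤ B.C0 * (1 + x ^ 2) ^ (-al / 2)
  Z_far : ∀ x, 0 ≤ x → B.Z x - z0 ≤ B.C0 * (1 + x ^ 2) ^ (-al / 2)
  dY_far : ∀ x, 0 ≤ x → |x * deriv B.Y x| ≤ B.C0 * (1 + x ^ 2) ^ (-al / 2)
  dZ_far : ∀ x, 0 ≤ x → |x * deriv B.Z x| ≤ B.C0 * (1 + x ^ 2) ^ (-al / 2)
  W_nonneg : ∀ x, 0 < x → 0 ≤ B.W x
  W_far : ∀ x, 1 / 4 ≤ x → B.W x ≤ B.C0 * x ^ (-al)
  W_lim : Filter.Tendsto (fun x => x ^ al * B.W x) Filter.atTop (nhds B.cB)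
  Y_lim : Filter.Tendsto (fun x => x ^ al * (1 - B.Y x)) Filter.atTop (nhds (al * B.cB))
  HB_cont : ContinuousOn B.HB (Ici 0)
  HC_cont : ContinuousOn B.HC (Ici 0)
  HB_sm : ContDiffOn ℝ 2 B.HB (Ioi 0)
  HC_sm : ContDiffOn ℝ 2 B.HC (Ioi 0)
  HB_ge : ∀ x, 0 ≤ x → B.c0 * (1 + x ^ 2) ^ (-al1 / 2) ≤ B.HB x
  HC_ge : ∀ x, 0 ≤ x → B.c0 * (1 + x ^ 2) ^ (-al1 / 2) ≤ B.HC x
  HB_le : ∀ x, 0 ≤ x → B.HB x ≤ B.C0 * (1 + x ^ 2) ^ (-al1 / 2)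
  HC_le : ∀ x, 0 ≤ x → B.HC x ≤ B.C0 * (1 + x ^ 2) ^ (-al1 / 2)
  dHB : ∀ x, 0 < x → |x * deriv B.HB x| ≤ B.C0 * B.HB x
  ddHB : ∀ x, 0 < x → |x ^ 2 * deriv (deriv B.HB) x| ≤ B.C0 * B.HB x
  dHC : ∀ x, 0 < x → |x * deriv B.HC x| ≤ B.C0 * (x ^ 2 / (1 + x ^ 2)) * B.HC x
  ddHC : ∀ x, 0 < x → |x ^ 2 * deriv (deriv B.HC) x| ≤ B.C0 * (x ^ 2 / (1 + x ^ 2)) * B.HC x
  pole : 2 * B.HC 0 < 11 * B.HB 0
  super_B : ∀ x, 0 < x →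
    B.Z x * (x ^ 2 * deriv (deriv B.HB) x) + (9 + B.Z x) * (x * deriv B.HB x)
      + Bub.m11 (B.Z x) (B.Y x) * B.HB x + |Bub.m12 (B.Z x) (B.Y x)| * B.HC x ≤ -B.c0 * B.HB x
  super_C : ∀ x, 0 < x →
    B.Z x * (x ^ 2 * deriv (deriv B.HC) x) + (9 + B.Z x) * (x * deriv B.HC x)
      + |Bub.m21 (B.Z x) (B.Y x) (B.e x)| * B.HB x + Bub.m22 (B.Z x) (B.Y x) (B.e x) * B.HC x
      ≤ -B.c0 * (x ^ 2 / (1 + x ^ 2)) * B.HC x

/-! ### Laguerre modes -/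

/-- `ν = (13 - 2 al) / 2` -/
noncomputable def nu : ℝ := 13 / 2 - al

/-- `1 / (4 z0)` -/
noncomputable def cc : ℝ := 11 / 36

/-- the weight `X^(ν-1) exp(-c X)` -/
noncomputable def wgt (X : ℝ) : ℝ := X ^ (nu - 1) * exp (-cc * X)

/-- the Laguerre polynomials, normalised by `L j 0 = 1` -/
noncomputable def Lag : ℕ → ℝ → ℝ
  | 0, _ => 1
  | 1, X => 1 - cc * X / nu
  | 2, X => 1 - 2 * cc * X / nu + (cc * X) ^ 2 / (nu * (nu + 1))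
  | 3, X => 1 - 3 * cc * X / nu + 3 * (cc * X) ^ 2 / (nu * (nu + 1))
      - (cc * X) ^ 3 / (nu * (nu + 1) * (nu + 2))
  | _ + 4, _ => 0

/-- the squared norms of the modes -/
noncomputable def hL (j : ℕ) : ℝ := ∫ X in Ioi (0 : ℝ), Lag j X ^ 2 * wgt X

/-- the cut-off: `0` for `r ≤ 1`, `1` for `r ≥ 2` -/
noncomputable def cut (r : ℝ) : ℝ := Real.smoothTransition (r - 1)

namespace Data

variable (S : Data) (B : Bub) (δ1 : ℝ)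

/-- the similarity variable `X = x^2 / σ` -/
noncomputable def X (p : ℝ × ℝ) : ℝ := S.φ p ^ 2 / S.sg p.2

/-- the rescaled and truncated `w`; it vanishes for `φ ≤ lam` and for `φ ≥ δ1` -/
noncomputable def v (p : ℝ × ℝ) : ℝ :=
  cut (S.φ p / B.lam (S.sg p.2)) * (1 - cut (2 * S.φ p / δ1)) *
    (S.φ p ^ al * S.w p / S.sg p.2 ^ 3)

/-- the projections onto the modes -/
noncomputable def P (j : ℕ) (t : ℝ) : ℝ :=
  ∫ θ in (0 : ℝ)..(π / 2), S.v B δ1 (θ, t) * Lag j (S.X (θ, t)) * wgt (S.X (θ, t)) * d1 S.X (θ, t)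

/-- the squared norm of `v` -/
noncomputable def En (t : ℝ) : ℝ :=
  ∫ θ in (0 : ℝ)..(π / 2), S.v B δ1 (θ, t) ^ 2 * wgt (S.X (θ, t)) * d1 S.X (θ, t)

/-- the squared norm of the stable part of `v` -/
noncomputable def Ep (t : ℝ) : ℝ :=
  S.En B δ1 t - ∑ j ∈ Finset.range 4, S.P B δ1 j t ^ 2 / hL j

end Data

end Vale.Agent.P244Z
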