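import Vale.Agent.P267.H734.ParInt

/-!
Division by `sin r`, and smoothness in `h = cos r` up to the ends of `[-1,1]` of functions that are
even about every multiple of `π`.
-/

open scoped ContDiff Topology
open Set Filter Real

namespace Vale.Agent.P244Z.Geo

variable {P : Type} [NormedAddCommGroup P] [NormedSpace ℝ P]
  {V : Type} [NormedAddCommGroup V] [NormedSpace ℝ V]

theorem hasDerivAt_slice {I : Set P} (hI : IsOpen I) {H : P × ℝ → V}
    (hH : ContDiffOn ℝ ∞ H (I ×ˢ univ)) {t : P} (ht : t ∈ I) (r : ℝ) :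
    HasDerivAt (fun s => H (t, s)) (fderiv ℝ H (t, r) (0, 1)) r := by
  have h1 : DifferentiableAt ℝ H (t, r) :=
    (hH.contDiffAt ((hI.prod isOpen_univ).mem_nhds ⟨ht, trivial⟩)).differentiableAt (by simp)
  exact h1.hasFDerivAt.comp_hasDerivAt r ((hasDerivAt_const r t).prodMk (hasDerivAt_id r))

theorem contDiffOn_dr {I : Set P} (hI : IsOpen I) {H : P × ℝ → V}
    (hH : ContDiffOn ℝ ∞ H (I ×ˢ univ)) :
    ContDiffOn ℝ ∞ (fun z => fderiv ℝ H z (0, 1)) (I ×ˢ univ) :=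
  (hH.fderiv_of_isOpen (hI.prod isOpen_univ) (by simp)).clm_apply contDiffOn_const

theorem continuous_slice {I : Set P} {H : P × ℝ → V}
    (hH : ContDiffOn ℝ ∞ H (I ×ˢ univ)) {t : P} (ht : t ∈ I) : Continuous fun s => H (t, s) :=
  hH.continuousOn.comp_continuous (by fun_prop) fun _ => ⟨ht, trivial⟩

theorem exists_div_sub [CompleteSpace V] {I : Set P} (hI : IsOpen I) {H : P × ℝ → V}
    (hH : ContDiffOn ℝ ∞ H (I ×ˢ univ)) (r₀ : ℝ) :
    ∃ K : P × ℝ → V, ContDiffOn ℝ ∞ K (I ×ˢ univ) ∧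
      (∀ t ∈ I, ∀ r, H (t, r) - H (t, r₀) = (r - r₀) • K (t, r)) ∧
      ∀ t ∈ I, K (t, r₀) = fderiv ℝ H (t, r₀) (0, 1) := by
  have hD := contDiffOn_dr hI hH
  refine ⟨fun z => ∫ s in (0 : ℝ)..1, fderiv ℝ H (z.1, r₀ + s * (z.2 - r₀)) (0, 1), ?_, ?_, ?_⟩
  · have hW : IsOpen {q : (P × ℝ) × ℝ | q.1.1 ∈ I} := hI.preimage (by fun_prop)
    refine P267.H734.contDiffOn_integral (W := {q : (P × ℝ) × ℝ | q.1.1 ∈ I})
      (f := fun q => fderiv ℝ H (q.1.1, r₀ + q.2 * (q.1.2 - r₀)) (0, 1)) hW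
      (hI.prod isOpen_univ) (fun p hp _ _ => hp.1) ?_
    exact hD.comp (f := fun q : (P × ℝ) × ℝ => (q.1.1, r₀ + q.2 * (q.1.2 - r₀)))
      (by fun_prop) fun q hq => ⟨hq, trivial⟩
  · intro t ht r
    have h1 : ∀ s ∈ uIcc (0 : ℝ) 1, HasDerivAt (fun s => H (t, r₀ + s * (r - r₀)))
        ((r - r₀) • fderiv ℝ H (t, r₀ + s * (r - r₀)) (0, 1)) s := by
      intro s _
      have h2 : HasDerivAt (fun s : ℝ => r₀ + s * (r - r₀)) (r - r₀) s := by
        simpa using ((hasDerivAt_id s).mul_const (r - r₀)).const_add r₀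
      exact (hasDerivAt_slice hI hH ht (r₀ + s * (r - r₀))).scomp s h2
    have h3 : Continuous fun s : ℝ => fderiv ℝ H (t, r₀ + s * (r - r₀)) (0, 1) :=
      (continuous_slice hD ht).comp (by fun_prop)
    have h4 := intervalIntegral.integral_eq_sub_of_hasDerivAt h1
      ((h3.const_smul (r - r₀)).intervalIntegrable 0 1)
    rw [intervalIntegral.integral_smul] at h4
    simp only [h4]
    simp
  · intro t _
    simp

omit [NormedSpace ℝ V] in
theorem eq_of_sin_ne {f g : ℝ → V} (hf : Continuous f) (hg : Continuous g)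
    (h : ∀ r, sin r ≠ 0 → f r = g r) (r : ℝ) : f r = g r := by
  have h1 : ({r : ℝ | sin r = 0}).Countable := by
    refine (countable_range fun n : ℤ => (n : ℝ) * π).mono fun r hr => ?_
    exact sin_eq_zero_iff.1 hr
  exact congrFun (Continuous.ext_on (h1.dense_compl ℝ) hf hg h) r

/-- Division by `sin r`. -/
theorem exists_div_sin [CompleteSpace V] {I : Set P} (hI : IsOpen I) {H : P × ℝ → V}
    (hH : ContDiffOn ℝ ∞ H (I ×ˢ univ)) (h0 : ∀ t ∈ I, ∀ r, sin r = 0 → H (t, r) = 0) :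
    ∃ K : P × ℝ → V, ContDiffOn ℝ ∞ K (I ×ˢ univ) ∧
      ∀ t ∈ I, ∀ r, H (t, r) = sin r • K (t, r) := by
  classical
  have hO := hI.prod (isOpen_univ (X := ℝ))
  refine ⟨fun z => if sin z.2 = 0 then (cos z.2)⁻¹ • fderiv ℝ H z (0, 1) else (sin z.2)⁻¹ • H z,
    ?_, ?_⟩
  · rintro ⟨t₀, r₀⟩ hz
    refine ContDiffAt.contDiffWithinAt ?_
    have hs : ContDiff ℝ ∞ fun z : P × ℝ => sin z.2 := by fun_prop
    by_cases h : sin r₀ = 0
    · obtain ⟨H₁, hH₁, e1, e2⟩ := exists_div_sub hI hH r₀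
      obtain ⟨s₁, hs₁, f1, f2⟩ := exists_div_sub hI hs.contDiffOn r₀
      have f3 : ∀ t ∈ I, s₁ (t, r₀) = cos r₀ := by
        intro t ht
        rw [f2 t ht]
        exact (hasDerivAt_slice hI hs.contDiffOn ht r₀).unique (hasDerivAt_sin r₀)
      have hc : cos r₀ ≠ 0 := by
        intro hc
        have := sin_sq_add_cos_sq r₀
        rw [h, hc] at this
        norm_num at this
      have g1 := hs₁.contDiffAt (hO.mem_nhds hz)
      have g2 : s₁ (t₀, r₀) ≠ 0 := by rw [f3 t₀ hz.1]; exact hc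
      have g3 : ContDiffAt ℝ ∞ (fun z => (s₁ z)⁻¹ • H₁ z) (t₀, r₀) :=
        (g1.inv g2).smul (hH₁.contDiffAt (hO.mem_nhds hz))
      refine g3.congr_of_eventuallyEq ?_
      filter_upwards [g1.continuousAt.eventually_ne g2, hO.mem_nhds hz]
      rintro ⟨t, r⟩ k1 k2
      by_cases hr : r = r₀
      · subst hr
        simp only [h, if_true]
        rw [f3 t k2.1, e2 t k2.1]
      · have k3 := f1 t k2.1 r
        have k4 := e1 t k2.1 r
        rw [h0 t k2.1 r₀ h, sub_zero] at k4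
        simp only [h, sub_zero, smul_eq_mul] at k3
        have k5 : sin r ≠ 0 := by rw [k3]; exact mul_ne_zero (sub_ne_zero.2 hr) k1
        simp only [k5, if_false]
        rw [k4, k3, smul_smul]
        congr 1
        field_simp [sub_ne_zero.2 hr]
    · have g0 : ContDiffAt ℝ ∞ (fun z : P × ℝ => sin z.2) (t₀, r₀) := hs.contDiffAt
      have g3 : ContDiffAt ℝ ∞ (fun z : P × ℝ => (sin z.2)⁻¹ • H z) (t₀, r₀) :=
        (g0.inv h).smul (hH.contDiffAt (hO.mem_nhds hz))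
      refine g3.congr_of_eventuallyEq ?_
      filter_upwards [g0.continuousAt.eventually_ne h] with z hz
      simp only [hz, if_false]
  · intro t ht r
    by_cases h : sin r = 0
    · rw [h0 t ht r h, h, zero_smul]
    · simp only [h, if_false]
      rw [smul_smul, mul_inv_cancel₀ h, one_smul]

theorem sin_refl (k : ℤ) (r : ℝ) : sin (2 * k * π - r) = -sin r := by
  have := sin_int_mul_two_pi_sub r k
  rwa [show (k : ℝ) * (2 * π) = 2 * k * π by ring] at this

/-- If `H = sin r • K` and `H` has parity `ε` about the multiples of `π` then `K` has parity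
`-ε`. -/
theorem parity_div {I : Set P} {H K : P × ℝ → V} (hK : ContDiffOn ℝ ∞ K (I ×ˢ univ))
    (h : ∀ t ∈ I, ∀ r, H (t, r) = sin r • K (t, r)) {ε : ℝ}
    (hp : ∀ k : ℤ, ∀ t ∈ I, ∀ r, H (t, 2 * k * π - r) = ε • H (t, r)) (k : ℤ) (t : P) (ht : t ∈ I)
    (r : ℝ) : K (t, 2 * k * π - r) = (-ε) • K (t, r) := by
  have hc := continuous_slice hK ht
  refine eq_of_sin_ne (f := fun r => K (t, 2 * k * π - r)) (g := fun r => (-ε) • K (t, r))
    (hc.comp (by fun_prop)) (hc.const_smul _) (fun r hr => ?_) r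
  have h1 := hp k t ht r
  rw [h t ht, h t ht, sin_refl] at h1
  refine smul_right_injective V (neg_ne_zero.2 hr) ?_
  simp only [h1, smul_smul]
  congr 1
  ring

omit [NormedAddCommGroup P] [NormedSpace ℝ P] in
theorem zero_of_odd {I : Set P} {H : P × ℝ → V}
    (hp : ∀ k : ℤ, ∀ t ∈ I, ∀ r, H (t, 2 * k * π - r) = (-1 : ℝ) • H (t, r)) (t : P) (ht : t ∈ I)
    (r : ℝ) (hr : sin r = 0) : H (t, r) = 0 := by
  obtain ⟨k, rfl⟩ := sin_eq_zero_iff.1 hr
  have h1 := hp k t ht (k * π)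
  rw [show 2 * (k : ℝ) * π - k * π = k * π by ring] at h1
  have h2 : (2 : ℝ) • H (t, k * π) = 0 := by
    rw [two_smul]
    nth_rewrite 1 [h1]
    simp
  exact (smul_eq_zero.1 h2).resolve_left two_ne_zero

theorem fderiv_refl {I : Set P} (hI : IsOpen I) {F : P × ℝ → V}
    (hF : ContDiffOn ℝ ∞ F (I ×ˢ univ)) {c : ℝ}
    (hs : ∀ t ∈ I, ∀ r, F (t, c - r) = F (t, r)) {t : P} (ht : t ∈ I) (r : ℝ) (a : P) (b : ℝ) :
    fderiv ℝ F (t, c - r) (a, b) = fderiv ℝ F (t, r) (a, -b) := by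
  have hO := hI.prod (isOpen_univ (X := ℝ))
  have d1 : DifferentiableAt ℝ F (t, c - r) :=
    (hF.contDiffAt (hO.mem_nhds ⟨ht, trivial⟩)).differentiableAt (by simp)
  have d2 : HasFDerivAt (fun z : P × ℝ => (z.1, c - z.2))
      ((ContinuousLinearMap.fst ℝ P ℝ).prod (-ContinuousLinearMap.snd ℝ P ℝ)) (t, r) :=
    hasFDerivAt_fst.prodMk (hasFDerivAt_snd.const_sub c)
  have d3 := HasFDerivAt.comp (t, r) (f := fun z : P × ℝ => (z.1, c - z.2)) d1.hasFDerivAt d2
  have d4 : F =ᶠ[𝓝 (t, r)] F ∘ fun z : P × ℝ => (z.1, c - z.2) := by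
    filter_upwards [hO.mem_nhds (show (t, r) ∈ I ×ˢ univ from ⟨ht, trivial⟩)] with z hz
    exact (hs z.1 hz.1 z.2).symm
  rw [(d3.congr_of_eventuallyEq d4).fderiv]
  simp

theorem contDiffOn_arccos_nat {I : Set P} (hI : IsOpen I) (n : ℕ) :
    ∀ {V : Type} [NormedAddCommGroup V] [NormedSpace ℝ V] [CompleteSpace V] {F : P × ℝ → V},
      ContDiffOn ℝ ∞ F (I ×ˢ univ) →
      (∀ k : ℤ, ∀ t ∈ I, ∀ r, F (t, 2 * k * π - r) = F (t, r)) →
      ContDiffOn ℝ n (fun z : P × ℝ => F (z.1, arccos z.2)) (I ×ˢ Icc (-1) 1) := by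
  have hO := hI.prod (isOpen_univ (X := ℝ))
  have hc0 : ∀ {V : Type} [NormedAddCommGroup V] [NormedSpace ℝ V] {F : P × ℝ → V},
      ContDiffOn ℝ ∞ F (I ×ˢ univ) →
      ContinuousOn (fun z : P × ℝ => F (z.1, arccos z.2)) (I ×ˢ univ) := by
    intro V _ _ F hF
    exact hF.continuousOn.comp (f := fun z : P × ℝ => (z.1, arccos z.2))
      (continuous_fst.prodMk (continuous_arccos.comp continuous_snd)).continuousOn
      fun z hz => ⟨hz.1, trivial⟩
  induction n with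
  | zero =>
    intro V _ _ _ F hF _
    simp only [CharP.cast_eq_zero, contDiffOn_zero]
    exact (hc0 hF).mono (prod_mono le_rfl (subset_univ _))
  | succ n ih =>
    intro V _ _ _ F hF hs
    have hD := contDiffOn_dr hI hF
    have hodd : ∀ k : ℤ, ∀ t ∈ I, ∀ r, fderiv ℝ F (t, 2 * k * π - r) (0, 1) =
        (-1 : ℝ) • fderiv ℝ F (t, r) (0, 1) := by
      intro k t ht r
      rw [fderiv_refl hI hF (hs k) ht, ← map_smul]
      simp
    obtain ⟨K, hK, hKe⟩ := exists_div_sin hI hD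
      (zero_of_odd (H := fun z => fderiv ℝ F z (0, 1)) hodd)
    have hKp := parity_div (H := fun z => fderiv ℝ F z (0, 1)) hK hKe hodd
    let F₂ : P × ℝ → (P × ℝ →L[ℝ] V) := fun z =>
      (fderiv ℝ F z).comp ((ContinuousLinearMap.inl ℝ P ℝ).comp (ContinuousLinearMap.fst ℝ P ℝ)) -
        (ContinuousLinearMap.snd ℝ P ℝ).smulRight (K z)
    have hF₂ : ContDiffOn ℝ ∞ F₂ (I ×ˢ univ) := by
      refine ((hF.fderiv_of_isOpen hO (by simp)).clm_comp contDiffOn_const).sub ?_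
      exact (ContinuousLinearMap.smulRightL ℝ (P × ℝ) V
        (ContinuousLinearMap.snd ℝ P ℝ)).contDiff.comp_contDiffOn hK
    have hF₂s : ∀ k : ℤ, ∀ t ∈ I, ∀ r, F₂ (t, 2 * k * π - r) = F₂ (t, r) := by
      intro k t ht r
      refine ContinuousLinearMap.ext fun x => ?_
      have := fderiv_refl hI hF (hs k) ht r x.1 0
      simp only [neg_zero] at this
      simp [F₂, hKp k t ht r, this]
    have hint : ∀ z ∈ I ×ˢ Ioo (-1 : ℝ) 1, HasFDerivAt (fun z : P × ℝ => F (z.1, arccos z.2))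
        (F₂ (z.1, arccos z.2)) z := by
      rintro ⟨t, h⟩ ⟨ht, h1, h2⟩
      dsimp only at ht h1 h2
      have d1 : DifferentiableAt ℝ F (t, arccos h) :=
        (hF.contDiffAt (hO.mem_nhds (show (t, arccos h) ∈ I ×ˢ univ from
          ⟨ht, trivial⟩))).differentiableAt (by simp)
      have d2 := (hasDerivAt_arccos h1.ne' h2.ne).comp_hasFDerivAt (f := Prod.snd) (t, h)
        (hasFDerivAt_snd (𝕜 := ℝ) (p := (t, h)))
      have d3 := HasFDerivAt.comp (t, h) (f := fun z : P × ℝ => (z.1, arccos z.2)) d1.hasFDerivAt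
        (hasFDerivAt_fst.prodMk d2)
      refine d3.congr_fderiv (ContinuousLinearMap.ext fun x => ?_)
      have e1 := hKe t ht (arccos h)
      have e2 : 0 < √(1 - h ^ 2) := sqrt_pos.2 (by nlinarith [h1, h2])
      have e3 : ((x.1, -(1 / √(1 - h ^ 2)) * x.2) : P × ℝ) =
          (x.1, 0) + (-(1 / √(1 - h ^ 2)) * x.2) • ((0 : P), (1 : ℝ)) := by simp
      simp only [sin_arccos] at e1
      simp only [F₂, ContinuousLinearMap.comp_apply, ContinuousLinearMap.prod_apply,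
        ContinuousLinearMap.coe_fst', smul_apply, ContinuousLinearMap.coe_snd', smul_eq_mul,
        sub_apply, ContinuousLinearMap.inl_apply, ContinuousLinearMap.smulRight_apply]
      have e4 : -(1 / √(1 - h ^ 2)) * x.2 * √(1 - h ^ 2) = -x.2 := by field_simp
      rw [e3, map_add, map_smul, e1, smul_smul, e4, neg_smul, ← sub_eq_add_neg]
    have hcast : ((n + 1 : ℕ) : WithTop ℕ∞) = (n : WithTop ℕ∞) + 1 := by norm_cast
    rw [hcast, contDiffOn_succ_iff_hasFDerivWithinAt_of_uniqueDiffOn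
      (hI.uniqueDiffOn.prod (uniqueDiffOn_Icc (by norm_num)))]
    refine ⟨by simp, _, ih hF₂ hF₂s, ?_⟩
    rintro ⟨t, h⟩ ⟨ht, hh⟩
    obtain ⟨δ, hδ, hb⟩ := Metric.nhds_basis_closedBall.mem_iff.1 (hI.mem_nhds ht)
    have hsub : Metric.ball t δ ×ˢ Ioo (-1 : ℝ) 1 ⊆ I ×ˢ Ioo (-1 : ℝ) 1 :=
      prod_mono (Metric.ball_subset_closedBall.trans hb) le_rfl
    have hcl : closure (Metric.ball t δ ×ˢ Ioo (-1 : ℝ) 1) =
        Metric.closedBall t δ ×ˢ Icc (-1 : ℝ) 1 := by
      rw [closure_prod_eq, closure_ball t hδ.ne', closure_Ioo (by norm_num)]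
    have key := hasFDerivWithinAt_closure_of_tendsto_fderiv
      (f := fun z : P × ℝ => F (z.1, arccos z.2)) (s := Metric.ball t δ ×ˢ Ioo (-1 : ℝ) 1)
      (x := (t, h)) (f' := F₂ (t, arccos h))
      (fun z hz => (hint z (hsub hz)).differentiableAt.differentiableWithinAt)
      ((convex_ball t δ).prod (convex_Ioo _ _)) (Metric.isOpen_ball.prod isOpen_Ioo)
      (fun y hy => by
        rw [hcl] at hy
        exact ((hc0 hF).continuousAt (hO.mem_nhds ⟨hb hy.1, trivial⟩)).continuousWithinAt)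
      (by
        have h1 := ((hc0 hF₂).continuousAt
          (hO.mem_nhds (show (t, h) ∈ I ×ˢ univ from ⟨ht, trivial⟩))).tendsto
        refine (h1.mono_left nhdsWithin_le_nhds).congr' ?_
        filter_upwards [self_mem_nhdsWithin] with z hz
        exact (hint z (hsub hz)).fderiv.symm)
    rw [hcl] at key
    refine key.mono_of_mem_nhdsWithin ?_
    have h2 : {z : P × ℝ | z.1 ∈ Metric.closedBall t δ} ∈ 𝓝 (t, h) :=
      continuous_fst.continuousAt.preimage_mem_nhds (Metric.closedBall_mem_nhds t hδ)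
    filter_upwards [mem_nhdsWithin_of_mem_nhds h2, self_mem_nhdsWithin] with z h3 h4
    exact ⟨h3, h4.2⟩

/-- A smooth function of `(t, r)`, even in `r` about every multiple of `π`, is a smooth function of
`(t, cos r)` up to the ends of `[-1,1]`. -/
theorem contDiffOn_arccos [CompleteSpace V] {I : Set P} (hI : IsOpen I) {F : P × ℝ → V}
    (hF : ContDiffOn ℝ ∞ F (I ×ˢ univ))
    (hs : ∀ k : ℤ, ∀ t ∈ I, ∀ r, F (t, 2 * k * π - r) = F (t, r)) :
    ContDiffOn ℝ ∞ (fun z : P × ℝ => F (z.1, arccos z.2)) (I ×ˢ Icc (-1) 1) := by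
  rw [contDiffOn_infty]
  exact fun n => contDiffOn_arccos_nat hI n hF hs

end Vale.Agent.P244Z.Geo
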