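import Mathlib.Analysis.Calculus.Deriv.MeanValue
import Mathlib.Analysis.Calculus.LocalExtr.Basic
import Mathlib.Analysis.SpecialFunctions.Pow.Deriv
import Mathlib.Analysis.SpecialFunctions.ExpDeriv
import Mathlib.Analysis.SpecialFunctions.Log.Deriv

/-!
# Parabolic jets

For a function `f` of `(θ, t)` we record at one point the arclength derivative `s = f_θ / l` and
the value `b` of the heat operator `(f_t - V f_θ) / l ^ 2 - f_θθ / l ^ 2 - mu * s`.
Only separate derivatives are used (in `t` from the past).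
-/

open Filter Topology Set

namespace Vale.Agent.P244Z

/-- The coefficients of the heat operator at one point. -/
structure Frame where
  l : ℝ
  V : ℝ
  mu : ℝ

/-- `f` has arclength derivative `s` and heat operator value `b` at `z`. -/
def HasJet (F : Frame) (f : ℝ × ℝ → ℝ) (z : ℝ × ℝ) (s b : ℝ) : Prop :=
  ∃ (f1 : ℝ → ℝ) (f2 ft : ℝ),
    (∀ᶠ x in 𝓝 z.1, HasDerivAt (fun y => f (y, z.2)) (f1 x) x) ∧ HasDerivAt f1 f2 z.1 ∧
    HasDerivWithinAt (fun t => f (z.1, t)) ft (Iic z.2) z.2 ∧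
    s = f1 z.1 / F.l ∧ b = (ft - F.V * f1 z.1) / F.l ^ 2 - f2 / F.l ^ 2 - F.mu * (f1 z.1 / F.l)

namespace HasJet

variable {F : Frame} {f g : ℝ × ℝ → ℝ} {z : ℝ × ℝ} {s b s' b' : ℝ}

theorem of_eq (h : HasJet F f z s b) (hs : s = s') (hb : b = b') : HasJet F f z s' b' := by
  subst hs; subst hb; exact h

theorem const (F : Frame) (c : ℝ) (z : ℝ × ℝ) : HasJet F (fun _ => c) z 0 0 :=
  ⟨fun _ => 0, 0, 0, Eventually.of_forall fun x => hasDerivAt_const x c, hasDerivAt_const _ _,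
    hasDerivWithinAt_const _ _ _, by simp, by simp⟩

/-- A function of time alone. -/
theorem time (F : Frame) {k : ℝ → ℝ} {k' : ℝ} {z : ℝ × ℝ}
    (hk : HasDerivWithinAt k k' (Iic z.2) z.2) :
    HasJet F (fun y => k y.2) z 0 (k' / F.l ^ 2) :=
  ⟨fun _ => 0, 0, k', Eventually.of_forall fun x => hasDerivAt_const x (k z.2),
    hasDerivAt_const _ _, hk, by simp, by simp⟩

theorem add (hf : HasJet F f z s b) (hg : HasJet F g z s' b') :
    HasJet F (fun y => f y + g y) z (s + s') (b + b') := by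
  obtain ⟨f1, f2, ft, h1, h2, h3, rfl, rfl⟩ := hf
  obtain ⟨g1, g2, gt, k1, k2, k3, rfl, rfl⟩ := hg
  refine ⟨fun x => f1 x + g1 x, f2 + g2, ft + gt, ?_, h2.add k2, h3.add k3, by ring, by ring⟩
  filter_upwards [h1, k1] with x hx kx using hx.add kx

theorem neg (hf : HasJet F f z s b) : HasJet F (fun y => -f y) z (-s) (-b) := by
  obtain ⟨f1, f2, ft, h1, h2, h3, rfl, rfl⟩ := hf
  refine ⟨fun x => -f1 x, -f2, -ft, ?_, h2.neg, h3.neg, by ring, by ring⟩
  filter_upwards [h1] with x hx using hx.neg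

theorem sub (hf : HasJet F f z s b) (hg : HasJet F g z s' b') :
    HasJet F (fun y => f y - g y) z (s - s') (b - b') := by
  simpa [sub_eq_add_neg] using hf.add hg.neg

theorem mul (hf : HasJet F f z s b) (hg : HasJet F g z s' b') :
    HasJet F (fun y => f y * g y) z (s * g z + f z * s') (b * g z + f z * b' - 2 * s * s') := by
  obtain ⟨f1, f2, ft, h1, h2, h3, rfl, rfl⟩ := hf
  obtain ⟨g1, g2, gt, k1, k2, k3, rfl, rfl⟩ := hg
  have h0 := h1.self_of_nhds
  have k0 := k1.self_of_nhds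
  refine ⟨fun x => f1 x * g (x, z.2) + f (x, z.2) * g1 x,
    (f2 * g (z.1, z.2) + f1 z.1 * g1 z.1) + (f1 z.1 * g1 z.1 + f (z.1, z.2) * g2),
    ft * g (z.1, z.2) + f (z.1, z.2) * gt, ?_, (h2.mul k0).add (h0.mul k2), h3.mul k3, ?_, ?_⟩
  · filter_upwards [h1, k1] with x hx kx using hx.mul kx
  · simp only [Prod.mk.eta]; ring
  · simp only [Prod.mk.eta]; ring

theorem const_mul (c : ℝ) (hf : HasJet F f z s b) :
    HasJet F (fun y => c * f y) z (c * s) (c * b) :=
  ((const F c z).mul hf).of_eq (by ring) (by ring)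

theorem add_const (hf : HasJet F f z s b) (c : ℝ) : HasJet F (fun y => f y + c) z s b :=
  (hf.add (const F c z)).of_eq (by ring) (by ring)

theorem sub_const (hf : HasJet F f z s b) (c : ℝ) : HasJet F (fun y => f y - c) z s b :=
  (hf.sub (const F c z)).of_eq (by ring) (by ring)

theorem const_sub (c : ℝ) (hf : HasJet F f z s b) : HasJet F (fun y => c - f y) z (-s) (-b) :=
  ((const F c z).sub hf).of_eq (by ring) (by ring)

theorem sq (hf : HasJet F f z s b) :
    HasJet F (fun y => f y ^ 2) z (2 * f z * s) (2 * f z * b - 2 * s ^ 2) := by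
  have := (hf.mul hf).of_eq (s' := 2 * f z * s) (b' := 2 * f z * b - 2 * s ^ 2) (by ring) (by ring)
  simpa [pow_two] using this

/-- Chain rule. -/
theorem comp {k k1 : ℝ → ℝ} {k2 : ℝ} (hf : HasJet F f z s b)
    (hk : ∀ᶠ y in 𝓝 (f z), HasDerivAt k (k1 y) y) (hk2 : HasDerivAt k1 k2 (f z)) :
    HasJet F (fun y => k (f y)) z (k1 (f z) * s) (k1 (f z) * b - k2 * s ^ 2) := by
  obtain ⟨f1, f2, ft, h1, h2, h3, rfl, rfl⟩ := hf
  have h0 := h1.self_of_nhds
  have hc : Tendsto (fun y => f (y, z.2)) (𝓝 z.1) (𝓝 (f z)) := h0.continuousAt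
  have hk0 := hk.self_of_nhds
  refine ⟨fun x => k1 (f (x, z.2)) * f1 x,
    (k2 * f1 z.1) * f1 z.1 + k1 (f (z.1, z.2)) * f2, k1 (f z) * ft, ?_, ?_, ?_, ?_, ?_⟩
  · filter_upwards [h1, hc.eventually hk] with x hx kx using kx.comp x hx
  · exact (HasDerivAt.comp (h₂ := k1) z.1 hk2 h0).mul h2
  · exact HasDerivAt.comp_hasDerivWithinAt (h₂ := k) z.2 hk0 h3
  · simp only [Prod.mk.eta]; ring
  · simp only [Prod.mk.eta]; ring

theorem exp (hf : HasJet F f z s b) :
    HasJet F (fun y => Real.exp (f y)) z (Real.exp (f z) * s) (Real.exp (f z) * (b - s ^ 2)) :=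
  (hf.comp (k := Real.exp) (k1 := Real.exp) (Eventually.of_forall Real.hasDerivAt_exp)
    (Real.hasDerivAt_exp _)).of_eq rfl (by ring)

theorem inv (hf : HasJet F f z s b) (h0 : f z ≠ 0) :
    HasJet F (fun y => (f y)⁻¹) z (-s / f z ^ 2) (-b / f z ^ 2 - 2 * s ^ 2 / f z ^ 3) := by
  have h2 : HasDerivAt (fun y : ℝ => -(y ^ 2)⁻¹) (2 / f z ^ 3) (f z) := by
    have := ((hasDerivAt_pow 2 (f z)).inv (pow_ne_zero 2 h0)).neg
    refine HasDerivAt.congr_deriv this ?_
    simp only [Nat.cast_ofNat, Nat.add_one_sub_one, pow_one]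
    field_simp
  refine (hf.comp (k := fun y => y⁻¹) (k1 := fun y => -(y ^ 2)⁻¹) ?_ h2).of_eq ?_ ?_
  · filter_upwards [isOpen_ne.mem_nhds h0] with y hy using hasDerivAt_inv hy
  · field_simp
  · field_simp

theorem div (hf : HasJet F f z s b) (hg : HasJet F g z s' b') (h0 : g z ≠ 0) :
    HasJet F (fun y => f y / g y) z (s / g z - f z * s' / g z ^ 2)
      (b / g z - f z * b' / g z ^ 2 - 2 * f z * s' ^ 2 / g z ^ 3 + 2 * s * s' / g z ^ 2) := by
  have := (hf.mul (hg.inv h0)).of_eq (s' := s / g z - f z * s' / g z ^ 2)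
    (b' := b / g z - f z * b' / g z ^ 2 - 2 * f z * s' ^ 2 / g z ^ 3 + 2 * s * s' / g z ^ 2)
    (by field_simp; ring) (by field_simp; ring)
  simpa [div_eq_mul_inv] using this

theorem log (hf : HasJet F f z s b) (h0 : f z ≠ 0) :
    HasJet F (fun y => Real.log (f y)) z (s / f z) (b / f z + s ^ 2 / f z ^ 2) := by
  refine (hf.comp (k := Real.log) (k1 := fun y => y⁻¹) ?_ (hasDerivAt_inv h0)).of_eq ?_ ?_
  · filter_upwards [isOpen_ne.mem_nhds h0] with y hy using Real.hasDerivAt_log hy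
  · field_simp
  · field_simp; ring

theorem rpow (hf : HasJet F f z s b) (h0 : 0 < f z) (r : ℝ) :
    HasJet F (fun y => f y ^ r) z (f z ^ r * (r * s / f z))
      (f z ^ r * (r * b / f z - r * (r - 1) * s ^ 2 / f z ^ 2)) := by
  have h2 : HasDerivAt (fun y : ℝ => r * y ^ (r - 1)) (r * ((r - 1) * f z ^ (r - 1 - 1))) (f z) :=
    (Real.hasDerivAt_rpow_const (Or.inl h0.ne')).const_mul r
  refine (hf.comp (k := fun y => y ^ r) (k1 := fun y => r * y ^ (r - 1)) ?_ h2).of_eq ?_ ?_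
  · filter_upwards [isOpen_ne.mem_nhds h0.ne'] with y hy
      using Real.hasDerivAt_rpow_const (Or.inl hy)
  · rw [Real.rpow_sub_one h0.ne']; field_simp
  · simp only [Real.rpow_sub_one h0.ne']; field_simp

/-- Jets only depend on the values near the point, in space and in the past. -/
theorem congr (hf : HasJet F f z s b) (h1 : ∀ᶠ x in 𝓝 z.1, g (x, z.2) = f (x, z.2))
    (h2 : ∀ᶠ t in 𝓝[Iic z.2] z.2, g (z.1, t) = f (z.1, t)) : HasJet F g z s b := by
  obtain ⟨f1, f2, ft, k1, k2, k3, hs, hb⟩ := hf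
  refine ⟨f1, f2, ft, ?_, k2, k3.congr_of_eventuallyEq h2 h1.self_of_nhds, hs, hb⟩
  filter_upwards [k1, h1.eventually_nhds] with x hx hx'
  exact hx.congr_of_eventuallyEq hx'

theorem congr' (hf : HasJet F f z s b) (h : ∀ᶠ y in 𝓝 z, g y = f y) : HasJet F g z s b := by
  refine hf.congr ?_ ?_
  · have : Tendsto (fun x : ℝ => (x, z.2)) (𝓝 z.1) (𝓝 z) :=
      (continuous_id.prodMk continuous_const).continuousAt
    exact this.eventually h
  · have : Tendsto (fun t : ℝ => (z.1, t)) (𝓝 z.2) (𝓝 z) :=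
      (continuous_const.prodMk continuous_id).continuousAt
    exact (this.eventually h).filter_mono nhdsWithin_le_nhds

end HasJet

/-- Second derivative test at a local maximum. -/
theorem second_deriv_nonpos_of_max {f f1 : ℝ → ℝ} {f2 x : ℝ}
    (h1 : ∀ᶠ y in 𝓝 x, HasDerivAt f (f1 y) y) (h2 : HasDerivAt f1 f2 x)
    (hm : ∀ᶠ y in 𝓝 x, f y ≤ f x) : f1 x = 0 ∧ f2 ≤ 0 := by
  have h0 : f1 x = 0 := IsLocalMax.hasDerivAt_eq_zero hm h1.self_of_nhds
  refine ⟨h0, ?_⟩
  by_contra hpos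
  push Not at hpos
  have hs : ∀ᶠ y in 𝓝[>] x, 0 < f1 y := by
    have ht := (hasDerivAt_iff_tendsto_slope.1 h2).mono_left
      (nhdsWithin_mono x (fun y (hy : y ∈ Ioi x) => (ne_of_gt hy : y ∈ ({x}ᶜ : Set ℝ))))
    filter_upwards [ht.eventually (lt_mem_nhds hpos), self_mem_nhdsWithin] with y hy hxy
    rw [slope_def_field, h0, sub_zero] at hy
    exact (div_pos_iff_of_pos_right (sub_pos.2 hxy)).1 hy
  obtain ⟨u, hxu, hu⟩ := mem_nhdsGT_iff_exists_Ioo_subset.1 hs
  obtain ⟨δ, hδ, hball⟩ := Metric.eventually_nhds_iff.1 (h1.and hm)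
  set y := min ((x + u) / 2) (x + δ / 2) with hy
  have hxu' : x < u := hxu
  have hxy : x < y := lt_min (by linarith) (by linarith)
  have hyu : y < u := lt_of_le_of_lt (min_le_left _ _) (by linarith)
  have hyd : y ≤ x + δ / 2 := min_le_right _ _
  have hin : ∀ w ∈ Icc x y, dist w x < δ := fun w hw => by
    rw [Real.dist_eq, abs_lt]; constructor <;> linarith [hw.1, hw.2]
  obtain ⟨c, hc, hc'⟩ := exists_hasDerivAt_eq_slope f f1 hxy
    (fun w hw => (hball (hin w hw)).1.continuousAt.continuousWithinAt)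
    (fun w hw => (hball (hin w (Ioo_subset_Icc_self hw))).1)
  have h3 : 0 < f1 c := hu ⟨hc.1, hc.2.trans hyu⟩
  have h4 : f y ≤ f x := (hball (hin y ⟨hxy.le, le_rfl⟩)).2
  rw [hc'] at h3
  have := (div_pos_iff_of_pos_right (sub_pos.2 hxy)).1 h3
  linarith

/-- At a maximum in space and in the past, `s = 0` and `0 ≤ b`. -/
theorem HasJet.at_max {F : Frame} {f : ℝ × ℝ → ℝ} {z : ℝ × ℝ} {s b : ℝ} (hf : HasJet F f z s b)
    (h1 : ∀ᶠ x in 𝓝 z.1, f (x, z.2) ≤ f z) (h2 : ∀ᶠ t in 𝓝[Iic z.2] z.2, f (z.1, t) ≤ f z) :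
    s = 0 ∧ 0 ≤ b := by
  obtain ⟨f1, f2, ft, k1, k2, k3, rfl, rfl⟩ := hf
  obtain ⟨e1, e2⟩ := second_deriv_nonpos_of_max k1 k2 h1
  have e3 : 0 ≤ ft := by
    have ht := hasDerivWithinAt_iff_tendsto_slope.1 k3
    rw [Iic_sdiff_right] at ht
    refine ge_of_tendsto ht ?_
    filter_upwards [h2.filter_mono (nhdsWithin_mono _ Iio_subset_Iic_self), self_mem_nhdsWithin]
      with t ht1 ht2
    rw [slope_def_field]
    exact div_nonneg_of_nonpos (sub_nonpos.2 ht1) (sub_nonpos.2 (le_of_lt ht2))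
  rw [e1]
  refine ⟨by simp, ?_⟩
  have : 0 ≤ ft / F.l ^ 2 := div_nonneg e3 (sq_nonneg _)
  have : f2 / F.l ^ 2 ≤ 0 := div_nonpos_of_nonpos_of_nonneg e2 (sq_nonneg _)
  simp only [mul_zero, sub_zero, zero_div]
  linarith

end Vale.Agent.P244Z
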