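import Vale.Agent.P244Z.Defs
import Vale.Agent.P244Z.Jet

/-!
# P244: doubly warped Ricci flows on `S^(q+1) x S^2`, `q` large: definitions

The metric is `g = l(t)^2 dθ^2 + φ^2 g_{S^q} + exp(2u) g_{S^2}`, `θ ∈ [0, π]`; points of the strip
are pairs `p = (θ, t)`; `sg t = T - (physical time)`.  We put `ρ^2 = (q-1) exp(2u)`, so that the
Ricci flat cone is `ρ = φ`, `φ_s^2 = (q-1)/(q+1)`.
-/

open Set Real
open scoped ContDiff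

namespace Vale.Agent.P244Z.Q

/-- The raw data of a flow.  `kk`, `vv`, `hh` are the quantities `(1 - φ_s^2)/φ^2`, `u_s/φ`,
`φ_ss/φ`, extended smoothly to the poles. -/
structure Data where
  q : ℕ
  l : ℝ → ℝ
  sg : ℝ → ℝ
  φ : ℝ × ℝ → ℝ
  u : ℝ × ℝ → ℝ
  V : ℝ × ℝ → ℝ
  kk : ℝ × ℝ → ℝ
  vv : ℝ × ℝ → ℝ
  hh : ℝ × ℝ → ℝ

namespace Data

variable (S : Data)

/-- arclength derivative -/
noncomputable def Ds (F : ℝ × ℝ → ℝ) (p : ℝ × ℝ) : ℝ := d1 F p / S.l p.2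

/-- physical time derivative along the Ricci flow -/
noncomputable def Dt (F : ℝ × ℝ → ℝ) (p : ℝ × ℝ) : ℝ := (d2 F p - S.V p * d1 F p) / S.l p.2 ^ 2

/-- `φ_s` -/
noncomputable def A : ℝ × ℝ → ℝ := S.Ds S.φ

/-- `u_s` -/
noncomputable def β : ℝ × ℝ → ℝ := S.Ds S.u

/-- Ricci curvature in the radial direction -/
noncomputable def a (p : ℝ × ℝ) : ℝ := -(S.q : ℝ) * S.hh p - 2 * (S.Ds S.β p + S.β p ^ 2)

/-- Ricci curvature in the direction of `S^q` -/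
noncomputable def b (p : ℝ × ℝ) : ℝ := -S.hh p - 2 * S.A p * S.vv p + ((S.q : ℝ) - 1) * S.kk p

/-- Ricci curvature in the direction of `S^2` -/
noncomputable def c (p : ℝ × ℝ) : ℝ :=
  -S.Ds S.β p - (S.q : ℝ) * S.A p * S.vv p - 2 * S.β p ^ 2 + exp (-2 * S.u p)

/-- scalar curvature -/
noncomputable def R (p : ℝ × ℝ) : ℝ := S.a p + (S.q : ℝ) * S.b p + 2 * S.c p

/-- differences of the Ricci curvatures -/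
noncomputable def U1 (p : ℝ × ℝ) : ℝ := S.a p - S.c p
noncomputable def U2 (p : ℝ × ℝ) : ℝ := S.b p - S.c p

/-- the normalised radius of `S^2` -/
noncomputable def ρ (p : ℝ × ℝ) : ℝ := √((S.q : ℝ) - 1) * exp (S.u p)

/-- deviation from the cone -/
noncomputable def D (p : ℝ × ℝ) : ℝ := S.ρ p ^ 2 - S.φ p ^ 2

/-- `D / ρ^2` -/
noncomputable def E (p : ℝ × ℝ) : ℝ := 1 - S.φ p ^ 2 / S.ρ p ^ 2

/-- `φ (log (ρ / φ))_s` -/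
noncomputable def P (p : ℝ × ℝ) : ℝ := S.φ p * S.β p - S.A p

/-- deviation of `φ_s^2` from the value on the cone -/
noncomputable def Z (p : ℝ × ℝ) : ℝ := S.A p ^ 2 - ((S.q : ℝ) - 1) / ((S.q : ℝ) + 1)

/-- `T -` physical time, as a function on the strip -/
noncomputable def σ (p : ℝ × ℝ) : ℝ := S.sg p.2

/-- the coefficients of the heat operator at `p` -/
noncomputable def fr (p : ℝ × ℝ) : Frame :=
  ⟨S.l p.2, S.V p, (S.q : ℝ) * (S.A p / S.φ p) + 2 * S.β p⟩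

/-- `F` has arclength derivative `s` and `(∂_t - Δ) F = b` at `p` -/
def Jet (F : ℝ × ℝ → ℝ) (p : ℝ × ℝ) (s b : ℝ) : Prop := HasJet (S.fr p) F p s b

end Data

/-- `S` is a smooth reflection symmetric solution of the (gauge modified, normalised) doubly warped
Ricci flow on the time set `J`. -/
structure Sol (S : Data) (J : Set ℝ) : Prop where
  time : TimeSet J
  sm_l : ContDiffOn ℝ ∞ S.l J
  sm_sg : ContDiffOn ℝ ∞ S.sg J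
  sm_φ : ContDiffOn ℝ ∞ S.φ (univ ×ˢ J)
  sm_u : ContDiffOn ℝ ∞ S.u (univ ×ˢ J)
  sm_V : ContDiffOn ℝ ∞ S.V (univ ×ˢ J)
  sm_kk : ContDiffOn ℝ ∞ S.kk (univ ×ˢ J)
  sm_vv : ContDiffOn ℝ ∞ S.vv (univ ×ˢ J)
  sm_hh : ContDiffOn ℝ ∞ S.hh (univ ×ˢ J)
  l_pos : ∀ t ∈ J, 0 < S.l t
  φ_odd : ∀ θ, ∀ t ∈ J, S.φ (-θ, t) = -S.φ (θ, t)
  φ_sym : ∀ θ, ∀ t ∈ J, S.φ (π - θ, t) = S.φ (θ, t)
  u_even : ∀ θ, ∀ t ∈ J, S.u (-θ, t) = S.u (θ, t)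
  u_sym : ∀ θ, ∀ t ∈ J, S.u (π - θ, t) = S.u (θ, t)
  V_odd : ∀ θ, ∀ t ∈ J, S.V (-θ, t) = -S.V (θ, t)
  V_sym : ∀ θ, ∀ t ∈ J, S.V (π - θ, t) = -S.V (θ, t)
  φ_pos : ∀ θ ∈ Ioo 0 π, ∀ t ∈ J, 0 < S.φ (θ, t)
  A_zero : ∀ t ∈ J, S.A (0, t) = 1
  kk_eq : ∀ θ, ∀ t ∈ J, S.φ (θ, t) ^ 2 * S.kk (θ, t) = 1 - S.A (θ, t) ^ 2
  vv_eq : ∀ θ, ∀ t ∈ J, S.φ (θ, t) * S.vv (θ, t) = S.β (θ, t)
  hh_eq : ∀ θ, ∀ t ∈ J, S.φ (θ, t) * S.hh (θ, t) = S.Ds S.A (θ, t)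
  eq_φ : ∀ θ ∈ Ioo 0 π, ∀ t ∈ J, 0 < t → S.Dt S.φ (θ, t) = -S.b (θ, t) * S.φ (θ, t)
  eq_u : ∀ θ ∈ Ioo 0 π, ∀ t ∈ J, 0 < t → S.Dt S.u (θ, t) = -S.c (θ, t)
  eq_V : ∀ θ ∈ Ioo 0 π, ∀ t ∈ J, 0 < t →
    d1 S.V (θ, t) = S.l t ^ 2 * S.a (θ, t) + deriv S.l t / S.l t
  eq_sg : ∀ t ∈ J, 0 < t → deriv S.sg t = -S.l t ^ 2

/-- The evolution equations at one point `p` of the open strip (the output of the block EVOL). -/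
structure Evol (S : Data) (p : ℝ × ℝ) : Prop where
  jσ : S.Jet S.σ p 0 (-1)
  jφ : S.Jet S.φ p (S.A p) (-(S.A p ^ 2 + (S.q : ℝ) - 1) / S.φ p)
  jρ : S.Jet S.ρ p (S.β p * S.ρ p) (-((S.q : ℝ) - 1) / S.ρ p - S.β p ^ 2 * S.ρ p)
  jA : S.Jet S.A p (S.φ p * S.hh p)
    (-2 * S.A p * S.hh p + S.A p * (((S.q : ℝ) - 1) * S.kk p - 2 * S.β p ^ 2))
  jβ : S.Jet S.β p (S.Ds S.β p) (S.β p * (-(S.q : ℝ) * (S.A p / S.φ p) ^ 2 - 2 * S.β p ^ 2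
    + 2 * ((S.q : ℝ) - 1) / S.ρ p ^ 2))
  jU1 : S.Jet S.U1 p (S.Ds S.U1 p)
    (-2 * (S.q : ℝ) * (S.A p / S.φ p) ^ 2 * (S.U1 p - S.U2 p)
      - (4 * S.β p ^ 2 - 2 * S.Ds S.β p - 2 * S.c p) * S.U1 p
      + 2 * (S.q : ℝ) * (S.A p * S.vv p - S.hh p) * S.U2 p)
  jU2 : S.Jet S.U2 p (S.Ds S.U2 p)
    (2 * (S.A p / S.φ p) ^ 2 * (S.U1 p - S.U2 p) + 2 * (S.Ds S.β p - S.hh p) * S.U1 p
      + (2 * ((S.q : ℝ) - 1) * S.kk p + 2 * (S.q : ℝ) * S.A p * S.vv p + 2 * S.c p) * S.U2 p)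
  jR : S.Jet S.R p (S.Ds S.R p) (2 * (S.a p ^ 2 + (S.q : ℝ) * S.b p ^ 2 + 2 * S.c p ^ 2))

/-- The constants: `th` is the small root of `x^2 - (q-3) x + 4`, `am` the amplitude, `ε` the size
of the box for the modes, `M`, `N` the bounds for the Ricci curvatures, `δ` the cut-off scale. -/
structure Consts where
  q : ℕ
  th : ℝ
  am : ℝ
  ε : ℝ
  M : ℝ
  N : ℝ
  δ : ℝ

namespace Consts

variable (K : Consts)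

/-- the decay rate -/
noncomputable def lam : ℝ := 2 - K.th / 2

/-- the bound for `ρ^2 |Ric|` is `(small) + N1 ρ^2` -/
noncomputable def N1 : ℝ := 2 * K.N + 4 * K.M

/-- the parameter of the Laguerre weight -/
noncomputable def nu : ℝ := ((K.q : ℝ) - 1) / 2 - K.th

/-- `1 / (4 z_c)` -/
noncomputable def cc : ℝ := ((K.q : ℝ) + 1) / (4 * ((K.q : ℝ) - 1))

/-- the weight `X^(ν-1) exp(-c X)` -/
noncomputable def wgt (X : ℝ) : ℝ := X ^ (K.nu - 1) * exp (-K.cc * X)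

/-- the Laguerre polynomials, normalised by `L j 0 = 1` -/
noncomputable def Lag : ℕ → ℝ → ℝ
  | 0, _ => 1
  | 1, X => 1 - K.cc * X / K.nu
  | 2, X => 1 - 2 * K.cc * X / K.nu + (K.cc * X) ^ 2 / (K.nu * (K.nu + 1))
  | 3, X => 1 - 3 * K.cc * X / K.nu + 3 * (K.cc * X) ^ 2 / (K.nu * (K.nu + 1))
      - (K.cc * X) ^ 3 / (K.nu * (K.nu + 1) * (K.nu + 2))
  | _ + 4, _ => 0

/-- the squared norms of the modes -/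
noncomputable def hL (j : ℕ) : ℝ := ∫ X in Ioi (0 : ℝ), K.Lag j X ^ 2 * K.wgt X

structure OK : Prop where
  q_ge : 10000 ≤ K.q
  th_pos : 0 < K.th
  th_le : K.th ≤ 5 / (K.q : ℝ)
  th_eq : K.th ^ 2 - ((K.q : ℝ) - 3) * K.th + 4 = 0
  am_pos : 0 < K.am
  am_le : K.am ≤ 1 / (K.q : ℝ) ^ 3
  ε_pos : 0 < K.ε
  ε_le : K.ε ≤ 1
  M_ge : 1 ≤ K.M
  N_ge : 4 ≤ K.N
  δ_pos : 0 < K.δ
  δ_le : 4 * K.N1 * K.δ ^ 2 ≤ 1

end Consts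

namespace Data

variable (S : Data) (K : Consts)

/-- the weights for `E` and `P` -/
noncomputable def F1 (p : ℝ × ℝ) : ℝ := S.σ p ^ (K.lam + 41 / 40) * S.ρ p ^ (-41 / 20 : ℝ)
noncomputable def F2 (p : ℝ × ℝ) : ℝ := S.ρ p ^ (2 * K.lam)

/-- the weights for `U1` and `U2` -/
noncomputable def G1 (p : ℝ × ℝ) : ℝ := S.σ p ^ (73 / 40 : ℝ) * S.ρ p ^ (-41 / 20 : ℝ)
noncomputable def G2 (p : ℝ × ℝ) : ℝ := S.ρ p ^ (8 / 5 : ℝ)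

/-- the similarity variable `X = φ^2 / σ` -/
noncomputable def X (p : ℝ × ℝ) : ℝ := S.φ p ^ 2 / S.sg p.2

/-- the rescaled `D`, truncated between `φ = δ / 4` and `φ = δ / 2` -/
noncomputable def v (p : ℝ × ℝ) : ℝ :=
  (1 - cut (4 * S.φ p / K.δ)) * (S.φ p ^ K.th * S.D p / S.sg p.2 ^ 3)

/-- the normalised projections onto the modes -/
noncomputable def md (j : ℕ) (t : ℝ) : ℝ :=
  (∫ θ in (0 : ℝ)..(π / 2),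
    S.v K (θ, t) * K.Lag j (S.X (θ, t)) * K.wgt (S.X (θ, t)) * d1 S.X (θ, t)) / √(K.hL j)

/-- the squared norm of `v` -/
noncomputable def En (t : ℝ) : ℝ :=
  ∫ θ in (0 : ℝ)..(π / 2), S.v K (θ, t) ^ 2 * K.wgt (S.X (θ, t)) * d1 S.X (θ, t)

/-- the squared norm of the stable part of `v` -/
noncomputable def Ep (t : ℝ) : ℝ := S.En K t - ∑ j ∈ Finset.range 4, S.md K j t ^ 2

/-- the squared norm of the unstable part of `v` -/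
noncomputable def Eu (t : ℝ) : ℝ := ∑ j ∈ Finset.range 3, S.md K j t ^ 2

end Data

/-- the part of the strip up to time `t1` -/
def strip (t1 : ℝ) : Set (ℝ × ℝ) := Ioo 0 π ×ˢ Icc 0 t1

/-- The pointwise bounds with factor `k`: `k = 2` is the bootstrap hypothesis, `k = 1` the
improved form. -/
structure Bds (K : Consts) (S : Data) (k : ℝ) (p : ℝ × ℝ) : Prop where
  U1 : |S.U1 p| ≤ k * K.M * (S.G1 p + S.G2 p)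
  U2 : |S.U2 p| ≤ k * K.M * (S.G1 p + S.G2 p)
  R : |S.R p| ≤ k * K.N
  E : |S.E p| ≤ 2 * k * K.am * (S.F1 K p + S.F2 K p)
  Elow : -(k / 20) ≤ S.E p
  rho : K.am * S.σ p ^ 3 ≤ 2 * k * S.ρ p ^ 2
  P : |S.P p| ≤ 1 + k
  A : |S.A p| ≤ k

/-- The standing hypotheses on `[0, t1]`. -/
structure Boot (K : Consts) (S : Data) (J : Set ℝ) (t1 : ℝ) : Prop where
  ok : K.OK
  q_eq : S.q = K.q
  sol : Sol S J
  mem : t1 ∈ J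
  sg_pos : 0 < S.sg t1
  bds : ∀ p ∈ strip t1, Bds K S 2 p
  box : ∀ t ∈ Icc 0 t1, S.Eu K t ≤ (3 * K.ε * K.am) ^ 2

/-- What is needed of the initial data; `d` is the shooting parameter. -/
structure Init (K : Consts) (S : Data) (d : Fin 3 → ℝ) : Prop where
  rho : ∀ θ ∈ Ioo 0 π, S.ρ (θ, 0) ≤ 1
  A : ∀ θ ∈ Ioo 0 π, |S.A (θ, 0)| ≤ 1
  R : ∀ θ ∈ Ioo 0 π, |S.R (θ, 0)| ≤ K.N / 2
  U1 : ∀ θ ∈ Ioo 0 π, |S.U1 (θ, 0)| ≤ K.M / 8 * (S.G1 (θ, 0) + S.G2 (θ, 0))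
  U2 : ∀ θ ∈ Ioo 0 π, |S.U2 (θ, 0)| ≤ K.M / 8 * (S.G1 (θ, 0) + S.G2 (θ, 0))
  E : ∀ θ ∈ Ioo 0 π, |S.E (θ, 0)| ≤ 2 * K.am * (S.F1 K (θ, 0) + S.F2 K (θ, 0))
  P : ∀ θ ∈ Ioo 0 π, |S.P (θ, 0)| ≤ 1000 * K.am * (S.F1 K (θ, 0) + S.F2 K (θ, 0))
  P2 : ∀ θ ∈ Ioo 0 π, |S.P (θ, 0)| ≤ 2
  Dlow : ∀ θ ∈ Ioo 0 π, S.X (θ, 0) ≤ 1 → K.am / 2 * S.sg 0 ^ (1 + K.lam) ≤ S.D (θ, 0)
  Dup : ∀ θ ∈ Ioo 0 π, S.X (θ, 0) ≤ 1 → S.E (θ, 0) ≤ 2 * K.am * S.F1 K (θ, 0)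
  Dout : ∀ θ ∈ Ioo 0 π, 16 * (K.q : ℝ) ≤ S.X (θ, 0) →
    |S.E (θ, 0)| ≤ 2 * K.am * S.F2 K (θ, 0) * (1 - 7 * (K.q : ℝ) * S.sg 0 / S.ρ (θ, 0) ^ 2)
  md : ∀ j : Fin 3, |S.md K j 0 - 2 * K.ε * K.am * d j| ≤ K.ε * K.am / 10
  md3 : |S.md K 3 0 - K.am * √(K.hL 3)| ≤ K.ε * K.am / 10
  Ep : S.Ep K 0 ≤ (K.ε * K.am / 10) ^ 2

/-- The gradient bound. -/
def Grad (K : Consts) (S : Data) (p : ℝ × ℝ) : Prop :=
  S.P p ^ 2 ≤ 4400 * (K.q : ℝ) * K.am ^ 2 * (S.F1 K p ^ 2 + S.F2 K p ^ 2)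

/-- The shape of `D` in the parabolic region. -/
def Mid (K : Consts) (S : Data) (p : ℝ × ℝ) : Prop :=
  1 ≤ S.X p → S.X p ≤ 16 * (K.q : ℝ) →
    |S.φ p ^ K.th * S.D p / S.σ p ^ 3 - K.am * K.Lag 3 (S.X p)| ≤ K.am / 10

end Vale.Agent.P244Z.Q
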