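import Vale.Agent.P244Z.QCalc
import Vale.Agent.P244Z.Ex.Joint
import Mathlib.Analysis.SpecialFunctions.Trigonometric.Bounds

/-!
# P244: the continuation bounds in the form used by the existence theory
-/

open Set Real Filter Topology
open scoped ContDiff

namespace Vale.Agent.P244Z.Q

variable {S : Data} {J : Set ℝ}

theorem abs_sub_le_of_deriv {f g : ℝ → ℝ} (hf : ∀ x, HasDerivAt f (g x) x) {a b C : ℝ}
    (hab : a < b) (h : ∀ x ∈ Ioo a b, |g x| ≤ C) : |f b - f a| ≤ C * (b - a) := by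
  obtain ⟨x, hx, h1⟩ := exists_hasDerivAt_eq_slope f g hab
    (fun y _ => (hf y).continuousAt.continuousWithinAt) fun y _ => hf y
  rw [eq_div_iff (sub_pos.2 hab).ne'] at h1
  rw [← h1, abs_mul, abs_of_pos (sub_pos.2 hab)]
  exact mul_le_mul_of_nonneg_right (h x hx) (sub_pos.2 hab).le

theorem le_two_sin {θ : ℝ} (h0 : 0 ≤ θ) (h1 : θ ≤ π / 2) : θ ≤ 2 * sin θ := by
  have h2 := mul_le_sin h0 h1
  have h3 : 1 / 2 ≤ 2 / π := by rw [div_le_div_iff₀ two_pos pi_pos]; linarith [pi_le_four]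
  nlinarith

/-- A quantity which is small at both ends. -/
theorem le_mul_of_ends {y a s c : ℝ} (ha : 0 ≤ a) (hs : 0 ≤ s) (hc : 0 ≤ c)
    (h : 1 / 2 ≤ s ∨ 1 / 2 ≤ c) (h1 : y ≤ a * s) (h2 : y ≤ a * c) : y ≤ 2 * a * (s * c) := by
  rcases h with h | h
  · nlinarith [mul_nonneg ha hc]
  · nlinarith [mul_nonneg ha hs]

theorem Sol.bound_form (hS : Sol S J) (h : ∃ B : ℝ, ∀ θ ∈ Ioo 0 π, ∀ t ∈ J,
      |S.kk (θ, t)| ≤ B ∧ |S.vv (θ, t)| ≤ B ∧ |S.hh (θ, t)| ≤ B ∧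
      |S.Ds S.β (θ, t)| ≤ B ∧ |S.A (θ, t)| ≤ B ∧ |S.φ (θ, t)| ≤ B ∧
      |S.u (θ, t)| ≤ B ∧ |log (S.l t)| ≤ B ∧ S.l t * sin θ ≤ B * S.φ (θ, t)) :
    ∃ B : ℝ, ∀ θ ∈ Ioo 0 π, ∀ t ∈ J, |S.A (θ, t) - cos θ| ≤ B * (sin θ ^ 2 * |cos θ|) ∧
      |d1 S.u (θ, t)| ≤ B * (sin θ * |cos θ|) ∧ |S.u (0, t) - log (S.l t)| ≤ B ∧
      |log (S.l t)| ≤ B ∧ S.l t * sin θ ≤ B * S.φ (θ, t) := by
  obtain ⟨B, h⟩ := h
  have hpi := pi_pos
  have hmid : π / 2 ∈ Ioo 0 π := ⟨by positivity, by linarith⟩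
  have hB : 0 ≤ B := (abs_nonneg _).trans (h _ hmid 0 hS.time.zero_mem).1
  set L := exp B with hL
  have hL0 : 0 < L := exp_pos B
  set a := 4 * (L * B) ^ 2 + 2 * (L * B * B) + 2 * (L * L * B * B) + 2 * (L * L * B) + 1 with ha
  have ha0 : 0 ≤ a := by positivity
  have key : ∀ θ ∈ Ioc 0 (π / 2), ∀ t ∈ J, |S.A (θ, t) - cos θ| ≤ 2 * a * (sin θ ^ 2 * cos θ) ∧
      |S.l t * S.β (θ, t)| ≤ 2 * a * (sin θ * cos θ) := by
    intro θ hθ t ht
    have hl0 := hS.l_pos t ht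
    have hl : S.l t ≤ L := (log_le_iff_le_exp hl0).1 (abs_le.1 (h _ hmid t ht).2.2.2.2.2.2.2.1).2
    have hmul : ∀ {y C : ℝ}, |y| ≤ C → |S.l t * y| ≤ L * C := fun {y C} hy => by
      rw [abs_mul, abs_of_pos hl0]; exact mul_le_mul hl hy (abs_nonneg _) hL0.le
    have hsub : ∀ x ∈ Ioo 0 θ, x ∈ Ioo 0 π := fun x hx => ⟨hx.1, by linarith [hx.2, hθ.2]⟩
    have hθ' : θ ∈ Ioo 0 π := ⟨hθ.1, by linarith [hθ.2]⟩
    have hφ : ∀ x ∈ Ioc 0 θ, |S.φ (x, t)| ≤ L * B * θ := by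
      intro x hx
      have := abs_sub_le_of_deriv (fun y => hS.hasDerivAt_slice hS.sm_φ y ht) hx.1 (C := L * B)
        fun y hy => hmul (h y ⟨hy.1, by linarith [hy.2, hx.2, hθ.2]⟩ t ht).2.2.2.2.1
      rw [hS.φ_zero ht, sub_zero, sub_zero] at this
      exact this.trans (mul_le_mul_of_nonneg_left hx.2 (by positivity))
    have hdA : ∀ x ∈ Ioo 0 π, ∀ C, |S.φ (x, t)| ≤ C → |S.l t * S.Ds S.A (x, t)| ≤ L * (C * B) := by
      intro x hx C hC
      refine hmul ?_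
      rw [← hS.hh_eq x t ht, abs_mul]
      exact mul_le_mul hC (h x hx t ht).2.2.1 (abs_nonneg _) ((abs_nonneg _).trans hC)
    have hs0 : 0 ≤ sin θ := (sin_pos_of_mem_Ioo hθ').le
    have hc0 : 0 ≤ cos θ := cos_nonneg_of_mem_Icc ⟨by linarith [hθ.1], hθ.2⟩
    have h1 := le_two_sin hθ.1.le hθ.2
    have h2 := le_two_sin (θ := π / 2 - θ) (by linarith [hθ.2]) (by linarith [hθ.1])
    rw [sin_pi_div_two_sub] at h2
    have hsc := sin_sq_add_cos_sq θ
    have hc1 := cos_le_one θ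
    have hs1 := sin_le_one θ
    have hend : ∀ {F : ℝ × ℝ → ℝ} {C : ℝ}, ContDiffOn ℝ ∞ F (univ ×ˢ J) → F (π / 2, t) = 0 →
        0 ≤ C → (∀ x ∈ Ioo 0 π, |S.l t * S.Ds F (x, t)| ≤ C) → |F (θ, t)| ≤ 2 * C * cos θ := by
      intro F C hF h0 hC hb
      rcases hθ.2.eq_or_lt with h3 | h3
      · rw [h3, h0, cos_pi_div_two]; simp
      · have := abs_sub_le_of_deriv (fun y => hS.hasDerivAt_slice hF y ht) h3 (C := C)
          fun y hy => hb y ⟨hθ.1.trans hy.1, by linarith [hy.2]⟩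
        rw [h0, zero_sub, abs_neg] at this
        nlinarith
    constructor
    · refine le_mul_of_ends ha0 (sq_nonneg _) hc0 ?_ ?_ ?_
      · by_contra hn
        push Not at hn
        nlinarith [hn.1, hn.2]
      · have h3 := abs_sub_le_of_deriv (fun y => hS.hasDerivAt_slice hS.sm_A y ht) hθ.1
          (C := L * (L * B * θ * B)) fun y hy => hdA y (hsub y hy) _ (hφ y ⟨hy.1, hy.2.le⟩)
        rw [hS.A_zero t ht, sub_zero] at h3
        have h4 : θ ^ 2 ≤ 4 * sin θ ^ 2 := by nlinarith [hθ.1]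
        have h5 : (L * B) ^ 2 * θ ^ 2 ≤ (L * B) ^ 2 * (4 * sin θ ^ 2) :=
          mul_le_mul_of_nonneg_left h4 (sq_nonneg _)
        have h6 : 0 ≤ (2 * (L * B * B) + 2 * (L * L * B * B) + 2 * (L * L * B)) * sin θ ^ 2 := by
          positivity
        rw [abs_le] at h3 ⊢
        constructor <;> nlinarith [h3.1, h3.2]
      · have h3 := hend hS.sm_A (hS.A_half ht) (C := L * (B * B)) (by positivity)
          fun x hx => hdA x hx B (h x hx t ht).2.2.2.2.2.1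
        have h6 : 0 ≤ (4 * (L * B) ^ 2 + 2 * (L * L * B * B) + 2 * (L * L * B)) * cos θ := by
          positivity
        rw [abs_le] at h3 ⊢
        constructor <;> nlinarith [h3.1, h3.2]
    · refine le_mul_of_ends ha0 hs0 hc0 ?_ ?_ ?_
      · by_contra hn
        push Not at hn
        nlinarith [hn.1, hn.2]
      · have h3 : |S.β (θ, t)| ≤ L * B * θ * B := by
          rw [← hS.vv_eq θ t ht, abs_mul]
          exact mul_le_mul (hφ θ ⟨hθ.1, le_rfl⟩) (h θ hθ' t ht).2.1 (abs_nonneg _)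
            (by have := hθ.1; positivity)
        have h4 := hmul h3
        have h5 : L * L * B * B * θ ≤ L * L * B * B * (2 * sin θ) :=
          mul_le_mul_of_nonneg_left h1 (by positivity)
        have h6 : 0 ≤ (4 * (L * B) ^ 2 + 2 * (L * B * B) + 2 * (L * L * B) + 1) * sin θ := by
          positivity
        nlinarith
      · have h0 : S.β (π / 2, t) = 0 := by
          have := hS.β_sym (π / 2) ht
          rw [show π - π / 2 = π / 2 by ring] at this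
          linarith
        have h4 := hmul (hend hS.sm_β h0 (C := L * B) (by positivity)
          fun x hx => hmul (h x hx t ht).2.2.2.1)
        have h6 : 0 ≤ (4 * (L * B) ^ 2 + 2 * (L * B * B) + 2 * (L * L * B * B) + 1) * cos θ := by
          positivity
        nlinarith
  refine ⟨2 * a + 2 * B, fun θ hθ t ht => ?_⟩
  have hs0 : 0 ≤ sin θ := (sin_pos_of_mem_Ioo hθ).le
  have hd : d1 S.u (θ, t) = S.l t * S.β (θ, t) := by
    have := (hS.l_pos t ht).ne'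
    simp only [Data.β, Data.Ds]; field_simp
  have h1 : |S.A (θ, t) - cos θ| ≤ 2 * a * (sin θ ^ 2 * |cos θ|) ∧
      |S.l t * S.β (θ, t)| ≤ 2 * a * (sin θ * |cos θ|) := by
    rcases le_total θ (π / 2) with h2 | h2
    · rw [abs_of_nonneg (cos_nonneg_of_mem_Icc ⟨by linarith [hθ.1], h2⟩)]
      exact key θ ⟨hθ.1, h2⟩ t ht
    · have h3 := key (π - θ) ⟨by linarith [hθ.2], by linarith⟩ t ht
      rw [sin_pi_sub, cos_pi_sub, hS.A_sym θ ht, hS.β_sym θ ht, mul_neg (S.l t), abs_neg,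
        show -S.A (θ, t) - -cos θ = -(S.A (θ, t) - cos θ) by ring, abs_neg] at h3
      rw [abs_of_nonpos (cos_nonpos_of_pi_div_two_le_of_le h2 (by linarith [hθ.2]))]
      exact h3
  have hu : |S.u (0, t)| ≤ B := by
    have hc : Continuous fun x => |S.u (x, t)| :=
      (continuous_iff_continuousAt.2 fun x => (hasDerivAt_d1 hS.sm_u x ht).continuousAt).abs
    have := closure_minimal (s := Ioo 0 π) (t := {x | |S.u (x, t)| ≤ B})
      (fun x hx => (h x hx t ht).2.2.2.2.2.2.1) (isClosed_le hc continuous_const)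
    rw [closure_Ioo hpi.ne] at this
    exact this ⟨le_rfl, hpi.le⟩
  have hl := (h θ hθ t ht).2.2.2.2.2.2.2
  refine ⟨h1.1.trans (mul_le_mul_of_nonneg_right (by linarith) (by positivity)), ?_,
    (abs_sub _ _).trans (by linarith [hl.1]), by linarith [hl.1],
    hl.2.trans (mul_le_mul_of_nonneg_right (by linarith) (hS.φ_pos θ hθ t ht).le)⟩
  rw [hd]
  exact h1.2.trans (mul_le_mul_of_nonneg_right (by linarith) (by positivity))

end Vale.Agent.P244Z.Q

namespace Vale.Agent.P244Z.Ex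

theorem norm_le_of_cos {f : CI} {C : ℝ}
    (h : ∀ θ ∈ Ioo 0 π, |ex f (sin θ ^ 2) * cos θ| ≤ C * |cos θ|) : ‖f‖ ≤ C := by
  refine norm_le_of_ex fun x hx => ?_
  have h1 : Ioo (0 : ℝ) 1 ⊆ {x | |ex f x| ≤ C} := fun y hy => by
    have h2 : √y < 1 := by rw [sqrt_lt' one_pos]; linarith [hy.2]
    have h3 : arcsin √y < π / 2 := arcsin_lt_pi_div_two.2 h2
    have h4 : 0 < arcsin √y := arcsin_pos.2 (sqrt_pos.2 hy.1)
    have h5 := h (arcsin √y) ⟨h4, by linarith [pi_pos]⟩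
    have h6 : 0 < cos (arcsin √y) := cos_pos_of_mem_Ioo ⟨by linarith [pi_pos], h3⟩
    rw [sin_arcsin (by linarith [sqrt_nonneg y]) h2.le, sq_sqrt hy.1.le, abs_mul] at h5
    exact le_of_mul_le_mul_right h5 (abs_pos.2 h6.ne')
  have h2 := closure_minimal h1 (isClosed_le (ex_continuous f).abs continuous_const)
  rw [closure_Ioo zero_ne_one] at h2
  exact h2 hx

end Vale.Agent.P244Z.Ex
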