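import Mathlib.Analysis.Calculus.ContDiff.Defs
import Mathlib.Analysis.Calculus.Deriv.Basic
import Mathlib.Analysis.SpecialFunctions.Trigonometric.Basic

/-!
# P244: doubly warped Ricci flows in a fixed radial coordinate

The metric is `chi^2 dr^2 + phi^2 g_{S^q} + psi^2 g_{S^p}`, `r ∈ [0, π]`, on `S^(q+1) x S^p`.
All functions take the arguments `t r`.
-/

open Set Real
open scoped ContDiff

namespace Vale.Agent.P244Z.Geo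

/-- the arclength derivative -/
noncomputable def wD (chi f : ℝ → ℝ → ℝ) (t r : ℝ) : ℝ := deriv (f t) r / chi t r

/-- the scalar curvature of the doubly warped metric -/
noncomputable def wR (p q : ℕ) (chi phi psi : ℝ → ℝ → ℝ) (t r : ℝ) : ℝ :=
  -2 * (q : ℝ) * (wD chi (wD chi phi) t r / phi t r)
    - 2 * (p : ℝ) * (wD chi (wD chi psi) t r / psi t r)
    + (q : ℝ) * ((q : ℝ) - 1) * ((1 - wD chi phi t r ^ 2) / phi t r ^ 2)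
    + (p : ℝ) * ((p : ℝ) - 1) * ((1 - wD chi psi t r ^ 2) / psi t r ^ 2)
    - 2 * (p : ℝ) * (q : ℝ) * (wD chi phi t r * wD chi psi t r / (phi t r * psi t r))

/-- A smooth doubly warped Ricci flow on the time interval `(0, T)` with bounded scalar curvature
along which the radius of `S^p` at the pole `r = 0` takes arbitrarily small values near `T`. -/
structure Warped (p q : ℕ) (T : ℝ) (chi phi psi : ℝ → ℝ → ℝ) : Prop where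
  T_pos : 0 < T
  sm_chi : ContDiffOn ℝ ∞ (fun z : ℝ × ℝ => chi z.1 z.2) (Ioo 0 T ×ˢ univ)
  sm_phi : ContDiffOn ℝ ∞ (fun z : ℝ × ℝ => phi z.1 z.2) (Ioo 0 T ×ˢ univ)
  sm_psi : ContDiffOn ℝ ∞ (fun z : ℝ × ℝ => psi z.1 z.2) (Ioo 0 T ×ˢ univ)
  chi_even : ∀ t ∈ Ioo 0 T, ∀ r, chi t (-r) = chi t r
  phi_odd : ∀ t ∈ Ioo 0 T, ∀ r, phi t (-r) = -phi t r
  psi_even : ∀ t ∈ Ioo 0 T, ∀ r, psi t (-r) = psi t r
  chi_sym : ∀ t ∈ Ioo 0 T, ∀ r, chi t (π - r) = chi t r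
  phi_sym : ∀ t ∈ Ioo 0 T, ∀ r, phi t (π - r) = phi t r
  psi_sym : ∀ t ∈ Ioo 0 T, ∀ r, psi t (π - r) = psi t r
  chi_pos : ∀ t ∈ Ioo 0 T, ∀ r, 0 < chi t r
  phi_pos : ∀ t ∈ Ioo 0 T, ∀ r ∈ Ioo 0 π, 0 < phi t r
  psi_pos : ∀ t ∈ Ioo 0 T, ∀ r, 0 < psi t r
  pole : ∀ t ∈ Ioo 0 T, deriv (phi t) 0 = chi t 0
  eq_chi : ∀ t ∈ Ioo 0 T, ∀ r ∈ Ioo 0 π, HasDerivAt (fun s => chi s r)
    (chi t r * ((q : ℝ) * (wD chi (wD chi phi) t r / phi t r)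
      + (p : ℝ) * (wD chi (wD chi psi) t r / psi t r))) t
  eq_phi : ∀ t ∈ Ioo 0 T, ∀ r ∈ Ioo 0 π, HasDerivAt (fun s => phi s r)
    (wD chi (wD chi phi) t r + ((q : ℝ) - 1) * ((wD chi phi t r ^ 2 - 1) / phi t r)
      + (p : ℝ) * (wD chi phi t r * wD chi psi t r / psi t r)) t
  eq_psi : ∀ t ∈ Ioo 0 T, ∀ r ∈ Ioo 0 π, HasDerivAt (fun s => psi s r)
    (wD chi (wD chi psi) t r + ((p : ℝ) - 1) * ((wD chi psi t r ^ 2 - 1) / psi t r)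
      + (q : ℝ) * (wD chi phi t r * wD chi psi t r / phi t r)) t
  scal : ∃ C : ℝ, ∀ t ∈ Ioo 0 T, ∀ r ∈ Ioo 0 π, |wR p q chi phi psi t r| ≤ C
  blow : ∀ ε > 0, ∀ t0 < T, ∃ t ∈ Ioo 0 T, t0 < t ∧ psi t 0 < ε

end Vale.Agent.P244Z.Geo
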