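import Vale.Agent.P244Z.GeoAmb
import Vale.Agent.P244Z.GeoRad
import Vale.Agent.P244Z.GeoIface

/-!
From a solution of the doubly warped Ricci flow system to a Ricci flow on `S^(q+1) × S^p`.
-/

open scoped Manifold ContDiff Topology RealInnerProductSpace
open Set Filter Module Metric Real

set_option maxSynthPendingDepth 3

namespace Vale.Agent.P244Z.Geo

theorem refl_of_sym {g : ℝ → ℝ} {ε : ℝ} (hε : ε * ε = 1) (h1 : ∀ r, g (-r) = ε * g r)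
    (h2 : ∀ r, g (π - r) = g r) (k : ℤ) (r : ℝ) : g (2 * k * π - r) = ε * g r := by
  have h3 : ∀ r, g (r + π) = ε * g r := fun r => by
    rw [← h1, ← h2 (-r)]
    congr 1
    ring
  have h4 : Function.Periodic g (2 * π) := fun r => by
    rw [show r + 2 * π = r + π + π by ring, h3, h3, ← mul_assoc, hε, one_mul]
  rw [← h1, ← h4.int_mul k (-r)]
  congr 1
  ring

theorem at_zero_of_sym {g : ℝ → ℝ} (h1 : ∀ r, g (-r) = g r) (h2 : ∀ r, g (π - r) = g r) {r : ℝ}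
    (hr : sin r = 0) : g r = g 0 := by
  have h4 : Function.Periodic g π := fun r => by
    rw [← h1 r, ← h2 (-r)]
    congr 1
    ring
  obtain ⟨k, rfl⟩ := sin_eq_zero_iff.1 hr
  exact h4.int_mul_eq k

theorem exists_coef {I : Set ℝ} (hI : IsOpen I) {χ φ : ℝ → ℝ → ℝ}
    (hχ : ContDiffOn ℝ ∞ (fun z : ℝ × ℝ => χ z.1 z.2) (I ×ˢ univ))
    (hφ : ContDiffOn ℝ ∞ (fun z : ℝ × ℝ => φ z.1 z.2) (I ×ˢ univ))
    (e1 : ∀ t ∈ I, ∀ r, χ t (-r) = χ t r) (e2 : ∀ t ∈ I, ∀ r, φ t (-r) = -φ t r)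
    (s1 : ∀ t ∈ I, ∀ r, χ t (π - r) = χ t r) (s2 : ∀ t ∈ I, ∀ r, φ t (π - r) = φ t r)
    (p1 : ∀ t ∈ I, 0 < χ t 0) (p2 : ∀ t ∈ I, ∀ r ∈ Ioo 0 π, 0 < φ t r)
    (hp : ∀ t ∈ I, deriv (φ t) 0 = χ t 0) :
    ∃ a b : ℝ × ℝ → ℝ, ContDiffOn ℝ ∞ a (I ×ˢ univ) ∧ ContDiffOn ℝ ∞ b (I ×ˢ univ) ∧
      (∀ k : ℤ, ∀ t ∈ I, ∀ r, a (t, 2 * k * π - r) = a (t, r)) ∧
      (∀ k : ℤ, ∀ t ∈ I, ∀ r, b (t, 2 * k * π - r) = b (t, r)) ∧
      (∀ t ∈ I, ∀ r, φ t r ^ 2 = a (t, r) * sin r ^ 2) ∧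
      (∀ t ∈ I, ∀ r, χ t r ^ 2 = a (t, r) + b (t, r) * sin r ^ 2) ∧
      ∀ t ∈ I, ∀ r ∈ Icc 0 π, 0 < a (t, r) := by
  have o1 : ∀ k : ℤ, ∀ t ∈ I, ∀ r, φ t (2 * k * π - r) = (-1 : ℝ) • φ t r := fun k t ht r =>
    refl_of_sym (by norm_num) (fun r => by rw [e2 t ht, neg_one_mul]) (s2 t ht) k r
  have o2 : ∀ k : ℤ, ∀ t ∈ I, ∀ r, χ t (2 * k * π - r) = χ t r := fun k t ht r =>
    (refl_of_sym (ε := 1) (by norm_num) (fun r => by rw [e1 t ht, one_mul]) (s1 t ht) k r).trans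
      (one_mul _)
  obtain ⟨K, hK, eK⟩ := exists_div_sin hI hφ
    (zero_of_odd (H := fun z : ℝ × ℝ => φ z.1 z.2) o1)
  have pK : ∀ k : ℤ, ∀ t ∈ I, ∀ r, K (t, 2 * k * π - r) = K (t, r) := fun k t ht r => by
    simpa using parity_div (H := fun z : ℝ × ℝ => φ z.1 z.2) hK eK o1 k t ht r
  have K0 : ∀ t ∈ I, K (t, 0) = χ t 0 := by
    intro t ht
    have h1 := (hasDerivAt_sin 0).mul (hasDerivAt_slice hI hK ht 0)
    have h2 : φ t = sin * fun s => K (t, s) := funext fun r => eK t ht r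
    rw [← hp t ht, h2, h1.deriv]
    simp
  have Ke : ∀ t ∈ I, ∀ r, K (t, -r) = K (t, r) := fun t ht r => by simpa using pK 0 t ht r
  have Ks : ∀ t ∈ I, ∀ r, K (t, π - r) = K (t, r) := by
    intro t ht
    have hc := continuous_slice hK ht
    refine eq_of_sin_ne (f := fun r => K (t, π - r)) (hc.comp (by fun_prop)) hc fun r hr => ?_
    have h1 := eK t ht (π - r)
    have h2 := eK t ht r
    simp only [s2 t ht, sin_pi_sub, smul_eq_mul] at h1 h2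
    exact mul_left_cancel₀ hr (h1.symm.trans h2)
  have hD : ContDiffOn ℝ ∞ (fun z : ℝ × ℝ => χ z.1 z.2 ^ 2 - K z ^ 2) (I ×ˢ univ) :=
    (hχ.pow 2).sub (hK.pow 2)
  obtain ⟨K₁, hK₁, eK₁⟩ := exists_div_sin hI hD (fun t ht r hr => by
    dsimp only
    rw [at_zero_of_sym (e1 t ht) (s1 t ht) hr,
      at_zero_of_sym (g := fun r => K (t, r)) (Ke t ht) (Ks t ht) hr, K0 t ht, sub_self])
  have pK₁ := parity_div (H := fun z : ℝ × ℝ => χ z.1 z.2 ^ 2 - K z ^ 2) (ε := 1) hK₁ eK₁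
    (fun k t ht r => by simp only [o2 k t ht, pK k t ht, one_smul])
  obtain ⟨b, hb, eb⟩ := exists_div_sin hI hK₁ (zero_of_odd pK₁)
  refine ⟨fun z => K z ^ 2, b, hK.pow 2, hb, fun k t ht r => by simp only [pK k t ht],
    fun k t ht r => by simpa using parity_div hb eb pK₁ k t ht r, fun t ht r => ?_,
    fun t ht r => ?_, fun t ht r hr => ?_⟩
  · have h2 := eK t ht r
    simp only [smul_eq_mul] at h2
    rw [h2]
    ring
  · have h2 := eK₁ t ht r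
    rw [eb t ht r] at h2
    simp only [smul_eq_mul] at h2
    linear_combination h2
  · refine sq_pos_iff.2 ?_
    by_cases h : sin r = 0
    · rw [at_zero_of_sym (g := fun r => K (t, r)) (Ke t ht) (Ks t ht) h, K0 t ht]
      exact (p1 t ht).ne'
    · have h1 : r ∈ Ioo 0 π := by
        refine ⟨lt_of_le_of_ne hr.1 ?_, lt_of_le_of_ne hr.2 ?_⟩
        · rintro rfl
          exact h sin_zero
        · rintro rfl
          exact h sin_pi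
      have h2 := p2 t ht r h1
      have h3 := eK t ht r
      simp only [smul_eq_mul] at h3
      intro h4
      rw [h3, h4, mul_zero] at h2
      exact lt_irrefl _ h2

variable {p q : ℕ}

theorem dense_nonpole (N v : Sph (q + 1)) (w : Sph p) :
    Dense {y | ⟪N.1, ((pchart v w).symm y).1.1⟫ ∈ Ioo (-1 : ℝ) 1} := by
  have hinj : Function.Injective (stereographic' (q + 1) v).symm := by
    rw [← injOn_univ, ← stereographic'_target v]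
    exact (stereographic' (q + 1) v).symm.injOn
  have hfin : ((stereographic' (q + 1) v).symm ⁻¹' {N, -N}).Finite :=
    (toFinite _).preimage hinj.injOn
  have hop : IsOpenMap fun y : Euc (q + 1 + p) => (spl (q + 1) p y).1 :=
    isOpenMap_fst.comp (spl (q + 1) p).toHomeomorph.isOpenMap
  refine ((hfin.countable.dense_compl ℝ).preimage hop).mono fun y hy => ?_
  simp only [mem_preimage, mem_compl_iff, mem_insert_iff, mem_singleton_iff, not_or] at hy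
  rw [mem_ofPred, pchart_symm]
  dsimp only
  generalize (stereographic' (q + 1) v).symm (spl (q + 1) p y).1 = x at hy
  have h1 := (inner_lt_one_iff_real_of_norm_eq_one (norm_eq_of_mem_sphere N)
    (norm_eq_of_mem_sphere x)).2 fun h => hy.1 (Subtype.ext h.symm)
  have h2 := (inner_lt_one_iff_real_of_norm_eq_one (norm_eq_of_mem_sphere (-N))
    (norm_eq_of_mem_sphere x)).2 fun h => hy.2 (Subtype.ext h.symm)
  rw [coe_neg_sphere, inner_neg_left] at h2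
  exact ⟨by linarith, h1⟩

/-- A smooth reflection symmetric solution on `(0,T)` of the Ricci flow equations for the metric
`χ² dr² + φ² g_{S^q} + ψ² g_{S^p}`, `0 ≤ r ≤ π`. -/
structure WarpR (p q : ℕ) (T : ℝ) (χ φ ψ : ℝ → ℝ → ℝ) : Prop where
  smχ : ContDiffOn ℝ ∞ (fun z : ℝ × ℝ => χ z.1 z.2) (Ioo 0 T ×ˢ univ)
  smφ : ContDiffOn ℝ ∞ (fun z : ℝ × ℝ => φ z.1 z.2) (Ioo 0 T ×ˢ univ)
  smψ : ContDiffOn ℝ ∞ (fun z : ℝ × ℝ => ψ z.1 z.2) (Ioo 0 T ×ˢ univ)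
  χ_even : ∀ t ∈ Ioo 0 T, ∀ r, χ t (-r) = χ t r
  φ_odd : ∀ t ∈ Ioo 0 T, ∀ r, φ t (-r) = -φ t r
  ψ_even : ∀ t ∈ Ioo 0 T, ∀ r, ψ t (-r) = ψ t r
  χ_sym : ∀ t ∈ Ioo 0 T, ∀ r, χ t (π - r) = χ t r
  φ_sym : ∀ t ∈ Ioo 0 T, ∀ r, φ t (π - r) = φ t r
  ψ_sym : ∀ t ∈ Ioo 0 T, ∀ r, ψ t (π - r) = ψ t r
  χ_pos : ∀ t ∈ Ioo 0 T, ∀ r ∈ Icc 0 π, 0 < χ t r
  φ_pos : ∀ t ∈ Ioo 0 T, ∀ r ∈ Ioo 0 π, 0 < φ t r
  ψ_pos : ∀ t ∈ Ioo 0 T, ∀ r ∈ Icc 0 π, 0 < ψ t r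
  pole : ∀ t ∈ Ioo 0 T, deriv (φ t) 0 = χ t 0
  eqχ : ∀ t ∈ Ioo 0 T, ∀ r ∈ Ioo 0 π,
    HasDerivAt (fun s => χ s r) (-rho0 p q (χ t) (φ t) (ψ t) r * χ t r) t
  eqφ : ∀ t ∈ Ioo 0 T, ∀ r ∈ Ioo 0 π,
    HasDerivAt (fun s => φ s r) (-rho1 p q (χ t) (φ t) (ψ t) r * φ t r) t
  eqψ : ∀ t ∈ Ioo 0 T, ∀ r ∈ Ioo 0 π,
    HasDerivAt (fun s => ψ s r) (-rho2 p q (χ t) (φ t) (ψ t) r * ψ t r) t

/-- The coefficients of the ambient form. -/
structure Coef (T : ℝ) (χ φ ψ : ℝ → ℝ → ℝ) (a b : ℝ × ℝ → ℝ) : Prop where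
  ta : ContDiffOn ℝ ∞ (fun z : ℝ × ℝ => a (z.1, arccos z.2)) (Ioo 0 T ×ˢ Icc (-1) 1)
  tb : ContDiffOn ℝ ∞ (fun z : ℝ × ℝ => b (z.1, arccos z.2)) (Ioo 0 T ×ˢ Icc (-1) 1)
  tc : ContDiffOn ℝ ∞ (fun z : ℝ × ℝ => ψ z.1 (arccos z.2) ^ 2) (Ioo 0 T ×ˢ Icc (-1) 1)
  eφ : ∀ t ∈ Ioo 0 T, ∀ r, φ t r ^ 2 = a (t, r) * sin r ^ 2
  eχ : ∀ t ∈ Ioo 0 T, ∀ r, χ t r ^ 2 = a (t, r) + b (t, r) * sin r ^ 2
  apos : ∀ t ∈ Ioo 0 T, ∀ r ∈ Icc 0 π, 0 < a (t, r)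

variable {T : ℝ} {χ φ ψ : ℝ → ℝ → ℝ} {a b : ℝ × ℝ → ℝ}

theorem WarpR.coef (hW : WarpR p q T χ φ ψ) : ∃ a b, Coef T χ φ ψ a b := by
  obtain ⟨a, b, sa, sb, pa, pb, eφ, eχ, apos⟩ := exists_coef isOpen_Ioo hW.smχ hW.smφ hW.χ_even
    hW.φ_odd hW.χ_sym hW.φ_sym (fun t ht => hW.χ_pos t ht 0 ⟨le_rfl, pi_pos.le⟩) hW.φ_pos hW.pole
  have pc : ∀ k : ℤ, ∀ t ∈ Ioo 0 T, ∀ r, ψ t (2 * k * π - r) ^ 2 = ψ t r ^ 2 := fun k t ht r => by
    rw [refl_of_sym (ε := 1) (by norm_num) (fun r => by rw [hW.ψ_even t ht, one_mul])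
      (hW.ψ_sym t ht) k r, one_mul]
  exact ⟨a, b, contDiffOn_arccos isOpen_Ioo sa pa, contDiffOn_arccos isOpen_Ioo sb pb,
    contDiffOn_arccos isOpen_Ioo (hW.smψ.pow 2) pc, eφ, eχ, apos⟩

/-- The ambient form at time `t`. -/
noncomputable def wB (a b : ℝ × ℝ → ℝ) (ψ : ℝ → ℝ → ℝ) (N : Sph (q + 1)) (t : ℝ) :
    Euc (q + 1 + 1) × Euc (p + 1) → Bil (Euc (q + 1 + 1) × Euc (p + 1)) :=
  ambB (fun r => a (t, r)) (fun r => b (t, r)) (fun r => ψ t r ^ 2) N.1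

theorem wB_apply (N : Sph (q + 1)) (t : ℝ) (x u v : Euc (q + 1 + 1) × Euc (p + 1)) :
    wB a b ψ N t x u v = a (t, arccos ⟪N.1, x.1⟫) * ⟪u.1, v.1⟫ +
      b (t, arccos ⟪N.1, x.1⟫) * (⟪N.1, u.1⟫ * ⟪N.1, v.1⟫) +
      ψ t (arccos ⟪N.1, x.1⟫) ^ 2 * ⟪u.2, v.2⟫ := rfl

theorem WarpR.slice (hW : WarpR p q T χ φ ψ) (hC : Coef T χ φ ψ a b) {t : ℝ} (ht : t ∈ Ioo 0 T) :
    Slice (fun r => a (t, r)) (fun r => b (t, r)) (fun r => ψ t r ^ 2) (χ t) (φ t) (ψ t) := by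
  have k : ∀ f : ℝ → ℝ → ℝ, ContDiffOn ℝ ∞ (fun z : ℝ × ℝ => f z.1 z.2) (Ioo 0 T ×ˢ univ) →
      ContDiffOn ℝ ∞ (f t) (Ioo 0 π) := fun f hf =>
    hf.comp (f := fun r : ℝ => (t, r)) (by fun_prop) fun r _ => ⟨ht, trivial⟩
  exact ⟨k χ hW.smχ, k φ hW.smφ, k ψ hW.smψ,
    fun r hr => (hW.χ_pos t ht r (Ioo_subset_Icc_self hr)).ne',
    fun r hr => (hW.φ_pos t ht r hr).ne',
    fun r hr => (hW.ψ_pos t ht r (Ioo_subset_Icc_self hr)).ne',
    fun r _ => hC.eχ t ht r, fun r _ => hC.eφ t ht r, fun r _ => rfl⟩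

variable {e : OpenPartialHomeomorph (Sph (q + 1) × Sph p) (Euc (q + 1 + p))}

theorem Coef.smooth (hC : Coef T χ φ ψ a b) (N : Sph (q + 1)) (he : EmbChart emb e)
    (u v : Euc (q + 1 + p)) : ContDiffOn ℝ ∞
      (fun z : ℝ × Euc (q + 1 + p) => Gc (wB a b ψ N z.1) emb e z.2 u v) (Ioo 0 T ×ˢ univ) := by
  have k0 : ContDiff ℝ ∞ fun z : ℝ × Euc (q + 1 + p) => (z.1, ⟪N.1, (emb (e.symm z.2)).1⟫) :=
    contDiff_fst.prodMk (contDiff_const.inner ℝ (he.smooth.comp contDiff_snd).fst)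
  have k1 : MapsTo (fun z : ℝ × Euc (q + 1 + p) => (z.1, ⟪N.1, (emb (e.symm z.2)).1⟫))
      (Ioo 0 T ×ˢ univ) (Ioo 0 T ×ˢ Icc (-1) 1) := fun z hz => ⟨hz.1, inner_mem_Icc N _⟩
  have k2 : ∀ u, ContDiff ℝ ∞ fun z : ℝ × Euc (q + 1 + p) => fderiv ℝ (emb ∘ e.symm) z.2 u :=
    fun u => ((he.smooth.fderiv_right (m := ∞) (by simp)).comp contDiff_snd).clm_apply
      contDiff_const
  simp only [Gc_apply, wB_apply]
  exact (((hC.ta.comp k0.contDiffOn k1).mul ((k2 u).fst.inner ℝ (k2 v).fst).contDiffOn).add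
    ((hC.tb.comp k0.contDiffOn k1).mul ((contDiff_const.inner ℝ (k2 u).fst).mul
      (contDiff_const.inner ℝ (k2 v).fst)).contDiffOn)).add
    ((hC.tc.comp k0.contDiffOn k1).mul ((k2 u).snd.inner ℝ (k2 v).snd).contDiffOn)

theorem WarpR.riem (hW : WarpR p q T χ φ ψ) (hC : Coef T χ φ ψ a b) (N : Sph (q + 1))
    (he : EmbChart emb e) {t : ℝ} (ht : t ∈ Ioo 0 T) : RiemOn (Gc (wB a b ψ N t) emb e) univ := by
  refine ⟨isOpen_univ, ?_, fun y _ u v => ?_, fun y _ u hu => ?_⟩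
  · refine contDiffOn_clm_apply.2 fun u => contDiffOn_clm_apply.2 fun v => ?_
    exact (hC.smooth N he u v).comp (f := fun y => (t, y)) (by fun_prop) fun y _ => ⟨ht, trivial⟩
  · rw [Gc_apply, Gc_apply, wB_apply, wB_apply,
      real_inner_comm (fderiv ℝ (emb ∘ e.symm) y u).1 (fderiv ℝ (emb ∘ e.symm) y v).1,
      real_inner_comm (fderiv ℝ (emb ∘ e.symm) y u).2 (fderiv ℝ (emb ∘ e.symm) y v).2,
      mul_comm ⟪N.1, _⟫]
  · have hr : arccos ⟪N.1, (emb (e.symm y)).1⟫ ∈ Icc 0 π := ⟨arccos_nonneg _, arccos_le_pi _⟩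
    have hh : ⟪N.1, (emb (e.symm y)).1⟫ ∈ Icc (-1 : ℝ) 1 := inner_mem_Icc N (e.symm y).1
    have k := hC.eχ t ht (arccos ⟪N.1, (emb (e.symm y)).1⟫)
    rw [sin_sq, cos_arccos hh.1 hh.2] at k
    rw [Gc_apply, wB]
    exact ambB_pos (inner_sph N) (inner_sph (e.symm y).1) (tangent_emb he y u) (he.inj y hu)
      (hC.apos t ht _ hr) (k ▸ pow_pos (hW.χ_pos t ht _ hr) 2) (pow_pos (hW.ψ_pos t ht _ hr) 2)

theorem WarpR.flow (hW : WarpR p q T χ φ ψ) (hC : Coef T χ φ ψ a b) (N v : Sph (q + 1))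
    (w : Sph p) {t : ℝ} (ht : t ∈ Ioo 0 T) (y u u' : Euc (q + 1 + p)) :
    HasDerivAt (fun s => Gc (wB a b ψ N s) emb (pchart v w) y u u')
      (-2 * ricA (Gc (wB a b ψ N t) emb (pchart v w)) y u u') t := by
  have he := emb_pchart v w
  have hO : IsOpen (Ioo 0 T ×ˢ (univ : Set (Euc (q + 1 + p)))) := isOpen_Ioo.prod isOpen_univ
  have k0 := hC.smooth N he u u'
  set F := fun z : ℝ × Euc (q + 1 + p) => Gc (wB a b ψ N z.1) emb (pchart v w) z.2 u u'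
  have k1 : ∀ y, HasDerivAt (fun s => F (s, y)) (fderiv ℝ F (t, y) (1, 0)) t := fun y =>
    HasFDerivAt.comp_hasDerivAt (f := fun s => (s, y)) t ((k0.contDiffAt (hO.mem_nhds
      (show (t, y) ∈ _ from ⟨ht, trivial⟩))).differentiableAt (by simp)).hasFDerivAt
      ((hasDerivAt_id t).prodMk (hasDerivAt_const t y))
  have k2 : Continuous fun y => fderiv ℝ F (t, y) (1, 0) :=
    (((k0.continuousOn_fderiv_of_isOpen hO (by simp)).comp_continuous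
      (f := fun y => (t, y)) (by fun_prop) fun y => ⟨ht, trivial⟩).clm_apply continuous_const)
  have k3 : Continuous fun y => -2 * ricA (Gc (wB a b ψ N t) emb (pchart v w)) y u u' :=
    continuous_const.mul (continuous_iff_continuousAt.2 fun y =>
      (hW.riem hC N he ht).continuousAt_ricA trivial u u')
  have k4 := Continuous.ext_on (dense_nonpole N v w) k2 k3 fun y hy => ?_
  · rw [← congrFun k4 y]
    exact k1 y
  · obtain ⟨r, hr, L, hL⟩ := chart_polar N he y hy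
    obtain ⟨l1, _, l3⟩ := hL _ _ _ _ _ _ (hW.slice hC ht) (hW.riem hC N he ht)
    obtain ⟨x, rfl⟩ := l1.2 u
    obtain ⟨x', rfl⟩ := l1.2 u'
    have k5 := ((((hW.eqχ t ht r hr).pow 2).mul_const (x.1 * x'.1)).add
      (((hW.eqφ t ht r hr).pow 2).mul_const ⟪x.2.1, x'.2.1⟫)).add
      (((hW.eqψ t ht r hr).pow 2).mul_const ⟪x.2.2, x'.2.2⟫)
    refine ((k1 y).unique (k5.congr_of_eventuallyEq ?_)).trans ?_
    · filter_upwards [isOpen_Ioo.mem_nhds ht] with s hs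
      exact (hL _ _ _ _ _ _ (hW.slice hC hs) (hW.riem hC N he hs)).2.1 x x'
    · refine Eq.trans ?_ (congrArg (fun s => -2 * s) (l3 x x').symm)
      norm_num
      ring

theorem WarpR.scal (hW : WarpR p q T χ φ ψ) (hC : Coef T χ φ ψ a b) (N v : Sph (q + 1))
    (w : Sph p) {t : ℝ} (ht : t ∈ Ioo 0 T) {C : ℝ}
    (hR : ∀ r ∈ Ioo 0 π, |rho0 p q (χ t) (φ t) (ψ t) r +
      q * rho1 p q (χ t) (φ t) (ψ t) r + p * rho2 p q (χ t) (φ t) (ψ t) r| ≤ C)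
    (y : Euc (q + 1 + p)) : |scalar (mat (Gc (wB a b ψ N t) emb (pchart v w))) y| ≤ C := by
  have he := emb_pchart v w
  have hG := hW.riem hC N he ht
  refine closure_minimal (fun y hy => ?_)
    (isClosed_le (continuous_scalar_mat hG).abs continuous_const) (dense_nonpole N v w y)
  rw [mem_ofPred]
  obtain ⟨r, hr, L, hL⟩ := chart_polar N he y hy
  obtain ⟨l1, l2, l3⟩ := hL _ _ _ _ _ _ (hW.slice hC ht) hG
  let E := LinearEquiv.ofBijective (L : ℝ × Euc q × Euc p →ₗ[ℝ] Euc (q + 1 + p)) l1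
  rw [scalar_mat hG y (E.conj (LinearMap.prodMap
    (rho0 p q (χ t) (φ t) (ψ t) r • LinearMap.id) (LinearMap.prodMap
    (rho1 p q (χ t) (φ t) (ψ t) r • LinearMap.id)
    (rho2 p q (χ t) (φ t) (ψ t) r • LinearMap.id)))), LinearMap.trace_conj']
  · have := hR r hr
    simpa [LinearMap.trace_prodMap', mul_comm, add_assoc] using this
  · intro u u'
    obtain ⟨x, rfl⟩ := E.surjective u
    obtain ⟨x', rfl⟩ := l1.2 u'
    rw [LinearEquiv.conj_apply_apply, E.symm_apply_apply]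
    refine (l3 x x').trans (Eq.trans ?_ (l2 _ x').symm)
    simp only [LinearMap.prodMap_apply, LinearMap.smul_apply, LinearMap.id_apply,
      real_inner_smul_left, smul_eq_mul]
    ring

theorem pole_value (hp : 1 ≤ p) (N : Sph (q + 1)) (S : Sph p) :
    ∃ y ξ : Euc (q + 1 + p), ∃ K : ℝ, ξ ≠ 0 ∧ 0 ≤ K ∧
      ∀ t, Gc (wB a b ψ N t) emb (pchart (-N) (-S)) y ξ ξ = ψ t 0 ^ 2 * K := by
  have hx : (N, S) ∈ (pchart (-N) (-S)).source := (prodCharts (q + 1) p).mem_chart_source (N, S)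
  have he := emb_pchart (-N) (-S)
  set y := pchart (-N) (-S) (N, S)
  have hy : (pchart (-N) (-S)).symm y = (N, S) := (pchart (-N) (-S)).left_inv hx
  set ξ := (spl (q + 1) p).symm (0, ev ⟨0, hp⟩) with hξ
  have k1 : (fderiv ℝ (emb ∘ (pchart (-N) (-S)).symm) y ξ).1 = 0 := by
    have h1 : HasDerivAt (fun t : ℝ => ((emb ∘ (pchart (-N) (-S)).symm) (y + t • ξ)).1)
        (fderiv ℝ (emb ∘ (pchart (-N) (-S)).symm) y ξ).1 0 :=
      (ContinuousLinearMap.fst ℝ (Euc (q + 1 + 1)) (Euc (p + 1))).hasFDerivAt.comp_hasDerivAt 0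
        (hasDerivAt_line (he.smooth.differentiable (by simp) y) ξ)
    have h2 : (fun t : ℝ => ((emb ∘ (pchart (-N) (-S)).symm) (y + t • ξ)).1) =
        fun _ => ((stereographic' (q + 1) (-N)).symm (spl (q + 1) p y).1).1 := by
      funext t
      simp [emb, pchart_symm, hξ]
    rw [h2] at h1
    exact h1.unique (hasDerivAt_const _ _)
  refine ⟨y, ξ, _, ?_, real_inner_self_nonneg
    (x := (fderiv ℝ (emb ∘ (pchart (-N) (-S)).symm) y ξ).2), fun t => ?_⟩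
  · rw [hξ, Ne, ContinuousLinearEquiv.map_eq_zero_iff, Prod.mk_eq_zero]
    simp
  · rw [Gc_apply, wB_apply, k1, hy, inner_zero_left, inner_zero_right,
      show ⟪N.1, (emb (N, S)).1⟫ = 1 from inner_sph N, arccos_one]
    ring

theorem geo_mainR (hp : 1 ≤ p) (hT : 0 < T) (hW : WarpR p q T χ φ ψ)
    (hR : ∃ C, ∀ t ∈ Ioo 0 T, ∀ r ∈ Ioo 0 π, |rho0 p q (χ t) (φ t) (ψ t) r +
      q * rho1 p q (χ t) (φ t) (ψ t) r + p * rho2 p q (χ t) (φ t) (ψ t) r| ≤ C)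
    (hb : ∀ ε > 0, ∃ᶠ t in 𝓝[<] T, ψ t 0 < ε) : Counterexample (q + 1 + p) := by
  obtain ⟨a, b, hC⟩ := hW.coef
  let N : Sph (q + 1) := ⟨ev 0, by simp⟩
  let S : Sph p := ⟨ev 0, by simp⟩
  have hsh : ∀ s ∈ Ico 0 (T / 2), s + T / 2 ∈ Ioo 0 T := fun s hs =>
    ⟨by linarith [hs.1], by linarith [hs.2]⟩
  let _ := prodCharts (q + 1) p
  have := connected_sph (k := q + 1) (Nat.le_add_left 1 q)
  have := connected_sph hp
  refine counter_of_charts (M := Sph (q + 1) × Sph p) (ι := emb) ?_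
    (fun s => wB a b ψ N (s + T / 2)) (half_pos hT) ?_ ?_ ?_ ?_ ?_
  · rintro _ ⟨x, rfl⟩
    exact emb_pchart _ _
  · rintro _ ⟨x, rfl⟩ t ht
    exact hW.riem hC N (emb_pchart _ _) (hsh t ht)
  · rintro _ ⟨x, rfl⟩ u v
    exact (hC.smooth N (emb_pchart _ _) u v).comp
      (f := fun z : ℝ × Euc (q + 1 + p) => (z.1 + T / 2, z.2)) (by fun_prop)
      fun z hz => ⟨hsh _ hz.1, trivial⟩
  · rintro _ ⟨x, rfl⟩ t ht y u v
    exact (hW.flow hC N _ _ (hsh t ht) y u v).comp_add_const t (T / 2)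
  · obtain ⟨C, hR⟩ := hR
    refine ⟨C, ?_⟩
    rintro _ ⟨x, rfl⟩ t ht y
    exact hW.scal hC N _ _ (hsh t ht) (hR _ (hsh t ht)) y
  · obtain ⟨y, ξ, K, hξ, hK0, k2⟩ := pole_value (a := a) (b := b) (ψ := ψ) hp N S
    refine ⟨_, ⟨(-N, -S), rfl⟩, y, ξ, hξ, fun ε hε => ?_⟩
    have k3 : Tendsto (fun t => t - T / 2) (𝓝[<] T) (𝓝[<] (T / 2)) := by
      refine tendsto_nhdsWithin_iff.2 ⟨?_, ?_⟩
      · have : Tendsto (fun t => t - T / 2) (𝓝 T) (𝓝 (T - T / 2)) :=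
          (continuous_id.sub continuous_const).tendsto T
        rw [show T - T / 2 = T / 2 by ring] at this
        exact this.mono_left nhdsWithin_le_nhds
      · filter_upwards [self_mem_nhdsWithin] with t ht
        have : t < T := ht
        show t - T / 2 < T / 2
        linarith
    refine k3.frequently (((hb (min 1 (ε / (K + 1))) (by positivity)).and_eventually
      (Ioo_mem_nhdsLT hT)).mono fun t ht => ?_)
    dsimp only
    rw [sub_add_cancel, k2]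
    have m0 := hW.ψ_pos t ht.2 0 ⟨le_rfl, pi_pos.le⟩
    have m1 := (lt_min_iff.1 ht.1).1
    have m2 := (lt_div_iff₀ (by positivity)).1 (lt_min_iff.1 ht.1).2
    nlinarith [mul_nonneg m0.le hK0]

theorem geo_main (hp : 1 ≤ p) (h : Warped p q T χ φ ψ) : Counterexample (q + 1 + p) := by
  have e1 : ∀ f t r, wD χ f t r = ds (χ t) (f t) r := fun _ _ _ => rfl
  have e2 : ∀ f t r, wD χ (wD χ f) t r = ds (χ t) (ds (χ t) (f t)) r := fun _ _ _ => rfl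
  refine geo_mainR hp h.T_pos ⟨h.sm_chi, h.sm_phi, h.sm_psi, h.chi_even, h.phi_odd, h.psi_even,
    h.chi_sym, h.phi_sym, h.psi_sym, fun t ht r _ => h.chi_pos t ht r, h.phi_pos,
    fun t ht r _ => h.psi_pos t ht r, h.pole, fun t ht r hr => ?_, fun t ht r hr => ?_,
    fun t ht r hr => ?_⟩ ?_ ?_
  · refine (h.eq_chi t ht r hr).congr_deriv ?_
    rw [e2, e2, rho0]
    ring
  · refine (h.eq_phi t ht r hr).congr_deriv ?_
    have := (h.phi_pos t ht r hr).ne'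
    have := (h.psi_pos t ht r).ne'
    rw [e2, e1, e1, rho1]
    field_simp
    ring
  · refine (h.eq_psi t ht r hr).congr_deriv ?_
    have := (h.phi_pos t ht r hr).ne'
    have := (h.psi_pos t ht r).ne'
    rw [e2, e1, e1, rho2]
    field_simp
    ring
  · obtain ⟨C, hC⟩ := h.scal
    refine ⟨C, fun t ht r hr => le_of_eq_of_le (congrArg _ ?_) (hC t ht r hr)⟩
    rw [wR, e2, e2, e1, e1, rho0, rho1, rho2]
    ring
  · intro ε hε hn
    obtain ⟨t0, ht0, hsub⟩ := (nhdsLT_basis T).eventually_iff.1 hn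
    obtain ⟨t, ht, h1, h2⟩ := h.blow ε hε t0 ht0
    exact hsub ⟨h1, ht.2⟩ h2

end Vale.Agent.P244Z.Geo
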