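import Vale.Agent.P244Z.QGeo

/-!
# P244, large `q` design: the weights in self-similar form, numerical facts on the constants
-/

open Set Real Filter Topology

namespace Vale.Agent.P244Z.Q

variable {S : Data} {J : Set ℝ} {K : Consts} {t1 : ℝ} {p : ℝ × ℝ}

/-- `ρ^2 / σ` -/
noncomputable def Data.y (S : Data) (p : ℝ × ℝ) : ℝ := S.ρ p ^ 2 / S.σ p

theorem scale_pow {σ ρ : ℝ} (hσ : 0 < σ) (hρ : 0 < ρ) (k g : ℝ) :
    σ ^ k * ρ ^ g = σ ^ (k + g / 2) * (ρ ^ 2 / σ) ^ (g / 2) := by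
  rw [div_rpow (by positivity) hσ.le, rpow_add hσ, ← rpow_natCast, ← rpow_mul hρ.le]
  have h1 : ((2 : ℕ) : ℝ) * (g / 2) = g := by push_cast; ring
  have h2 : σ ^ (g / 2) ≠ 0 := (rpow_pos_of_pos hσ _).ne'
  rw [h1]
  field_simp

theorem Data.y_pos (S : Data) (hρ : 0 < S.ρ p) (hσ : 0 < S.σ p) : 0 < S.y p := by
  unfold Data.y; positivity

theorem Data.ρ_sq_eq (S : Data) (hσ : 0 < S.σ p) : S.ρ p ^ 2 = S.σ p * S.y p := by
  unfold Data.y; field_simp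

theorem Data.φ_sq_eq (S : Data) (hσ : 0 < S.σ p) : S.φ p ^ 2 = S.σ p * S.X p := by
  have : S.sg p.2 ≠ 0 := hσ.ne'
  unfold Data.X Data.σ; field_simp

theorem Data.F1_eq (S : Data) (K : Consts) (hρ : 0 < S.ρ p) (hσ : 0 < S.σ p) :
    S.F1 K p = S.σ p ^ K.lam * S.y p ^ (-41 / 40 : ℝ) := by
  unfold Data.F1 Data.y
  rw [scale_pow hσ hρ]
  congr 2 <;> ring

theorem Data.F2_eq (S : Data) (K : Consts) (hρ : 0 < S.ρ p) (hσ : 0 < S.σ p) :
    S.F2 K p = S.σ p ^ K.lam * S.y p ^ K.lam := by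
  have := scale_pow hσ hρ 0 (2 * K.lam)
  rw [rpow_zero, one_mul] at this
  unfold Data.F2 Data.y
  rw [this]
  congr 2 <;> ring

theorem Data.G1_eq (S : Data) (hρ : 0 < S.ρ p) (hσ : 0 < S.σ p) :
    S.G1 p = S.σ p ^ (4 / 5 : ℝ) * S.y p ^ (-41 / 40 : ℝ) := by
  unfold Data.G1 Data.y
  rw [scale_pow hσ hρ]
  congr 2 <;> ring

theorem Data.G2_eq (S : Data) (hρ : 0 < S.ρ p) (hσ : 0 < S.σ p) :
    S.G2 p = S.σ p ^ (4 / 5 : ℝ) * S.y p ^ (4 / 5 : ℝ) := by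
  have := scale_pow hσ hρ 0 (8 / 5)
  rw [rpow_zero, one_mul] at this
  unfold Data.G2 Data.y
  rw [this]
  congr 2 <;> ring

theorem Data.F1_pos (S : Data) (K : Consts) (hρ : 0 < S.ρ p) (hσ : 0 < S.σ p) : 0 < S.F1 K p := by
  unfold Data.F1; positivity

theorem Data.F2_pos (S : Data) (K : Consts) (hρ : 0 < S.ρ p) : 0 < S.F2 K p := by
  unfold Data.F2; positivity

theorem Data.G1_pos (S : Data) (hρ : 0 < S.ρ p) (hσ : 0 < S.σ p) : 0 < S.G1 p := by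
  unfold Data.G1; positivity

theorem Data.G2_pos (S : Data) (hρ : 0 < S.ρ p) : 0 < S.G2 p := by
  unfold Data.G2; positivity

namespace Consts.OK

variable (h : K.OK)
include h

theorem q_ge' : (10000 : ℝ) ≤ (K.q : ℝ) := by exact_mod_cast h.q_ge

theorem th_le' : K.th ≤ 1 / 2000 := by
  refine h.th_le.trans ?_
  have := h.q_ge'
  rw [div_le_div_iff₀ (by linarith) (by norm_num)]
  linarith

theorem am_q : K.am * (K.q : ℝ) ^ 3 ≤ 1 := by
  have h1 := h.am_le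
  have h2 := h.q_ge'
  rwa [le_div_iff₀ (by positivity)] at h1

theorem am_le' : K.am ≤ 1 / 10 ^ 12 := by
  refine h.am_le.trans ?_
  have h2 := h.q_ge'
  have : (10000 : ℝ) ^ 3 ≤ (K.q : ℝ) ^ 3 := pow_le_pow_left₀ (by norm_num) h2 3
  exact one_div_le_one_div_of_le (by norm_num) (by linarith)

theorem δ_sq_le : K.δ ^ 2 ≤ 1 / 48 := by
  have h1 := h.δ_le
  have h2 := h.N1_ge
  nlinarith [sq_nonneg K.δ]

theorem nu_ge : 49 / 100 * (K.q : ℝ) ≤ K.nu := by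
  have := h.th_le'; have := h.q_ge'; unfold Consts.nu; linarith

theorem nu_pos : 0 < K.nu := by have := h.nu_ge; have := h.q_ge'; linarith

theorem cc_pos : 0 < K.cc := by
  have := h.q_ge'; unfold Consts.cc; exact div_pos (by linarith) (by linarith)

theorem cc_le : K.cc ≤ 26 / 100 := by
  have := h.q_ge'; unfold Consts.cc; rw [div_le_iff₀ (by linarith)]; linarith

theorem cc_div_nu : K.cc / K.nu ≤ 1 / (K.q : ℝ) := by
  have h1 := h.q_ge'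
  have h2 := h.nu_ge
  have h3 := h.cc_le
  rw [div_le_div_iff₀ h.nu_pos (by linarith)]
  nlinarith

theorem lag3_bounds {X : ℝ} (hX : 0 ≤ X) :
    |K.Lag 3 X| ≤ (1 + X / K.q) ^ 3 ∧ 1 - 3 * (X / K.q) - (X / K.q) ^ 3 ≤ K.Lag 3 X := by
  have hν := h.nu_pos
  have hc := h.cc_pos
  have hq := h.q_ge'
  set t := K.cc * X / K.nu with ht
  have ht0 : 0 ≤ t := by positivity
  have htq : t ≤ X / K.q := by
    calc t = K.cc / K.nu * X := by rw [ht]; ring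
      _ ≤ 1 / (K.q : ℝ) * X := mul_le_mul_of_nonneg_right h.cc_div_nu hX
      _ = X / K.q := by ring
  set a2 := (K.cc * X) ^ 2 / (K.nu * (K.nu + 1)) with ha2
  set a3 := (K.cc * X) ^ 3 / (K.nu * (K.nu + 1) * (K.nu + 2)) with ha3
  have h20 : 0 ≤ a2 := by positivity
  have h30 : 0 ≤ a3 := by positivity
  have h2 : a2 ≤ t ^ 2 := by
    rw [ht, div_pow]
    exact div_le_div_of_nonneg_left (by positivity) (by positivity) (by nlinarith)
  have h3 : a3 ≤ t ^ 3 := by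
    rw [ht, div_pow]
    refine div_le_div_of_nonneg_left (by positivity) (by positivity) ?_
    have : K.nu * (K.nu + 1) * (K.nu + 2) = K.nu ^ 3 + (3 * K.nu ^ 2 + 2 * K.nu) := by ring
    rw [this]
    have : 0 ≤ 3 * K.nu ^ 2 + 2 * K.nu := by positivity
    linarith
  have hL : K.Lag 3 X = 1 - 3 * t + 3 * a2 - a3 := by
    simp only [Consts.Lag, ht, ha2, ha3]; ring
  have p2 : t ^ 2 ≤ (X / K.q) ^ 2 := pow_le_pow_left₀ ht0 htq 2
  have p3 : t ^ 3 ≤ (X / K.q) ^ 3 := pow_le_pow_left₀ ht0 htq 3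
  have he : (1 + X / K.q) ^ 3 = 1 + 3 * (X / K.q) + 3 * (X / K.q) ^ 2 + (X / K.q) ^ 3 := by ring
  have p0 : 0 ≤ (X / K.q) ^ 2 := by positivity
  rw [hL, he, abs_le]
  refine ⟨⟨?_, ?_⟩, ?_⟩ <;> linarith

end Consts.OK

theorem Geo0.F2_le (hg : Geo0 K S p) (hK : K.OK) (hρ : 0 < S.ρ p) : S.F2 K p ≤ 1 :=
  rpow_le_one hρ.le hg.ρ_le (by have := hK.lam_ge; linarith)

theorem Geo0.G2_le (hg : Geo0 K S p) (hρ : 0 < S.ρ p) : S.G2 p ≤ 1 :=
  rpow_le_one hρ.le hg.ρ_le (by norm_num)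

theorem Geo0.X_le (hg : Geo0 K S p) : S.X p ≤ 11 / 10 * S.y p := by
  have h1 := hg.φ_sq_le
  rw [S.φ_sq_eq hg.σ_pos, S.ρ_sq_eq hg.σ_pos] at h1
  have := hg.σ_pos
  nlinarith

theorem Geo0.y_le (hg : Geo0 K S p) : S.y p ≤ 2 * S.X p ∨ S.y p ≤ 1 := by
  have := hg.σ_pos
  rcases hg.ρ_sq_le with h1 | h1
  · left
    rw [S.φ_sq_eq hg.σ_pos, S.ρ_sq_eq hg.σ_pos] at h1
    nlinarith
  · right
    rw [S.ρ_sq_eq hg.σ_pos] at h1
    nlinarith

theorem Data.X_le_iff (S : Data) (hσ : 0 < S.σ p) (c : ℝ) :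
    S.X p ≤ c ↔ S.φ p ^ 2 - c * S.σ p ≤ 0 := by
  rw [S.φ_sq_eq hσ]
  constructor <;> intro h <;> nlinarith

theorem Data.le_X_iff (S : Data) (hσ : 0 < S.σ p) (c : ℝ) :
    c ≤ S.X p ↔ c * S.σ p - S.φ p ^ 2 ≤ 0 := by
  rw [S.φ_sq_eq hσ]
  constructor <;> intro h <;> nlinarith

theorem Data.X_eq_iff (S : Data) (hσ : 0 < S.σ p) (c : ℝ) :
    S.X p = c ↔ S.φ p ^ 2 - c * S.σ p = 0 := by
  rw [S.φ_sq_eq hσ]
  constructor
  · intro h; rw [h]; ring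
  · intro h
    have : S.σ p * (S.X p - c) = 0 := by linarith
    rcases mul_eq_zero.1 this with h1 | h1
    · exact absurd h1 hσ.ne'
    · linarith

theorem Boot.zero_mem (h : Boot K S J t1) {θ : ℝ} (hθ : θ ∈ Ioo 0 π) : (θ, (0 : ℝ)) ∈ strip t1 :=
  ⟨hθ, le_rfl, h.sol.time.nonneg _ h.mem⟩

end Vale.Agent.P244Z.Q
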