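import Vale.Agent.P244Z.QMDefs
import Vale.Agent.P244Z.QScale
import Mathlib.Analysis.SpecialFunctions.Gaussian.GaussianIntegral
import Mathlib.Analysis.SpecialFunctions.Gamma.Basic
import Mathlib.Algebra.QuadraticDiscriminant

/-!
# P244, large `q` design: the weighted space of square integrable functions on `(0, ∞)`

Integrability, moments, orthogonality of the modes, inequalities of Cauchy-Schwarz and Bessel.
-/

open Set Real Filter Topology MeasureTheory

namespace Vale.Agent.P244Z.Q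

variable {K : Consts} {f g h e : ℝ → ℝ}

theorem Consts.OK.nu_big (hK : K.OK) : 4900 ≤ K.nu := by
  have h1 := hK.q_ge'
  have h2 := hK.nu_ge
  linarith

theorem wgt_pos (K : Consts) {X : ℝ} (hX : 0 < X) : 0 < K.wgt X :=
  mul_pos (rpow_pos_of_pos hX _) (exp_pos _)

theorem wgt_continuous (hK : K.OK) : Continuous K.wgt := by
  have h1 := hK.nu_big
  unfold Consts.wgt
  exact (continuous_rpow_const (by linarith)).mul (by fun_prop)

theorem rpow_mul_wgt (K : Consts) (k : ℝ) {X : ℝ} (hX : 0 < X) :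
    X ^ k * K.wgt X = X ^ (K.nu + k - 1) * exp (-(K.cc * X)) := by
  unfold Consts.wgt
  rw [← mul_assoc, ← rpow_add hX, neg_mul]
  congr 2
  ring

theorem integrable_rpow_wgt (hK : K.OK) {k : ℝ} (hk : -4000 ≤ k) :
    IntegrableOn (fun X => X ^ k * K.wgt X) (Ioi 0) := by
  have h1 := hK.nu_big
  refine (integrableOn_rpow_mul_exp_neg_mul_rpow (p := 1) (s := K.nu + k - 1) (by linarith) one_pos
    hK.cc_pos).congr_fun (fun X hX => ?_) measurableSet_Ioi
  simp only [rpow_mul_wgt K k hX, rpow_one, neg_mul]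

theorem W_rpow (hK : K.OK) {k : ℝ} (hk : -4000 ≤ k) :
    K.W (fun X => X ^ k) = (1 / K.cc) ^ (K.nu + k) * Gamma (K.nu + k) := by
  have h1 := hK.nu_big
  rw [← integral_rpow_mul_exp_neg_mul_Ioi (by linarith) hK.cc_pos]
  exact setIntegral_congr_fun measurableSet_Ioi fun X hX => rpow_mul_wgt K k hX

theorem one_le_grow {X : ℝ} (hX : 0 < X) : 1 ≤ (X ^ 8)⁻¹ + X ^ 12 := by
  rcases le_total X 1 with h | h
  · have : 1 ≤ (X ^ 8)⁻¹ := one_le_inv₀ (by positivity) |>.2 (pow_le_one₀ hX.le h)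
    have : 0 ≤ X ^ 12 := by positivity
    linarith
  · have : 1 ≤ X ^ 12 := one_le_pow₀ h
    have : 0 ≤ (X ^ 8)⁻¹ := by positivity
    linarith

theorem pow_le_grow {X : ℝ} (hX : 0 < X) {k : ℕ} (hk : k ≤ 12) : X ^ k ≤ (X ^ 8)⁻¹ + X ^ 12 := by
  rcases le_total X 1 with h | h
  · exact (pow_le_one₀ hX.le h).trans (one_le_grow hX)
  · have : X ^ k ≤ X ^ 12 := pow_le_pow_right₀ h hk
    have : 0 ≤ (X ^ 8)⁻¹ := by positivity
    linarith

theorem inv_pow_le_grow {X : ℝ} (hX : 0 < X) {k : ℕ} (hk : k ≤ 8) :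
    (X ^ k)⁻¹ ≤ (X ^ 8)⁻¹ + X ^ 12 := by
  rcases le_total X 1 with h | h
  · have : (X ^ k)⁻¹ ≤ (X ^ 8)⁻¹ := inv_anti₀ (by positivity) (pow_le_pow_of_le_one hX.le h hk)
    have : 0 ≤ X ^ 12 := by positivity
    linarith
  · exact (inv_le_one_of_one_le₀ (one_le_pow₀ h)).trans (one_le_grow hX)

theorem Grow.nonneg {η : ℝ} (he : Grow e η) : 0 ≤ η := by
  have h1 := he 1 one_pos
  have h2 := abs_nonneg (e 1)
  norm_num at h1
  linarith

theorem Grow.mono {η η' : ℝ} (he : Grow e η) (h : η ≤ η') : Grow e η' := fun X hX =>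
  (he X hX).trans (mul_le_mul_of_nonneg_right h (by positivity))

theorem integrable_grow_sq (hK : K.OK) :
    IntegrableOn (fun X => ((X ^ 8)⁻¹ + X ^ 12) ^ 2 * K.wgt X) (Ioi 0) := by
  have h1 := integrable_rpow_wgt hK (k := -16) (by norm_num)
  have h2 := integrable_rpow_wgt hK (k := 4) (by norm_num)
  have h3 := integrable_rpow_wgt hK (k := 24) (by norm_num)
  refine ((h1.add (h2.const_mul 2)).add h3).congr_fun (fun X hX => ?_) measurableSet_Ioi
  have hX' : (0 : ℝ) < X := hX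
  simp only [Pi.add_apply]
  rw [show (-16 : ℝ) = -((16 : ℕ) : ℝ) by norm_num, rpow_neg hX'.le, rpow_natCast,
    show (4 : ℝ) = ((4 : ℕ) : ℝ) by norm_num, rpow_natCast,
    show (24 : ℝ) = ((24 : ℕ) : ℝ) by norm_num, rpow_natCast]
  field_simp
  ring

/-- linearity of the weighted integrals on functions of polynomial growth -/
theorem Grow.integrable (hK : K.OK) {η : ℝ} (he : Grow e η)
    (hm : AEStronglyMeasurable e (volume.restrict (Ioi 0))) {g : ℝ → ℝ} {η' : ℝ} (hg : Grow g η')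
    (hm' : AEStronglyMeasurable g (volume.restrict (Ioi 0))) :
    IntegrableOn (fun X => e X * g X * K.wgt X) (Ioi 0) := by
  refine Integrable.mono' ((integrable_grow_sq hK).const_mul (η * η'))
    ((hm.mul hm').mul (wgt_continuous hK).aestronglyMeasurable) ?_
  filter_upwards [ae_restrict_mem measurableSet_Ioi] with X hX
  have hw := wgt_pos K hX
  rw [Real.norm_eq_abs, abs_mul, abs_mul, abs_of_pos hw, ← mul_assoc]
  refine mul_le_mul_of_nonneg_right ?_ hw.le
  calc |e X| * |g X| ≤ η * ((X ^ 8)⁻¹ + X ^ 12) * (η' * ((X ^ 8)⁻¹ + X ^ 12)) :=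
        mul_le_mul (he X hX) (hg X hX) (abs_nonneg _) ((abs_nonneg _).trans (he X hX))
    _ = _ := by ring

/-- measurable functions of polynomial growth -/
structure PG (f : ℝ → ℝ) : Prop where
  meas : AEStronglyMeasurable f (volume.restrict (Ioi 0))
  grow : ∃ η, Grow f η

namespace PG

theorem integrable (hK : K.OK) (hf : PG f) (hg : PG g) :
    IntegrableOn (fun X => f X * g X * K.wgt X) (Ioi 0) := by
  obtain ⟨η, h1⟩ := hf.grow
  obtain ⟨η', h2⟩ := hg.grow
  exact h1.integrable hK hf.meas h2 hg.meas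

theorem add (hf : PG f) (hg : PG g) : PG fun X => f X + g X := by
  obtain ⟨η, h1⟩ := hf.grow
  obtain ⟨η', h2⟩ := hg.grow
  refine ⟨hf.meas.add hg.meas, η + η', fun X hX => (abs_add_le _ _).trans ?_⟩
  linarith [h1 X hX, h2 X hX]

theorem const_mul (c : ℝ) (hf : PG f) : PG fun X => c * f X := by
  obtain ⟨η, h1⟩ := hf.grow
  refine ⟨hf.meas.const_mul c, |c| * η, fun X hX => ?_⟩
  rw [abs_mul, mul_assoc]
  exact mul_le_mul_of_nonneg_left (h1 X hX) (abs_nonneg c)

theorem sub (hf : PG f) (hg : PG g) : PG fun X => f X - g X := by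
  simpa [sub_eq_add_neg] using hf.add (hg.const_mul (-1))

theorem pow {k : ℕ} (hk : k ≤ 12) : PG fun X => X ^ k :=
  ⟨(continuous_pow k).aestronglyMeasurable, 1, fun X hX => by
    rw [abs_of_pos (by positivity), one_mul]; exact pow_le_grow hX hk⟩

theorem const (c : ℝ) : PG fun _ => c := by simpa using (pow (k := 0) (by norm_num)).const_mul c

theorem of_bdd (hf : ContinuousOn f (Ioi 0)) {C : ℝ} (hC : ∀ X, 0 < X → |f X| ≤ C) : PG f :=
  ⟨hf.aestronglyMeasurable measurableSet_Ioi, C, fun X hX => (hC X hX).trans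
    (le_mul_of_one_le_right ((abs_nonneg _).trans (hC X hX)) (one_le_grow hX))⟩

theorem sum {ι : Type*} (s : Finset ι) {F : ι → ℝ → ℝ} (hF : ∀ i ∈ s, PG (F i)) :
    PG fun X => ∑ i ∈ s, F i X := by
  classical
  induction s using Finset.induction_on with
  | empty => simpa using const 0
  | insert a s ha ih =>
    simp only [Finset.sum_insert ha]
    exact (hF a (Finset.mem_insert_self a s)).add
      (ih fun i hi => hF i (Finset.mem_insert_of_mem hi))

theorem cubic (a0 a1 a2 a3 : ℝ) : PG fun X => a0 + a1 * X + a2 * X ^ 2 + a3 * X ^ 3 := by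
  have h1 := (pow (k := 1) (by norm_num)).const_mul a1
  simp only [pow_one] at h1
  exact (((const a0).add h1).add ((pow (by norm_num)).const_mul a2)).add
    ((pow (by norm_num)).const_mul a3)

end PG

theorem Adm.pg {V V1 V2 : ℝ → ℝ} (hV : Adm V V1 V2) : PG V := by
  obtain ⟨C, hC⟩ := hV.bd
  exact PG.of_bdd (fun X hX => (hV.d1 X hX).continuousAt.continuousWithinAt)
    fun X hX => (hC X hX).1

/-- the coefficients of the modes -/
noncomputable def Consts.lc (K : Consts) : ℕ → ℕ → ℝ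
  | 0, 0 => 1
  | 1, 0 => 1
  | 1, 1 => -K.cc / K.nu
  | 2, 0 => 1
  | 2, 1 => -2 * K.cc / K.nu
  | 2, 2 => K.cc ^ 2 / (K.nu * (K.nu + 1))
  | 3, 0 => 1
  | 3, 1 => -3 * K.cc / K.nu
  | 3, 2 => 3 * K.cc ^ 2 / (K.nu * (K.nu + 1))
  | 3, 3 => -K.cc ^ 3 / (K.nu * (K.nu + 1) * (K.nu + 2))
  | _, _ => 0

theorem Lag_eq (K : Consts) (j : ℕ) (X : ℝ) :
    K.Lag j X = K.lc j 0 + K.lc j 1 * X + K.lc j 2 * X ^ 2 + K.lc j 3 * X ^ 3 := by
  rcases j with _ | _ | _ | _ | j <;> simp only [Consts.Lag, Consts.lc] <;> ring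

theorem PG.lag (K : Consts) (j : ℕ) : PG (K.Lag j) := by
  have := PG.cubic (K.lc j 0) (K.lc j 1) (K.lc j 2) (K.lc j 3)
  simpa only [← Lag_eq] using this

theorem Lag_continuous (K : Consts) (j : ℕ) : Continuous (K.Lag j) := by
  have : K.Lag j = fun X => K.lc j 0 + K.lc j 1 * X + K.lc j 2 * X ^ 2 + K.lc j 3 * X ^ 3 :=
    funext (Lag_eq K j)
  rw [this]; fun_prop

/-- the scalar product -/
noncomputable def Consts.ip (K : Consts) (f g : ℝ → ℝ) : ℝ := K.W fun X => f X * g X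

theorem W_congr (K : Consts) (h : ∀ X, 0 < X → f X = g X) : K.W f = K.W g :=
  setIntegral_congr_fun measurableSet_Ioi fun X hX => by simp only [h X hX]

theorem W_nonneg (K : Consts) (h : ∀ X, 0 < X → 0 ≤ f X) : 0 ≤ K.W f :=
  setIntegral_nonneg measurableSet_Ioi fun X hX => mul_nonneg (h X hX) (wgt_pos K hX).le

theorem W_const_mul (K : Consts) (c : ℝ) (f : ℝ → ℝ) : K.W (fun X => c * f X) = c * K.W f := by
  unfold Consts.W
  rw [← integral_const_mul]
  simp only [mul_assoc]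

theorem W_add (K : Consts) (hf : IntegrableOn (fun X => f X * K.wgt X) (Ioi 0))
    (hg : IntegrableOn (fun X => g X * K.wgt X) (Ioi 0)) :
    K.W (fun X => f X + g X) = K.W f + K.W g := by
  unfold Consts.W
  rw [← integral_add hf hg]
  simp only [add_mul]

theorem W_mono (K : Consts) (hf : IntegrableOn (fun X => f X * K.wgt X) (Ioi 0))
    (hg : IntegrableOn (fun X => g X * K.wgt X) (Ioi 0)) (h : ∀ X, 0 < X → f X ≤ g X) :
    K.W f ≤ K.W g :=
  setIntegral_mono_on hf hg measurableSet_Ioi fun X hX =>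
    mul_le_mul_of_nonneg_right (h X hX) (wgt_pos K hX).le

theorem ip_comm (K : Consts) (f g : ℝ → ℝ) : K.ip f g = K.ip g f := by
  simp only [Consts.ip, mul_comm]

theorem ip_congr (K : Consts) {f' g' : ℝ → ℝ} (h1 : ∀ X, 0 < X → f X = f' X)
    (h2 : ∀ X, 0 < X → g X = g' X) : K.ip f g = K.ip f' g' :=
  W_congr K fun X hX => by rw [h1 X hX, h2 X hX]

theorem ip_self (K : Consts) (f : ℝ → ℝ) : K.ip f f = K.W fun X => f X ^ 2 := by
  simp only [Consts.ip, sq]

theorem ip_self_nonneg (K : Consts) (f : ℝ → ℝ) : 0 ≤ K.ip f f :=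
  W_nonneg K fun _ _ => mul_self_nonneg _

theorem ip_mul_left (K : Consts) (c : ℝ) (f g : ℝ → ℝ) :
    K.ip (fun X => c * f X) g = c * K.ip f g := by
  simp only [Consts.ip, mul_assoc, W_const_mul]

theorem ip_mul_right (K : Consts) (c : ℝ) (f g : ℝ → ℝ) :
    K.ip f (fun X => c * g X) = c * K.ip f g := by
  rw [ip_comm, ip_mul_left, ip_comm]

theorem ip_add_left (hK : K.OK) (hf : PG f) (hg : PG g) (hh : PG h) :
    K.ip (fun X => f X + g X) h = K.ip f h + K.ip g h := by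
  simp only [Consts.ip, add_mul]
  exact W_add K (hf.integrable hK hh) (hg.integrable hK hh)

theorem ip_add_right (hK : K.OK) (hf : PG f) (hg : PG g) (hh : PG h) :
    K.ip h (fun X => f X + g X) = K.ip h f + K.ip h g := by
  rw [ip_comm, ip_add_left hK hf hg hh, ip_comm K f, ip_comm K g]

theorem ip_sub_left (hK : K.OK) (hf : PG f) (hg : PG g) (hh : PG h) :
    K.ip (fun X => f X - g X) h = K.ip f h - K.ip g h := by
  have h1 := ip_add_left hK hf (hg.const_mul (-1)) hh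
  rw [ip_mul_left] at h1
  simpa [sub_eq_add_neg] using h1

theorem ip_sub_right (hK : K.OK) (hf : PG f) (hg : PG g) (hh : PG h) :
    K.ip h (fun X => f X - g X) = K.ip h f - K.ip h g := by
  rw [ip_comm, ip_sub_left hK hf hg hh, ip_comm K f, ip_comm K g]

theorem ip_sum_left (hK : K.OK) {ι : Type*} (s : Finset ι) {F : ι → ℝ → ℝ}
    (hF : ∀ i ∈ s, PG (F i)) (hh : PG h) :
    K.ip (fun X => ∑ i ∈ s, F i X) h = ∑ i ∈ s, K.ip (F i) h := by
  classical
  induction s using Finset.induction_on with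
  | empty => simp [Consts.ip, Consts.W]
  | insert a s ha ih =>
    have h1 : ∀ i ∈ s, PG (F i) := fun i hi => hF i (Finset.mem_insert_of_mem hi)
    simp only [Finset.sum_insert ha]
    rw [ip_add_left hK (hF a (Finset.mem_insert_self a s)) (PG.sum s h1) hh, ih h1]

/-- the inequality of Cauchy and Schwarz -/
theorem ip_sq_le (hK : K.OK) (hf : PG f) (hg : PG g) : K.ip f g ^ 2 ≤ K.ip f f * K.ip g g := by
  have h1 : ∀ x : ℝ, 0 ≤ K.ip f f * (x * x) + 2 * K.ip f g * x + K.ip g g := fun x => by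
    have h2 := ip_self_nonneg K fun X => x * f X + g X
    have h3 := hf.const_mul x
    rw [ip_add_left hK h3 hg (h3.add hg), ip_add_right hK h3 hg h3, ip_add_right hK h3 hg hg,
      ip_mul_left, ip_mul_right, ip_mul_left, ip_mul_right, ip_comm K g f] at h2
    linarith
  have h2 := discrim_le_zero h1
  unfold discrim at h2
  linarith

theorem abs_ip_le (hK : K.OK) (hf : PG f) (hg : PG g) :
    |K.ip f g| ≤ √(K.ip f f) * √(K.ip g g) := by
  rw [← sqrt_mul (ip_self_nonneg K f)]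
  exact abs_le_sqrt (ip_sq_le hK hf hg)

/-! ### moments and orthogonality -/

theorem W_pow_succ (hK : K.OK) (k : ℕ) :
    K.W (fun X => X ^ (k + 1)) = (K.nu + k) / K.cc * K.W fun X => X ^ k := by
  have h0 := hK.nu_big
  have hc := hK.cc_pos
  have hk : (0 : ℝ) ≤ k := Nat.cast_nonneg k
  have h1 := W_rpow hK (k := (k : ℝ)) (by linarith)
  have h2 := W_rpow hK (k := ((k + 1 : ℕ) : ℝ)) (by push_cast; linarith)
  simp only [rpow_natCast] at h1 h2
  rw [h1, h2, Nat.cast_add, Nat.cast_one, ← add_assoc, Gamma_add_one (by linarith),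
    rpow_add (by positivity), rpow_one]
  ring

theorem W_one_pos (hK : K.OK) : 0 < K.W fun X => X ^ 0 := by
  have h0 := hK.nu_big
  have hc := hK.cc_pos
  have h1 := W_rpow hK (k := ((0 : ℕ) : ℝ)) (by norm_num)
  simp only [rpow_natCast] at h1
  rw [h1]
  exact mul_pos (by positivity) (Gamma_pos_of_pos (by push_cast; linarith))

theorem ip_pow (K : Consts) (i j : ℕ) :
    K.ip (fun X => X ^ i) (fun X => X ^ j) = K.W fun X => X ^ (i + j) := by
  simp only [Consts.ip, pow_add]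

theorem ip_lag (hK : K.OK) (i j : ℕ) : K.ip (K.Lag i) (K.Lag j) =
    ∑ a ∈ Finset.range 4, ∑ b ∈ Finset.range 4, K.lc i a * K.lc j b * K.W fun X => X ^ (a + b) := by
  have h1 : ∀ j, K.Lag j = fun X => ∑ a ∈ Finset.range 4, K.lc j a * X ^ a := fun j => by
    funext X
    simp only [Lag_eq, Finset.sum_range_succ, Finset.sum_range_zero]
    ring
  have h2 : ∀ j, ∀ a ∈ Finset.range 4, PG fun X => K.lc j a * X ^ a := fun j a ha =>
    (PG.pow (by have := Finset.mem_range.1 ha; omega)).const_mul _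
  conv_lhs => rw [h1 i]
  rw [ip_sum_left hK _ (h2 i) (PG.lag K j)]
  refine Finset.sum_congr rfl fun a ha => ?_
  rw [ip_comm, h1 j, ip_sum_left hK _ (h2 j) (h2 i a ha)]
  refine Finset.sum_congr rfl fun b _ => ?_
  rw [ip_mul_left, ip_mul_right, ip_pow, add_comm b a]
  ring

theorem ip_lag_eq (hK : K.OK) {i j : ℕ} (hi : i < 4) (hj : j < 4) : K.ip (K.Lag i) (K.Lag j) =
    (if i = j then (i.factorial : ℝ) / ∏ k ∈ Finset.range i, (K.nu + k) else 0) *
      K.W fun X => X ^ 0 := by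
  have h0 : 0 < K.nu := hK.nu_pos
  have hc := hK.cc_pos
  have m1 := W_pow_succ hK 0
  have m2 := W_pow_succ hK 1
  have m3 := W_pow_succ hK 2
  have m4 := W_pow_succ hK 3
  have m5 := W_pow_succ hK 4
  have m6 := W_pow_succ hK 5
  rw [ip_lag hK]
  simp only [Finset.sum_range_succ, Finset.sum_range_zero, Nat.reduceAdd] at *
  rw [m6, m5, m4, m3, m2, m1]
  generalize (K.W fun X => X ^ 0) = m
  interval_cases i <;> interval_cases j <;>
    simp [Consts.lc, Finset.prod_range_succ, Nat.factorial] <;> field_simp <;> ring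

theorem hL_eq (K : Consts) (j : ℕ) : K.hL j = K.ip (K.Lag j) (K.Lag j) := by
  rw [ip_self]; rfl

theorem hL_pos (hK : K.OK) {j : ℕ} (hj : j < 4) : 0 < K.hL j := by
  have h0 : 0 < K.nu := hK.nu_pos
  rw [hL_eq, ip_lag_eq hK hj hj, if_pos rfl]
  refine mul_pos (div_pos (by exact_mod_cast j.factorial_pos) ?_) (W_one_pos hK)
  exact Finset.prod_pos fun k _ => by positivity

theorem lag_orth (hK : K.OK) {i j : ℕ} (hi : i < 4) (hj : j < 4) (hij : i ≠ j) :
    K.ip (K.Lag i) (K.Lag j) = 0 := by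
  rw [ip_lag_eq hK hi hj, if_neg hij, zero_mul]

/-- the normalised modes -/
noncomputable def Consts.en (K : Consts) (j : ℕ) (X : ℝ) : ℝ := (√(K.hL j))⁻¹ * K.Lag j X

theorem PG.en (K : Consts) (j : ℕ) : PG (K.en j) := (PG.lag K j).const_mul _

theorem pr_eq (K : Consts) (j : ℕ) (f : ℝ → ℝ) : K.pr j f = K.ip f (K.en j) := by
  have : K.ip f (K.en j) = (√(K.hL j))⁻¹ * K.ip f (K.Lag j) := ip_mul_right K _ f _
  rw [this, Consts.pr, div_eq_inv_mul]
  rfl

theorem ip_en (hK : K.OK) {i j : ℕ} (hi : i < 4) (hj : j < 4) :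
    K.ip (K.en i) (K.en j) = if i = j then 1 else 0 := by
  have h1 : K.ip (K.en i) (K.en j) =
      (√(K.hL i))⁻¹ * ((√(K.hL j))⁻¹ * K.ip (K.Lag i) (K.Lag j)) := by
    rw [← ip_mul_right, ← ip_mul_left]; rfl
  rw [h1]
  split_ifs with hij
  · subst hij
    have h2 := hL_pos hK hi
    have h3 := sqrt_pos.2 h2
    rw [← hL_eq]
    field_simp
    exact (sq_sqrt h2.le).symm
  · rw [lag_orth hK hi hj hij, mul_zero, mul_zero]

theorem pr_add (hK : K.OK) (j : ℕ) (hf : PG f) (hg : PG g) :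
    K.pr j (fun X => f X + g X) = K.pr j f + K.pr j g := by
  simp only [pr_eq, ip_add_left hK hf hg (PG.en K j)]

theorem pr_sub (hK : K.OK) (j : ℕ) (hf : PG f) (hg : PG g) :
    K.pr j (fun X => f X - g X) = K.pr j f - K.pr j g := by
  simp only [pr_eq, ip_sub_left hK hf hg (PG.en K j)]

theorem pr_const_mul (K : Consts) (j : ℕ) (c : ℝ) (f : ℝ → ℝ) :
    K.pr j (fun X => c * f X) = c * K.pr j f := by
  simp only [pr_eq, ip_mul_left]

theorem pr_congr (K : Consts) (j : ℕ) (h : ∀ X, 0 < X → f X = g X) : K.pr j f = K.pr j g := by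
  simp only [pr_eq]
  exact ip_congr K h fun _ _ => rfl

theorem PG.comb (K : Consts) (α : ℕ → ℝ) : PG fun X => ∑ j ∈ Finset.range 4, α j * K.en j X :=
  PG.sum _ fun j _ => (PG.en K j).const_mul _

theorem ip_comb (hK : K.OK) (α : ℕ → ℝ) (hf : PG f) :
    K.ip (fun X => ∑ j ∈ Finset.range 4, α j * K.en j X) f =
      ∑ j ∈ Finset.range 4, α j * K.pr j f := by
  rw [ip_sum_left hK _ (fun j _ => (PG.en K j).const_mul _) hf]
  refine Finset.sum_congr rfl fun j _ => ?_
  rw [ip_mul_left, ip_comm, pr_eq]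

theorem pr_comb (hK : K.OK) (α : ℕ → ℝ) {i : ℕ} (hi : i < 4) :
    K.pr i (fun X => ∑ j ∈ Finset.range 4, α j * K.en j X) = α i := by
  rw [pr_eq, ip_comb hK α (PG.en K i), Finset.sum_eq_single i]
  · rw [pr_eq, ip_en hK hi hi, if_pos rfl, mul_one]
  · intro j hj hji
    rw [pr_eq, ip_en hK hi (Finset.mem_range.1 hj), if_neg hji.symm, mul_zero]
  · intro h
    exact absurd (Finset.mem_range.2 hi) h

/-- the stable part -/
noncomputable def Consts.sp (K : Consts) (f : ℝ → ℝ) (X : ℝ) : ℝ :=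
  f X - ∑ j ∈ Finset.range 4, K.pr j f * K.en j X

theorem PG.sp (K : Consts) (hf : PG f) : PG (K.sp f) := hf.sub (PG.comb K fun j => K.pr j f)

theorem pr_sp (hK : K.OK) (hf : PG f) {i : ℕ} (hi : i < 4) : K.pr i (K.sp f) = 0 := by
  have h1 := pr_sub hK i hf (PG.comb K fun j => K.pr j f)
  rw [pr_comb hK (fun j => K.pr j f) hi, sub_self] at h1
  exact h1

theorem ip_sp_left (hK : K.OK) (hf : PG f) (hg : PG g) :
    K.ip (K.sp f) g = K.ip f g - ∑ j ∈ Finset.range 4, K.pr j f * K.pr j g := by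
  rw [← ip_comb hK (fun j => K.pr j f) hg, ← ip_sub_left hK hf (PG.comb K _) hg]
  rfl

theorem ip_sp_sp (hK : K.OK) (hf : PG f) (hg : PG g) :
    K.ip (K.sp f) (K.sp g) = K.ip f g - ∑ j ∈ Finset.range 4, K.pr j f * K.pr j g := by
  have h1 : ∑ j ∈ Finset.range 4, K.pr j g * K.pr j (K.sp f) = 0 :=
    Finset.sum_eq_zero fun j hj => by rw [pr_sp hK hf (Finset.mem_range.1 hj), mul_zero]
  rw [ip_comm, ip_sp_left hK hg (hf.sp K), ip_comm, ip_sp_left hK hf hg, h1, sub_zero]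

theorem st_eq (hK : K.OK) (hf : PG f) : K.st f = K.ip (K.sp f) (K.sp f) := by
  rw [ip_sp_sp hK hf hf, Consts.st, ip_self]
  simp only [sq]

/-- the inequality of Bessel -/
theorem PG.st_nonneg (hK : K.OK) (hf : PG f) : 0 ≤ K.st f := by
  rw [st_eq hK hf]; exact ip_self_nonneg K _

theorem st_nonneg {V V1 V2 : ℝ → ℝ} (hK : K.OK) (hV : Adm V V1 V2) : 0 ≤ K.st V :=
  hV.pg.st_nonneg hK

theorem st_le (K : Consts) (f : ℝ → ℝ) : K.st f ≤ K.ip f f := by
  rw [Consts.st, ip_self]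
  have : 0 ≤ ∑ j ∈ Finset.range 4, K.pr j f ^ 2 := Finset.sum_nonneg fun _ _ => sq_nonneg _
  linarith

theorem pr_sq_le (hK : K.OK) (hf : PG f) {j : ℕ} (hj : j < 4) : K.pr j f ^ 2 ≤ K.ip f f := by
  have h1 := ip_sq_le hK hf (PG.en K j)
  rwa [ip_en hK hj hj, if_pos rfl, mul_one, ← pr_eq] at h1

/-- the stable part does not see the modes -/
theorem st_comb_add (hK : K.OK) (α : ℕ → ℝ) (hf : PG f) :
    K.st (fun X => ∑ j ∈ Finset.range 4, α j * K.en j X + f X) = K.st f := by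
  have h1 := PG.comb K α
  rw [st_eq hK (h1.add hf), st_eq hK hf]
  have : K.sp (fun X => ∑ j ∈ Finset.range 4, α j * K.en j X + f X) = K.sp f := by
    funext X
    unfold Consts.sp
    rw [Finset.sum_congr rfl fun j hj => by
      rw [pr_add hK j h1 hf, pr_comb hK α (Finset.mem_range.1 hj), add_mul], Finset.sum_add_distrib]
    ring
  rw [this]

theorem exists_norm_bound (hK : K.OK) : ∃ Cw > 0, ∀ (e : ℝ → ℝ) (η : ℝ),
    AEStronglyMeasurable e (volume.restrict (Ioi 0)) → Grow e η → K.ip e e ≤ (Cw * η) ^ 2 := by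
  set B := K.W fun X => ((X ^ 8)⁻¹ + X ^ 12) ^ 2 with hB
  have hB0 : 0 ≤ B := W_nonneg K fun X _ => sq_nonneg _
  refine ⟨√B + 1, by positivity, fun e η hm he => ?_⟩
  have h1 : K.ip e e ≤ η ^ 2 * B := by
    rw [hB, ← W_const_mul]
    refine W_mono K (he.integrable hK hm he hm) ?_ fun X hX => ?_
    · simp only [mul_assoc]
      exact (integrable_grow_sq hK).const_mul (η ^ 2)
    · rw [← mul_pow, ← sq]
      exact sq_le_sq' (neg_le_of_abs_le (he X hX)) (le_of_abs_le (he X hX))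
  have h2 : B ≤ (√B + 1) ^ 2 := by nlinarith [sq_sqrt hB0, sqrt_nonneg B]
  rw [mul_pow, mul_comm]
  exact h1.trans (mul_le_mul_of_nonneg_left h2 (sq_nonneg η))

/-- Cauchy-Schwarz for the error -/
theorem err_pair (hK : K.OK) : ∃ Cw > 0, ∀ (V V1 V2 e : ℝ → ℝ) (η : ℝ), Adm V V1 V2 →
    AEStronglyMeasurable e (volume.restrict (Ioi 0)) → Grow e η →
    (∀ j < 4, |K.pr j e| ≤ Cw * η) ∧
    |K.W (fun X => V X * e X) - ∑ j ∈ Finset.range 4, K.pr j V * K.pr j e| ≤
      Cw * η * √(K.st V) := by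
  obtain ⟨Cw, hC, h⟩ := exists_norm_bound hK
  refine ⟨Cw, hC, fun V V1 V2 e η hV hm he => ?_⟩
  have hpe : PG e := ⟨hm, η, he⟩
  have h0 : 0 ≤ Cw * η := mul_nonneg hC.le he.nonneg
  have h1 := h e η hm he
  refine ⟨fun j hj => abs_le_of_sq_le_sq' ((pr_sq_le hK hpe hj).trans h1) h0 |> abs_le.2, ?_⟩
  have h2 := abs_ip_le hK (hV.pg.sp K) (hpe.sp K)
  rw [ip_sp_sp hK hV.pg hpe, ← st_eq hK hV.pg, ← st_eq hK hpe] at h2
  refine h2.trans ?_
  rw [mul_comm]
  refine mul_le_mul_of_nonneg_right ?_ (sqrt_nonneg _)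
  exact sqrt_le_iff.2 ⟨h0, (st_le K e).trans h1⟩

end Vale.Agent.P244Z.Q
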