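import Vale.Agent.P244Z.QDat0
import Vale.Agent.P244Z.QLag
import Mathlib.MeasureTheory.Integral.IntervalIntegral.IntegrationByParts

/-!
# P244, initial data: the modes
-/

open Set Real Filter Topology MeasureTheory
open scoped ContDiff

namespace Vale.Agent.P244Z.Q

variable {K : Consts}

theorem dm_cut_zero {r : ℝ} (h : r ≤ 1) : cut r = 0 :=
  smoothTransition.zero_of_nonpos (by linarith)

theorem dm_cut_one {r : ℝ} (h : 2 ≤ r) : cut r = 1 :=
  smoothTransition.one_of_one_le (by linarith)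

theorem dm_cut_mem (r : ℝ) : 0 ≤ cut r ∧ cut r ≤ 1 :=
  ⟨smoothTransition.nonneg _, smoothTransition.le_one _⟩

theorem dm_cut_cont : Continuous cut :=
  smoothTransition.continuous.comp (continuous_id.sub continuous_const)

theorem lc_bounds (hK : K.OK) (j k : ℕ) : |K.lc j k| ≤ 1 ∧ (0 < k → |K.lc j k| ≤ 3 / 10000) := by
  have hν := hK.nu_pos
  have hc := hK.cc_pos
  have hq := hK.q_ge'
  have ht : K.cc / K.nu ≤ 1 / 10000 :=
    hK.cc_div_nu.trans (one_div_le_one_div_of_le (by norm_num) hq)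
  have h1 : K.cc / (K.nu + 1) ≤ 1 / 10000 :=
    (div_le_div_of_nonneg_left hc.le hν (by linarith)).trans ht
  have h2 : K.cc / (K.nu + 2) ≤ 1 / 10000 :=
    (div_le_div_of_nonneg_left hc.le hν (by linarith)).trans ht
  have p0 : 0 ≤ K.cc / K.nu := by positivity
  have p1 : 0 ≤ K.cc / (K.nu + 1) := by positivity
  have p2 : 0 ≤ K.cc / (K.nu + 2) := by positivity
  have e1 : ∀ a : ℝ, a * K.cc / K.nu = a * (K.cc / K.nu) := fun a => by ring
  have e2 : K.cc ^ 2 / (K.nu * (K.nu + 1)) = K.cc / K.nu * (K.cc / (K.nu + 1)) := by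
    field_simp
  have e3 : K.cc ^ 3 / (K.nu * (K.nu + 1) * (K.nu + 2)) =
      K.cc / K.nu * (K.cc / (K.nu + 1)) * (K.cc / (K.nu + 2)) := by field_simp
  have q2 : K.cc / K.nu * (K.cc / (K.nu + 1)) ≤ 1 / 10000 * 1 :=
    mul_le_mul ht (by linarith) p1 (by norm_num)
  have q3 : K.cc / K.nu * (K.cc / (K.nu + 1)) * (K.cc / (K.nu + 2)) ≤ 1 / 10000 * 1 * 1 :=
    mul_le_mul q2 (by linarith) p2 (by norm_num)
  have r2 := mul_nonneg p0 p1
  have r3 := mul_nonneg r2 p2
  have key : ∀ x : ℝ, |x| ≤ 3 / 10000 → |x| ≤ 1 ∧ (0 < k → |x| ≤ 3 / 10000) :=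
    fun x hx => ⟨by linarith, fun _ => hx⟩
  unfold Consts.lc
  split
  · exact ⟨abs_one.le, fun h => absurd h (lt_irrefl 0)⟩
  · exact ⟨abs_one.le, fun h => absurd h (lt_irrefl 0)⟩
  · exact key _ (by rw [neg_div, abs_neg, abs_of_nonneg p0]; linarith)
  · exact ⟨abs_one.le, fun h => absurd h (lt_irrefl 0)⟩
  · exact key _ (by rw [e1, abs_le]; constructor <;> linarith)
  · exact key _ (by rw [e2, abs_le]; constructor <;> linarith)
  · exact ⟨abs_one.le, fun h => absurd h (lt_irrefl 0)⟩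
  · exact key _ (by rw [e1, abs_le]; constructor <;> linarith)
  · exact key _ (by rw [mul_div_assoc, e2, abs_le]; constructor <;> linarith)
  · exact key _ (by rw [neg_div, e3, abs_le]; constructor <;> linarith)
  · exact key _ (by norm_num)

theorem pol_coeff (q : ℕ) (th : ℝ) : ∃ ε1 > 0, ∀ K : Consts, K.OK → K.q = q → K.th = th →
    K.ε ≤ ε1 → ∀ d : Fin 3 → ℝ, (∀ j, |d j| ≤ 1) → ∃ p0 p1 p2 p3 : ℝ, |p0| ≤ 1 / 1000 ∧
      |p1| ≤ 1 / 1000 ∧ |p2| ≤ 1 / 1000 ∧ |p3| ≤ 1 / 1000 ∧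
      ∀ X, K.Pol d X = p0 + p1 * X + p2 * X ^ 2 + p3 * X ^ 3 := by
  set K0 : Consts := ⟨q, th, 0, 0, 0, 0, 0⟩ with hK0
  set B : ℝ := ∑ j : Fin 3, (√(K0.hL j))⁻¹ with hB
  have hB0 : 0 ≤ B := Finset.sum_nonneg fun j _ => by positivity
  refine ⟨1 / (10000 * (1 + B)), by positivity, fun K hK hq hth hε d hd => ?_⟩
  have hh : ∀ j, K0.hL j = K.hL j := fun j => by
    subst hq hth
    rcases j with _ | _ | _ | _ | j <;> rfl
  simp only [hh] at hB
  have hεB : 2 * K.ε * B ≤ 2 / 10000 := by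
    rw [le_div_iff₀ (by positivity)] at hε
    nlinarith [hK.ε_pos]
  have hs : ∀ k, |∑ j : Fin 3, d j * (2 * K.ε * K.lc j k / √(K.hL j))| ≤ 2 / 10000 := fun k => by
    refine (Finset.abs_sum_le_sum_abs _ _).trans (le_trans ?_ hεB)
    rw [hB, Finset.mul_sum]
    refine Finset.sum_le_sum fun j _ => ?_
    have h1 := (lc_bounds hK j k).1
    have h2 := hK.ε_pos
    rw [abs_mul, abs_div, abs_mul, abs_of_pos (by positivity : 0 < 2 * K.ε),
      abs_of_nonneg (sqrt_nonneg _), div_eq_mul_inv]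
    calc |d j| * (2 * K.ε * |K.lc j k| * (√(K.hL j))⁻¹)
        ≤ 1 * (2 * K.ε * 1 * (√(K.hL j))⁻¹) := by gcongr; exact hd j
      _ = _ := by ring
  have ht : ∀ k, 0 < k → |K.lc 3 k + ∑ j : Fin 3, d j * (2 * K.ε * K.lc j k / √(K.hL j))| ≤
      1 / 1000 := fun k hk =>
    (abs_add_le _ _).trans (by linarith [hs k, (lc_bounds hK 3 k).2 hk])
  refine ⟨_, _, _, _, (hs 0).trans (by norm_num), ht 1 one_pos, ht 2 two_pos, ht 3 three_pos,
    fun X => ?_⟩
  have h30 : K.lc 3 0 = 1 := rfl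
  simp only [Consts.Pol, Lag_eq, Fin.sum_univ_three, h30]
  ring

/-- the substitution `X = φ ^ 2 / s` -/
theorem dm_subst {φ G : ℝ → ℝ} {s : ℝ} (hs : 0 < s) (hφ : ContDiff ℝ 1 φ) (h0 : φ 0 = 0)
    (h1 : φ (π / 2) = 1 / 2) (hG : Continuous G) (hG0 : ∀ X, 1 / (4 * s) ≤ X → G X = 0) :
    ∫ θ in (0 : ℝ)..(π / 2), G (φ θ ^ 2 / s) * deriv (fun x => φ x ^ 2 / s) θ =
      ∫ X in Ioi (0 : ℝ), G X := by
  have h2 : ContDiff ℝ 1 fun x => φ x ^ 2 / s := (hφ.pow 2).div_const s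
  have h3 := intervalIntegral.integral_comp_mul_deriv (a := 0) (b := π / 2)
    (f := fun x => φ x ^ 2 / s) (f' := deriv fun x => φ x ^ 2 / s) (g := G)
    (fun x _ => (h2.differentiable one_ne_zero x).hasDerivAt)
    (h2.continuous_deriv le_rfl).continuousOn hG
  simp only [Function.comp_apply, h0, h1] at h3
  have h4 : ((1 : ℝ) / 2) ^ 2 / s = 1 / (4 * s) := by field_simp; norm_num
  rw [h3, h4, show (0 : ℝ) ^ 2 / s = 0 by simp, intervalIntegral.integral_of_le (by positivity)]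
  symm
  refine setIntegral_eq_of_subset_of_forall_sdiff_eq_zero measurableSet_Ioi Ioc_subset_Ioi_self
    fun X hX => hG0 X ?_
  by_contra h
  exact hX.2 ⟨hX.1, (not_le.1 h).le⟩

theorem exists_grow_en (K : Consts) : ∃ B > 0, ∀ j < 4, Grow (fun X => X * K.en j X) B := by
  have h1 : ∀ j, ∃ B, Grow (fun X => X * K.en j X) B := fun j => by
    have h2 := ((((PG.pow (k := 1) (by norm_num)).const_mul (K.lc j 0)).add
      ((PG.pow (k := 2) (by norm_num)).const_mul (K.lc j 1))).add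
      ((PG.pow (k := 3) (by norm_num)).const_mul (K.lc j 2))).add
      ((PG.pow (k := 4) (by norm_num)).const_mul (K.lc j 3))
    obtain ⟨B, hB⟩ := (h2.const_mul (√(K.hL j))⁻¹).grow
    refine ⟨B, fun X hX => le_of_eq_of_le ?_ (hB X hX)⟩
    congr 1
    simp only [Consts.en, Lag_eq]
    ring
  choose B hB using h1
  refine ⟨1 + ∑ j ∈ Finset.range 4, B j, ?_, fun j hj => (hB j).mono ?_⟩
  · have : 0 ≤ ∑ j ∈ Finset.range 4, B j := Finset.sum_nonneg fun j _ => (hB j).nonneg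
    linarith
  · have := Finset.single_le_sum (fun j (_ : j ∈ Finset.range 4) => (hB j).nonneg)
      (Finset.mem_range.2 hj)
    linarith

theorem modes_of_close {K : Consts} (hK : K.OK) : ∃ τ > 0, ∀ᶠ s0 in 𝓝[>] (0 : ℝ),
    ∀ (S : Data) (d : Fin 3 → ℝ) (Dx : ℝ → ℝ), (∀ j, |d j| ≤ 1) → S.sg 0 = s0 →
      Continuous Dx → ContDiff ℝ 1 (fun θ => S.φ (θ, 0)) → S.φ (0, 0) = 0 →
      S.φ (π / 2, 0) = 1 / 2 → (∀ θ ∈ Icc 0 (π / 2), S.φ (θ, 0) ∈ Icc (0 : ℝ) (1 / 2)) →
      (∀ θ, S.D (θ, 0) = Dx (S.φ (θ, 0))) →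
      (∀ x ∈ Ioc (0 : ℝ) (1 / 2), |x ^ K.th * Dx x / s0 ^ 3 - K.am * (1 + K.Pol d (x ^ 2 / s0))| ≤
        K.am * τ * ((x ^ 2 / s0)⁻¹ + (x ^ 2 / s0) ^ 6)) →
      (∀ j : Fin 3, |S.md K j 0 - 2 * K.ε * K.am * d j| ≤ K.ε * K.am / 10) ∧
        |S.md K 3 0 - K.am * √(K.hL 3)| ≤ K.ε * K.am / 10 ∧
        S.Ep K 0 ≤ (K.ε * K.am / 10) ^ 2 := by
  obtain ⟨Cw, hCw, hnorm⟩ := exists_norm_bound hK
  obtain ⟨B, hB, hgrow⟩ := exists_grow_en K
  have hε := hK.ε_pos
  have ham := hK.am_pos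
  have hδ := hK.δ_pos
  set A := 2 * K.ε * K.am + K.am * √(K.hL 3) with hA
  have hA0 : 0 < A := by positivity
  refine ⟨K.ε / (40 * Cw), by positivity, ?_⟩
  have hev : ∀ᶠ s0 in 𝓝[>] (0 : ℝ), s0 ≤ K.ε * K.am * K.δ ^ 2 / (1280 * Cw * A * B) :=
    nhdsWithin_le_nhds (Iic_mem_nhds (by positivity))
  filter_upwards [hev, self_mem_nhdsWithin] with s hsm hs S d Dx hd hsg hDx hφ hφ0 hφ1 hφm hD hcl
  have hs : 0 < s := hs
  -- the coefficients
  set α : ℕ → ℝ := fun j => if h : j < 3 then 2 * K.ε * K.am * d ⟨j, h⟩ else K.am * √(K.hL 3)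
    with hα
  have hαle : ∀ j, |α j| ≤ A := fun j => by
    have h1 : 0 ≤ K.am * √(K.hL 3) := by positivity
    have h2 : 0 < 2 * K.ε * K.am := by positivity
    simp only [hα]
    split_ifs with h
    · rw [abs_mul, abs_of_pos h2]
      nlinarith [hd ⟨j, h⟩]
    · rw [abs_of_nonneg h1]; linarith
  set w : ℝ → ℝ := fun X => ∑ j ∈ Finset.range 4, α j * K.en j X with hw
  have hw_eq : ∀ X, K.am * (1 + K.Pol d X) = w X := fun X => by
    have h3 := (sqrt_pos.2 (hL_pos hK (j := 3) (by norm_num))).ne'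
    simp only [hw, hα, Finset.sum_range_succ, Finset.sum_range_zero, Consts.Pol, Consts.en,
      Fin.sum_univ_three]
    norm_num
    rw [show (⟨2, by norm_num⟩ : Fin 3) = 2 from rfl]
    field_simp
    ring
  have hwc : Continuous w := by
    refine continuous_finsetSum _ fun j _ => continuous_const.mul ?_
    exact continuous_const.mul (Lag_continuous K j)
  have hXw : Grow (fun X => X * w X) (4 * A * B) := fun X hX => by
    simp only [hw, Finset.mul_sum]
    refine (Finset.abs_sum_le_sum_abs _ _).trans ?_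
    calc ∑ j ∈ Finset.range 4, |X * (α j * K.en j X)|
        ≤ ∑ _j ∈ Finset.range 4, A * (B * ((X ^ 8)⁻¹ + X ^ 12)) := by
          refine Finset.sum_le_sum fun j hj => ?_
          rw [mul_left_comm, abs_mul]
          exact mul_le_mul (hαle j) (hgrow j (Finset.mem_range.1 hj) X hX) (abs_nonneg _) hA0.le
      _ = _ := by simp; ring
  -- the function of `X`
  set T : ℝ → ℝ := fun X => √(s * X) ^ K.th * Dx √(s * X) / s ^ 3 with hT
  set V : ℝ → ℝ := fun X => (1 - cut (4 * √(s * X) / K.δ)) * T X with hV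
  have hVc : Continuous V := by
    have h1 : Continuous fun X : ℝ => √(s * X) := by fun_prop
    exact (continuous_const.sub (dm_cut_cont.comp ((continuous_const.mul h1).div_const _))).mul
      ((((continuous_rpow_const hK.th_pos.le).comp h1).mul (hDx.comp h1)).div_const _)
  have hδ1 : K.δ ≤ 1 := by nlinarith [hK.δ_sq_le]
  have hcut1 : ∀ X, 1 / 2 ≤ √(s * X) → cut (4 * √(s * X) / K.δ) = 1 := fun X hX => by
    refine dm_cut_one ?_
    rw [le_div_iff₀ hδ]; linarith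
  have hV0 : ∀ X, 1 / (4 * s) ≤ X → V X = 0 := fun X hX => by
    have h1 : 1 / 2 ≤ √(s * X) := by
      refine le_sqrt_of_sq_le ?_
      rw [div_le_iff₀ (by positivity)] at hX
      nlinarith
    simp only [hV, hcut1 X h1, sub_self, zero_mul]
  have hint : ∀ G : ℝ → ℝ → ℝ, Continuous (fun X => G (V X) X) →
      (∀ X, G 0 X = 0) → ∫ θ in (0 : ℝ)..(π / 2),
        G (S.v K (θ, 0)) (S.X (θ, 0)) * K.wgt (S.X (θ, 0)) * d1 S.X (θ, 0) =
      K.W fun X => G (V X) X := fun G hG hG0 => by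
    rw [Consts.W, ← dm_subst (G := fun X => G (V X) X * K.wgt X) hs hφ hφ0 hφ1
      (hG.mul (wgt_continuous hK)) fun X hX => by simp only [hV0 X hX, hG0, zero_mul]]
    refine intervalIntegral.integral_congr fun θ hθ => ?_
    rw [uIcc_of_le (by positivity)] at hθ
    have h1 : √(s * (S.φ (θ, 0) ^ 2 / s)) = S.φ (θ, 0) := by
      rw [mul_div_cancel₀ _ hs.ne', sqrt_sq (hφm θ hθ).1]
    simp only [Data.v, Data.X, d1, hsg, hV, hT, h1, hD]
  have hmd : ∀ j, S.md K j 0 = K.pr j V := fun j => by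
    rw [Data.md, Consts.pr, ← hint (fun v X => v * K.Lag j X) (hVc.mul (Lag_continuous K j))
      fun X => zero_mul _]
  have hEp : S.Ep K 0 = K.st V := by
    rw [Data.Ep, Consts.st, Data.En, ← hint (fun v _ => v ^ 2) (hVc.pow 2) fun X => by simp]
    simp only [hmd]
  -- the remainder
  set r : ℝ → ℝ := fun X => V X - w X with hr
  have hrm : AEStronglyMeasurable r (volume.restrict (Ioi 0)) := (hVc.sub hwc).aestronglyMeasurable
  have hrg : Grow r (2 * (K.am * (K.ε / (40 * Cw))) + 16 * s / K.δ ^ 2 * (4 * A * B)) := by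
    intro X hX
    have hx : 0 < √(s * X) := sqrt_pos.2 (by positivity)
    have hx2 : √(s * X) ^ 2 / s = X := by
      rw [sq_sqrt (by positivity), mul_div_cancel_left₀ _ hs.ne']
    obtain ⟨c0, c1⟩ := dm_cut_mem (4 * √(s * X) / K.δ)
    have hg0 : 0 ≤ (X ^ 8)⁻¹ + X ^ 12 := by positivity
    have h1 : |(1 - cut (4 * √(s * X) / K.δ)) * (T X - w X)| ≤
        2 * (K.am * (K.ε / (40 * Cw))) * ((X ^ 8)⁻¹ + X ^ 12) := by
      rcases le_total (√(s * X)) (1 / 2) with h | h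
      · have h2 := hcl _ ⟨hx, h⟩
        rw [hx2, hw_eq] at h2
        have h3 := inv_pow_le_grow hX (k := 1) (by norm_num)
        have h4 := pow_le_grow hX (k := 6) (by norm_num)
        rw [pow_one] at h3
        rw [abs_mul, abs_of_nonneg (by linarith)]
        calc (1 - cut (4 * √(s * X) / K.δ)) * |T X - w X| ≤ 1 * |T X - w X| :=
              mul_le_mul_of_nonneg_right (by linarith) (abs_nonneg _)
          _ ≤ K.am * (K.ε / (40 * Cw)) * (X⁻¹ + X ^ 6) := by rw [one_mul]; exact h2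
          _ ≤ K.am * (K.ε / (40 * Cw)) * (2 * ((X ^ 8)⁻¹ + X ^ 12)) :=
              mul_le_mul_of_nonneg_left (by linarith) (by positivity)
          _ = _ := by ring
      · rw [hcut1 X h, sub_self, zero_mul, abs_zero]
        positivity
    have h2 : cut (4 * √(s * X) / K.δ) ≤ 16 * s / K.δ ^ 2 * X := by
      rcases le_total (4 * √(s * X) / K.δ) 1 with h | h
      · rw [dm_cut_zero h]; positivity
      · calc cut (4 * √(s * X) / K.δ) ≤ (4 * √(s * X) / K.δ) ^ 2 := c1.trans (one_le_pow₀ h)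
          _ = _ := by rw [div_pow, mul_pow, sq_sqrt (by positivity)]; ring
    have h3 : |cut (4 * √(s * X) / K.δ) * w X| ≤
        16 * s / K.δ ^ 2 * (4 * A * B) * ((X ^ 8)⁻¹ + X ^ 12) := by
      have h4 := hXw X hX
      rw [abs_mul, abs_of_pos hX] at h4
      rw [abs_mul, abs_of_nonneg c0]
      calc cut (4 * √(s * X) / K.δ) * |w X| ≤ 16 * s / K.δ ^ 2 * X * |w X| :=
            mul_le_mul_of_nonneg_right h2 (abs_nonneg _)
        _ = 16 * s / K.δ ^ 2 * (X * |w X|) := by ring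
        _ ≤ 16 * s / K.δ ^ 2 * (4 * A * B * ((X ^ 8)⁻¹ + X ^ 12)) :=
            mul_le_mul_of_nonneg_left h4 (by positivity)
        _ = _ := by ring
    have h4 : r X = (1 - cut (4 * √(s * X) / K.δ)) * (T X - w X)
        - cut (4 * √(s * X) / K.δ) * w X := by simp only [hr, hV]; ring
    rw [h4, add_mul]
    exact (abs_sub _ _).trans (add_le_add h1 h3)
  have hrp : PG r := ⟨hrm, _, hrg⟩
  have hη : Cw * (2 * (K.am * (K.ε / (40 * Cw))) + 16 * s / K.δ ^ 2 * (4 * A * B)) ≤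
      K.ε * K.am / 10 := by
    have h1 : Cw * (2 * (K.am * (K.ε / (40 * Cw)))) = K.ε * K.am / 20 := by field_simp; ring
    have h2 : Cw * (16 * s / K.δ ^ 2 * (4 * A * B)) ≤ K.ε * K.am / 20 := by
      rw [le_div_iff₀ (by positivity)] at hsm
      have : Cw * (16 * s / K.δ ^ 2 * (4 * A * B)) = s * (1280 * Cw * A * B) / (20 * K.δ ^ 2) := by
        field_simp; ring
      rw [this, div_le_div_iff₀ (by positivity) (by norm_num)]
      linarith
    linarith [mul_add Cw (2 * (K.am * (K.ε / (40 * Cw)))) (16 * s / K.δ ^ 2 * (4 * A * B))]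
  have hrr : K.ip r r ≤ (K.ε * K.am / 10) ^ 2 :=
    (hnorm r _ hrm hrg).trans (pow_le_pow_left₀ (mul_nonneg hCw.le hrg.nonneg) hη 2)
  have hVe : V = fun X => w X + r X := by funext X; simp only [hr]; ring
  have hpr : ∀ j < 4, |S.md K j 0 - α j| ≤ K.ε * K.am / 10 := fun j hj => by
    rw [hmd, hVe, pr_add hK j (PG.comb K α) hrp, pr_comb hK α hj, add_sub_cancel_left]
    exact abs_le.2 (abs_le_of_sq_le_sq' ((pr_sq_le hK hrp hj).trans hrr) (by positivity))
  refine ⟨fun j => ?_, ?_, ?_⟩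
  · have := hpr j (by omega)
    simpa only [hα, j.2, dif_pos] using this
  · simpa [hα] using hpr 3 (by norm_num)
  · rw [hEp, hVe, st_comb_add hK α hrp]
    exact (st_le K r).trans hrr

end Vale.Agent.P244Z.Q
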