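import Vale.Agent.P244Z.QDat0
import Mathlib.Analysis.Calculus.ContDiff.Operations
import Mathlib.Analysis.Calculus.ContDiff.Deriv
import Mathlib.Analysis.Calculus.Deriv.Inverse
import Mathlib.Analysis.Calculus.Deriv.MeanValue
import Mathlib.Analysis.SpecialFunctions.Trigonometric.Deriv
import Mathlib.MeasureTheory.Integral.IntervalIntegral.FundThmCalculus
import Mathlib.Topology.Order.MonotoneContinuity

/-!
# P244, initial data: the arclength parametrisation

Given an even smooth positive `z` with `z 0 = 1`, we construct the solution `φ` of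
`φ_s^2 = z(φ) (1 - 4 φ^2)` oscillating between `-1/2` and `1/2`.
-/

open Set Real
open scoped ContDiff

namespace Vale.Agent.P244Z.Q

/-- The inverse of a primitive of a smooth function that is bounded below. -/
theorem exists_inverse {g : ℝ → ℝ} (hg : ContDiff ℝ ∞ g) {m : ℝ} (hm : 0 < m)
    (hge : ∀ x, m ≤ g x) :
    ∃ S T : ℝ → ℝ, S 0 = 0 ∧ (∀ x, HasDerivAt S (g x) x) ∧ StrictMono S ∧ (∀ x, T (S x) = x) ∧
      (∀ y, S (T y) = y) ∧ ContDiff ℝ ∞ T ∧ ∀ y, HasDerivAt T (g (T y))⁻¹ y := by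
  have hpos : ∀ x, 0 < g x := fun x => lt_of_lt_of_le hm (hge x)
  set S : ℝ → ℝ := fun x => ∫ t in (0 : ℝ)..x, g t with hS
  have hS' : ∀ x, HasDerivAt S (g x) x := fun x =>
    (hg.continuous.integral_hasStrictDerivAt 0 x).hasDerivAt
  have hS0 : S 0 = 0 := by simp [hS]
  have hdiff : Differentiable ℝ S := fun x => (hS' x).differentiableAt
  have hmono : StrictMono S := strictMono_of_deriv_pos fun x => by rw [(hS' x).deriv]; exact hpos x
  have hsm : ContDiff ℝ ∞ S := by
    rw [contDiff_infty_iff_deriv]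
    refine ⟨hdiff, ?_⟩
    have : deriv S = g := funext fun x => (hS' x).deriv
    rw [this]; exact hg
  have hm2 : Monotone fun x => S x - m * x := by
    refine monotone_of_deriv_nonneg (by fun_prop) fun x => ?_
    have h1 : HasDerivAt (fun x => S x - m * x) (g x - m * 1) x :=
      (hS' x).sub ((hasDerivAt_id x).const_mul m)
    rw [h1.deriv]; linarith [hge x]
  have hsurj : Function.Surjective S := by
    intro y
    have h0 : 0 ≤ |y| / m := by positivity
    have h3 : m * (|y| / m) = |y| := by field_simp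
    have h1 : S (-(|y| / m)) ≤ y := by
      have := hm2 (show -(|y| / m) ≤ 0 by linarith)
      simp only [hS0, mul_neg, h3] at this
      linarith [neg_abs_le y]
    have h2 : y ≤ S (|y| / m) := by
      have := hm2 h0
      simp only [hS0, h3] at this
      linarith [le_abs_self y]
    exact mem_range_of_exists_le_of_exists_ge hdiff.continuous ⟨_, h1⟩ ⟨_, h2⟩
  let e : ℝ ≃ₜ ℝ := (hmono.orderIsoOfSurjective S hsurj).toHomeomorph
  have he : (e : ℝ → ℝ) = S := rfl
  refine ⟨S, e.symm, hS0, hS', hmono, fun x => e.symm_apply_apply x, fun y => e.apply_symm_apply y,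
    e.contDiff_symm_deriv (fun x => (hpos x).ne') hS' hsm, fun y => ?_⟩
  exact HasDerivAt.of_local_left_inverse e.symm.continuous.continuousAt (hS' _) (hpos _).ne'
    (Filter.Eventually.of_forall fun y => e.apply_symm_apply y)

theorem exists_prof {z : ℝ → ℝ} (hz : ContDiff ℝ ∞ z) (he : ∀ x, z (-x) = z x)
    (hpos : ∀ x, 0 < z x) (h0 : z 0 = 1) : ∃ l0 φ0 A0, Prof z l0 φ0 A0 := by
  obtain ⟨B, hB⟩ := (isCompact_Icc (a := (-1 : ℝ)) (b := 1)).exists_bound_of_continuousOn
    hz.continuous.continuousOn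
  have hB1 : 1 ≤ B := by simpa [h0] using hB 0 (by norm_num)
  have hsq : ∀ x, 0 < √(z x) := fun x => sqrt_pos.2 (hpos x)
  set g : ℝ → ℝ := fun τ => (2 * √(z (sin τ / 2)))⁻¹ with hg
  have hgs : ContDiff ℝ ∞ g := by
    have h1 : ContDiff ℝ ∞ fun τ : ℝ => z (sin τ / 2) := hz.comp (contDiff_sin.div_const 2)
    exact (contDiff_const.mul (h1.sqrt fun τ => (hpos _).ne')).inv fun τ =>
      (mul_pos two_pos (hsq _)).ne'
  have hgge : ∀ τ, (2 * √B)⁻¹ ≤ g τ := fun τ => by
    have h2 := hB (sin τ / 2) ⟨by linarith [neg_one_le_sin τ], by linarith [sin_le_one τ]⟩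
    have h1 : √(z (sin τ / 2)) ≤ √B := sqrt_le_sqrt ((le_abs_self _).trans h2)
    exact inv_anti₀ (mul_pos two_pos (hsq _)) (by linarith)
  obtain ⟨S, T, hS0, hS', hmono, hTS, hST, hT, hT'⟩ :=
    exists_inverse hgs (m := (2 * √B)⁻¹) (by positivity) hgge
  have hodd : ∀ τ, S (-τ) = -S τ := by
    have h1 : ∀ τ, HasDerivAt (fun τ => S (-τ) + S τ) 0 τ := fun τ => by
      have h2 := ((hS' (-τ)).comp τ (hasDerivAt_neg τ)).add (hS' τ)
      refine h2.congr_deriv ?_
      simp only [hg, sin_neg, neg_div, he]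
      ring
    intro τ
    have := is_const_of_deriv_eq_zero (fun τ => (h1 τ).differentiableAt) (fun τ => (h1 τ).deriv) τ 0
    simp only [neg_zero, hS0] at this
    linarith
  have hsym : ∀ τ, S (π - τ) = S π - S τ := by
    have h1 : ∀ τ, HasDerivAt (fun τ => S (π - τ) + S τ) 0 τ := fun τ => by
      have h2 := ((hS' (π - τ)).comp τ ((hasDerivAt_id τ).const_sub π)).add (hS' τ)
      refine h2.congr_deriv ?_
      simp only [hg, sin_pi_sub]
      ring
    intro τ
    have := is_const_of_deriv_eq_zero (fun τ => (h1 τ).differentiableAt) (fun τ => (h1 τ).deriv) τ 0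
    simp only [sub_zero, hS0] at this
    linarith
  have hL : 0 < S π := by rw [← hS0]; exact hmono pi_pos
  set l0 := S π / π with hl0
  have hl : 0 < l0 := div_pos hL pi_pos
  have hlπ : l0 * π = S π := div_mul_cancel₀ _ pi_pos.ne'
  have hT0 : T 0 = 0 := by simpa [hS0] using hTS 0
  have hTodd : ∀ y, T (-y) = -T y := fun y => by
    have : -y = S (-T y) := by rw [hodd, hST]
    rw [this, hTS]
  have hTsym : ∀ y, T (S π - y) = π - T y := fun y => by
    have : S π - y = S (π - T y) := by rw [hsym, hST]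
    rw [this, hTS]
  have hτ : ∀ θ, HasDerivAt (fun θ => T (l0 * θ)) (2 * √(z (sin (T (l0 * θ)) / 2)) * l0) θ :=
    fun θ => by
    have h1 := (hT' (l0 * θ)).comp θ ((hasDerivAt_id θ).const_mul l0)
    refine h1.congr_deriv ?_
    simp only [hg, inv_inv, mul_one]
  have hφ : ∀ θ, HasDerivAt (fun θ => sin (T (l0 * θ)) / 2)
      (l0 * (cos (T (l0 * θ)) * √(z (sin (T (l0 * θ)) / 2)))) θ := fun θ => by
    refine ((hτ θ).sin.div_const 2).congr_deriv ?_
    ring
  refine ⟨l0, fun θ => sin (T (l0 * θ)) / 2,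
    fun θ => cos (T (l0 * θ)) * √(z (sin (T (l0 * θ)) / 2)), hl, ?_, ?_, ?_, ?_, ?_, ?_, ?_,
    hφ, ?_, ?_⟩
  · exact (contDiff_sin.comp (hT.comp (contDiff_const.mul contDiff_id))).div_const 2
  · intro θ
    simp only [mul_neg, hTodd, sin_neg, neg_div]
  · intro θ
    simp only [mul_sub, hlπ, hTsym, sin_pi_sub]
  · intro θ hθ
    have h1 : 0 < T (l0 * θ) := by
      rw [← hmono.lt_iff_lt, hST, hS0]; exact mul_pos hl hθ.1
    have h2 : T (l0 * θ) < π := by
      rw [← hmono.lt_iff_lt, hST, ← hlπ]; exact mul_lt_mul_of_pos_left hθ.2 hl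
    exact div_pos (sin_pos_of_pos_of_lt_pi h1 h2) two_pos
  · intro θ
    exact div_le_div_of_nonneg_right (sin_le_one _) two_pos.le
  · have h1 : l0 * (π / 2) = S (π / 2) := by
      have := hsym (π / 2)
      rw [show π - π / 2 = π / 2 by ring] at this
      linarith
    simp only [h1, hTS, sin_pi_div_two]
  · simp [hT0, h0]
  · intro θ
    have h1 : HasDerivAt (fun θ => z (sin (T (l0 * θ)) / 2))
        (deriv z (sin (T (l0 * θ)) / 2) *
          (l0 * (cos (T (l0 * θ)) * √(z (sin (T (l0 * θ)) / 2))))) θ :=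
      ((hz.differentiable (by simp) _).hasDerivAt).comp θ (hφ θ)
    refine ((hτ θ).cos.mul (h1.sqrt (hpos _).ne')).congr_deriv ?_
    have h2 := hsq (sin (T (l0 * θ)) / 2)
    have h3 := mul_self_sqrt (hpos (sin (T (l0 * θ)) / 2)).le
    have h4 := cos_sq' (T (l0 * θ))
    set w := √(z (sin (T (l0 * θ)) / 2))
    rw [← h3]
    field_simp
    rw [h4]
    ring
  · intro θ
    rw [mul_pow, sq_sqrt (hpos _).le, cos_sq']
    ring

end Vale.Agent.P244Z.Q
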