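import Vale.Agent.P244Z.QJets

/-!
# P244, large `q` design, step 3: the gradient bound

`P^2 + 6 q E^2 ≤ 4400 q a^2 (F1^2 + F2^2)` by the maximum principle, and `|P| ≤ 2`.
-/

open Set Real Filter Topology
open scoped ContDiff

namespace Vale.Agent.P244Z.Q

namespace GradAux

theorem uniqueDiff {J : Set ℝ} (hJ : TimeSet J) : UniqueDiffOn ℝ J := by
  have hc : Convex ℝ J := by
    refine Set.OrdConnected.convex ⟨fun x hx y hy z hz => ?_⟩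
    exact hJ.down y hy ⟨(hJ.nonneg x hx).trans hz.1, hz.2⟩
  obtain ⟨t, ht, h0⟩ := hJ.up 0 hJ.zero_mem
  refine uniqueDiffOn_convex hc ⟨t / 2, ?_⟩
  refine mem_interior_iff_mem_nhds.2 (mem_of_superset (Icc_mem_nhds ?_ ?_) (hJ.down t ht)) <;>
    linarith

theorem cont_d1 {J : Set ℝ} (hJ : TimeSet J) {F : ℝ × ℝ → ℝ}
    (hF : ContDiffOn ℝ ∞ F (univ ×ˢ J)) : ContinuousOn (d1 F) (univ ×ˢ J) := by
  have hu : UniqueDiffOn ℝ ((univ : Set ℝ) ×ˢ J) := uniqueDiffOn_univ.prod (uniqueDiff hJ)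
  have h1 : ContinuousOn (fun p => fderivWithin ℝ F (univ ×ˢ J) p (1, 0)) (univ ×ˢ J) :=
    (hF.continuousOn_fderivWithin hu (by simp)).clm_apply continuousOn_const
  refine h1.congr fun p hp => ?_
  have h2 : HasFDerivWithinAt F (fderivWithin ℝ F (univ ×ˢ J) p) (univ ×ˢ J) (p.1, p.2) :=
    ((hF.differentiableOn (by simp)) p hp).hasFDerivWithinAt
  have h3 : HasDerivWithinAt (fun x : ℝ => (x, p.2)) ((1 : ℝ), (0 : ℝ)) univ p.1 :=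
    ((hasDerivAt_id p.1).prodMk (hasDerivAt_const p.1 p.2)).hasDerivWithinAt
  have h4 := h2.comp_hasDerivWithinAt p.1 h3 (fun x _ => mk_mem_prod (mem_univ x) hp.2)
  exact (hasDerivWithinAt_univ.1 h4).deriv

variable {S : Data} {J : Set ℝ} {K : Consts} {t1 : ℝ} {p : ℝ × ℝ}

theorem cstrip_sub (hS : Sol S J) (ht : t1 ∈ J) : cstrip t1 ⊆ univ ×ˢ J :=
  fun _ hp => ⟨mem_univ _, hS.time.down t1 ht hp.2⟩

theorem cont_Ds (hS : Sol S J) {F : ℝ × ℝ → ℝ} (hF : ContDiffOn ℝ ∞ F (univ ×ˢ J)) :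
    ContinuousOn (S.Ds F) (univ ×ˢ J) :=
  (cont_d1 hS.time hF).div
    (hS.sm_l.continuousOn.comp continuousOn_snd fun _ hp => hp.2)
    fun p hp => (hS.l_pos p.2 hp.2).ne'

theorem ρ_pos (hq : 2 ≤ S.q) (p : ℝ × ℝ) : 0 < S.ρ p := by
  have : (2 : ℝ) ≤ S.q := by exact_mod_cast hq
  exact mul_pos (Real.sqrt_pos.2 (by linarith)) (exp_pos _)

theorem cont_ρ (hS : Sol S J) : ContinuousOn S.ρ (univ ×ˢ J) :=
  continuousOn_const.mul hS.sm_u.continuousOn.rexp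

theorem cont_σ (hS : Sol S J) : ContinuousOn S.σ (univ ×ˢ J) :=
  hS.sm_sg.continuousOn.comp continuousOn_snd fun _ hp => hp.2

theorem cont_P (hS : Sol S J) : ContinuousOn S.P (univ ×ˢ J) :=
  (hS.sm_φ.continuousOn.mul (cont_Ds hS hS.sm_u)).sub (cont_Ds hS hS.sm_φ)

theorem cont_E (hS : Sol S J) (hq : 2 ≤ S.q) : ContinuousOn S.E (univ ×ˢ J) :=
  continuousOn_const.sub ((hS.sm_φ.continuousOn.pow 2).div ((cont_ρ hS).pow 2)
    fun p _ => (pow_pos (ρ_pos hq p) 2).ne')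

theorem lam_pos (hK : K.OK) : 1 ≤ K.lam ∧ K.lam ≤ 2 := by
  have h1 : (10000 : ℝ) ≤ K.q := by exact_mod_cast hK.q_ge
  have h2 : K.th ≤ 1 := hK.th_le.trans (by rw [div_le_one (by linarith)]; linarith)
  have := hK.th_pos
  unfold Consts.lam
  constructor <;> linarith

theorem cont_F1 (hS : Sol S J) (hq : 2 ≤ S.q) (hK : K.OK) : ContinuousOn (S.F1 K) (univ ×ˢ J) :=
  ((cont_σ hS).rpow_const fun _ _ => Or.inr (by have := (lam_pos hK).1; linarith)).mul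
    ((cont_ρ hS).rpow_const fun p _ => Or.inl (ρ_pos hq p).ne')

theorem cont_F2 (hS : Sol S J) (hq : 2 ≤ S.q) : ContinuousOn (S.F2 K) (univ ×ˢ J) :=
  (cont_ρ hS).rpow_const fun p _ => Or.inl (ρ_pos hq p).ne'

/-- where `σ ≤ ρ^2`, `F1^2 / σ ≤ F2^2 / ρ^2` -/
theorem F1_sq_div (hK : K.OK) (hσ : 0 < S.σ p) (hρ : 0 < S.ρ p) :
    S.F1 K p ^ 2 / S.σ p ≤ (S.F1 K p ^ 2 + S.F2 K p ^ 2) / S.ρ p ^ 2 := by
  have hρ2 : 0 < S.ρ p ^ 2 := by positivity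
  rcases le_total (S.ρ p ^ 2) (S.σ p) with h | h
  · calc S.F1 K p ^ 2 / S.σ p ≤ S.F1 K p ^ 2 / S.ρ p ^ 2 :=
          div_le_div_of_nonneg_left (sq_nonneg _) hρ2 h
      _ ≤ _ := div_le_div_of_nonneg_right (by nlinarith [sq_nonneg (S.F2 K p)]) hρ2.le
  · have hl := (lam_pos hK).1
    have e1 : S.F1 K p ^ 2 / S.σ p = S.σ p ^ (2 * K.lam + 21 / 20) * S.ρ p ^ (-41 / 10 : ℝ) := by
      unfold Data.F1
      rw [mul_pow, ← rpow_natCast, ← rpow_natCast, ← rpow_mul hσ.le, ← rpow_mul hρ.le,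
        show 2 * K.lam + 21 / 20 = (K.lam + 41 / 40) * ((2 : ℕ) : ℝ) - 1 by push_cast; ring,
        rpow_sub_one hσ.ne']
      push_cast
      rw [show (-41 / 20 : ℝ) * 2 = -41 / 10 by norm_num]
      ring
    have e2 : S.F2 K p ^ 2 / S.ρ p ^ 2
        = (S.ρ p ^ 2) ^ (2 * K.lam + 21 / 20) * S.ρ p ^ (-41 / 10 : ℝ) := by
      unfold Data.F2
      rw [← rpow_natCast (S.ρ p ^ (2 * K.lam)), ← rpow_natCast (S.ρ p) 2, ← rpow_mul hρ.le,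
        ← rpow_mul hρ.le, ← rpow_add hρ, ← rpow_sub hρ]
      congr 1
      push_cast
      ring
    calc S.F1 K p ^ 2 / S.σ p ≤ S.F2 K p ^ 2 / S.ρ p ^ 2 := by
          rw [e1, e2]
          exact mul_le_mul_of_nonneg_right (rpow_le_rpow hσ.le h (by linarith))
            (rpow_nonneg hρ.le _)
      _ ≤ _ := div_le_div_of_nonneg_right (by nlinarith [sq_nonneg (S.F1 K p)]) hρ2.le

theorem F1_le_F2 (hK : K.OK) (hσ : 0 < S.σ p) (hρ : 0 < S.ρ p) (h : S.σ p ≤ S.ρ p ^ 2) :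
    S.F1 K p ≤ S.F2 K p := by
  have hl := (lam_pos hK).1
  have e2 : S.F2 K p = (S.ρ p ^ 2) ^ (K.lam + 41 / 40) * S.ρ p ^ (-41 / 20 : ℝ) := by
    unfold Data.F2
    rw [← rpow_natCast (S.ρ p) 2, ← rpow_mul hρ.le, ← rpow_add hρ]
    congr 1
    push_cast
    ring
  rw [e2]
  exact mul_le_mul_of_nonneg_right (rpow_le_rpow hσ.le h (by linarith)) (rpow_nonneg hρ.le _)

/-- the estimate of the heat operator of `P^2 + 6 q E^2`, times `φ^2` -/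
theorem ineq_Phi {q A P E s x y : ℝ} (hq : 10000 ≤ q) (hA : |A| ≤ 1) (hE1 : -(1 / 10) ≤ E)
    (hE2 : E ≤ 1 / 4) :
    -4 * A * P * s - 2 * s ^ 2 + 2 * P ^ 2 * ((q - 1) * (1 - A ^ 2 - 2 * E) - 2 * x ^ 2)
      - 4 * (q - 1) * A * E * P
      + 6 * q * (4 * (q - 1) * E ^ 2 * (1 - E) + 8 * E * P ^ 2 * (1 - E) - 8 * (1 - E) ^ 2 * P ^ 2)
      + y ≤ -12 * q * (P ^ 2 + 6 * q * E ^ 2) + 99 * q ^ 2 * E ^ 2 + y := by
  have hA2 : A ^ 2 ≤ 1 := by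
    have := abs_le.1 hA
    nlinarith
  have hP := sq_nonneg P
  have hE := sq_nonneg E
  have h1 : -4 * A * P * s - 2 * s ^ 2 ≤ 2 * P ^ 2 := by
    nlinarith [sq_nonneg (s + A * P), mul_le_mul_of_nonneg_right hA2 hP]
  have h2 : 2 * P ^ 2 * ((q - 1) * (1 - A ^ 2 - 2 * E) - 2 * x ^ 2) ≤ 12 / 5 * q * P ^ 2 := by
    have : (q - 1) * (1 - A ^ 2 - 2 * E) - 2 * x ^ 2 ≤ 6 / 5 * q := by
      have : (q - 1) * (1 - A ^ 2 - 2 * E) ≤ (q - 1) * (6 / 5) :=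
        mul_le_mul_of_nonneg_left (by nlinarith [sq_nonneg A]) (by linarith)
      nlinarith [sq_nonneg x]
    nlinarith
  have h3 : -(4 * (q - 1) * A * E * P) ≤ 2 * q * P ^ 2 + 2 * q * E ^ 2 := by
    have h31 : -(2 * A * E * P) ≤ P ^ 2 + E ^ 2 := by
      nlinarith [sq_nonneg (P + A * E), mul_le_mul_of_nonneg_right hA2 hE]
    have : (q - 1) * (-(2 * A * E * P)) ≤ (q - 1) * (P ^ 2 + E ^ 2) :=
      mul_le_mul_of_nonneg_left h31 (by linarith)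
    nlinarith
  have h4 : 4 * (q - 1) * E ^ 2 * (1 - E) ≤ 22 / 5 * q * E ^ 2 := by
    have : (q - 1) * (1 - E) ≤ 11 / 10 * q := by nlinarith
    nlinarith
  have h5 : 8 * E * P ^ 2 * (1 - E) - 8 * (1 - E) ^ 2 * P ^ 2 ≤ -3 * P ^ 2 := by
    have : 3 / 8 ≤ (1 - E) * (1 - 2 * E) := by nlinarith
    nlinarith
  have h6 : 6 * q * (4 * (q - 1) * E ^ 2 * (1 - E) + 8 * E * P ^ 2 * (1 - E)
      - 8 * (1 - E) ^ 2 * P ^ 2) ≤ 6 * q * (22 / 5 * q * E ^ 2 - 3 * P ^ 2) :=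
    mul_le_mul_of_nonneg_left (by linarith) (by linarith)
  have h7 : 2 * P ^ 2 ≤ q * P ^ 2 := mul_le_mul_of_nonneg_right (by linarith) hP
  have h8 : 2 * q * E ^ 2 ≤ 1 / 2 * q ^ 2 * E ^ 2 :=
    mul_le_mul_of_nonneg_right (by nlinarith) hE
  have h9 : 0 ≤ q * P ^ 2 := by positivity
  have h10 : 0 ≤ q ^ 2 * E ^ 2 := by positivity
  nlinarith

/-- the estimate of the heat operator of `F1^2 + F2^2`, times `φ^2` -/
theorem ineq_B {q l e x f1 f2 w : ℝ} (hq : 10000 ≤ q) (hl1 : 1 ≤ l) (hl2 : l ≤ 2) (he0 : 0 ≤ e)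
    (he : e ≤ 11 / 10) (hx : x ^ 2 ≤ 16) (hw0 : 0 ≤ w) (hw : w ≤ e * (f1 ^ 2 + f2 ^ 2)) :
    -9 * q * (f1 ^ 2 + f2 ^ 2) ≤
      (41 / 10 * (q - 1) * e - (41 / 10) ^ 2 * x ^ 2) * f1 ^ 2 - (2 * l + 41 / 20) * w
        + (-4 * l * (q - 1) * e - 16 * l ^ 2 * x ^ 2) * f2 ^ 2 := by
  have h1 := sq_nonneg f1
  have h2 := sq_nonneg f2
  have hx0 := sq_nonneg x
  have a1 : -269 ≤ 41 / 10 * (q - 1) * e - (41 / 10) ^ 2 * x ^ 2 := by
    have : 0 ≤ (q - 1) * e := mul_nonneg (by linarith) he0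
    nlinarith
  have a2 : (2 * l + 41 / 20) * w ≤ 7 * (f1 ^ 2 + f2 ^ 2) := by
    have : e * (f1 ^ 2 + f2 ^ 2) ≤ 11 / 10 * (f1 ^ 2 + f2 ^ 2) :=
      mul_le_mul_of_nonneg_right he (by positivity)
    have : (2 * l + 41 / 20) * w ≤ (121 / 20) * w := mul_le_mul_of_nonneg_right (by linarith) hw0
    nlinarith
  have a3 : -(44 / 5 * q + 1024) ≤ -4 * l * (q - 1) * e - 16 * l ^ 2 * x ^ 2 := by
    have b1 : (q - 1) * e ≤ 11 / 10 * q := by nlinarith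
    have b2 : l * ((q - 1) * e) ≤ 2 * (11 / 10 * q) :=
      mul_le_mul hl2 b1 (mul_nonneg (by linarith) he0) (by norm_num)
    have b3 : l ^ 2 * x ^ 2 ≤ 4 * 16 := mul_le_mul (by nlinarith) hx hx0 (by norm_num)
    nlinarith
  have a4 := mul_le_mul_of_nonneg_right a1 h1
  have a5 := mul_le_mul_of_nonneg_right a3 h2
  have a6 : 10000 * f1 ^ 2 ≤ q * f1 ^ 2 := mul_le_mul_of_nonneg_right hq h1
  have a7 : 10000 * f2 ^ 2 ≤ q * f2 ^ 2 := mul_le_mul_of_nonneg_right hq h2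
  nlinarith

/-- the whole estimate, times `φ^2` -/
theorem ineq_all {q l a A P E s x f1 f2 w : ℝ} (hq : 10000 ≤ q) (hl1 : 1 ≤ l) (hl2 : l ≤ 2)
    (hA : |A| ≤ 1) (hP3 : |P| ≤ 3) (hE : |E| ≤ 2 * 2 * a * (f1 + f2)) (hEl : -(1 / 10) ≤ E)
    (hx : x = P + A) (hw0 : 0 ≤ w) (hw : w ≤ (1 - E) * (f1 ^ 2 + f2 ^ 2))
    (hf : 0 < P ^ 2 + 6 * q * E ^ 2 - 4400 * q * a ^ 2 * (f1 ^ 2 + f2 ^ 2)) :
    (-4 * A * P * s - 2 * s ^ 2
      + 2 * P ^ 2 * ((q - 1) * (1 - A ^ 2 - 2 * E) - 2 * x ^ 2)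
      - 4 * (q - 1) * A * E * P
      + 6 * q * (4 * (q - 1) * E ^ 2 * (1 - E) + 8 * E * P ^ 2 * (1 - E) - 8 * (1 - E) ^ 2 * P ^ 2)
      + 0) - 4400 * q * a ^ 2 * ((41 / 10 * (q - 1) * (1 - E) - (41 / 10) ^ 2 * x ^ 2) * f1 ^ 2
        - (2 * l + 41 / 20) * w
        + (-4 * l * (q - 1) * (1 - E) - 16 * l ^ 2 * x ^ 2) * f2 ^ 2) ≤ 0 := by
  have hE2 : E ^ 2 ≤ 32 * a ^ 2 * (f1 ^ 2 + f2 ^ 2) := by
    have h2 := sq_le_sq' (abs_le.1 hE).1 (abs_le.1 hE).2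
    nlinarith [mul_nonneg (sq_nonneg a) (sq_nonneg (f1 - f2))]
  have hP2 : P ^ 2 ≤ 9 := by have := abs_le.1 hP3; nlinarith
  have hFF : 0 ≤ a ^ 2 * (f1 ^ 2 + f2 ^ 2) := by positivity
  have hE4 : E ≤ 1 / 4 := by
    by_contra hc
    push Not at hc
    have h1 : P ^ 2 ≤ 144 * E ^ 2 := by nlinarith
    have h2 : (144 + 6 * q) * E ^ 2 ≤ (144 + 6 * q) * (32 * a ^ 2 * (f1 ^ 2 + f2 ^ 2)) :=
      mul_le_mul_of_nonneg_left hE2 (by linarith)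
    have h3 : 10000 * (a ^ 2 * (f1 ^ 2 + f2 ^ 2)) ≤ q * (a ^ 2 * (f1 ^ 2 + f2 ^ 2)) :=
      mul_le_mul_of_nonneg_right hq hFF
    linarith
  have hx2 : x ^ 2 ≤ 16 := by
    have := abs_le.1 hP3
    have := abs_le.1 hA
    rw [hx]; nlinarith
  have i1 := ineq_Phi (q := q) (P := P) (s := s) (x := x) (y := 0) hq hA hEl hE4
  have i2 := ineq_B (e := 1 - E) hq hl1 hl2 (by linarith) (by linarith) hx2 hw0 hw
  have hq0 : 0 ≤ q := by linarith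
  have hc : 0 ≤ 4400 * q * a ^ 2 := by positivity
  have i3 := mul_le_mul_of_nonneg_left i2 hc
  have i4 : 99 * q ^ 2 * E ^ 2 ≤ 99 * q ^ 2 * (32 * a ^ 2 * (f1 ^ 2 + f2 ^ 2)) :=
    mul_le_mul_of_nonneg_left hE2 (by positivity)
  have i5 : 12 * q * (4400 * q * a ^ 2 * (f1 ^ 2 + f2 ^ 2)) ≤ 12 * q * (P ^ 2 + 6 * q * E ^ 2) :=
    mul_le_mul_of_nonneg_left (by linarith) (by positivity)
  have i6 : 0 ≤ q ^ 2 * (a ^ 2 * (f1 ^ 2 + f2 ^ 2)) := by positivity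
  have i7 : 4400 * q * a ^ 2 * (-9 * q * (f1 ^ 2 + f2 ^ 2))
      = -39600 * (q ^ 2 * (a ^ 2 * (f1 ^ 2 + f2 ^ 2))) := by ring
  have i8 : 99 * q ^ 2 * (32 * a ^ 2 * (f1 ^ 2 + f2 ^ 2))
      = 3168 * (q ^ 2 * (a ^ 2 * (f1 ^ 2 + f2 ^ 2))) := by ring
  have i9 : 12 * q * (4400 * q * a ^ 2 * (f1 ^ 2 + f2 ^ 2))
      = 52800 * (q ^ 2 * (a ^ 2 * (f1 ^ 2 + f2 ^ 2))) := by ring
  rw [i7] at i3
  rw [i8] at i4
  rw [i9] at i5
  have i10 : -12 * q * (P ^ 2 + 6 * q * E ^ 2) = -(12 * q * (P ^ 2 + 6 * q * E ^ 2)) := by ring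
  rw [i10] at i1
  refine sub_nonpos.2 (i1.trans (le_trans ?_ i3))
  generalize q ^ 2 * (a ^ 2 * (f1 ^ 2 + f2 ^ 2)) = u at *
  generalize 12 * q * (P ^ 2 + 6 * q * E ^ 2) = v at *
  generalize 99 * q ^ 2 * E ^ 2 = z at *
  linarith

/-- the function to which the maximum principle is applied -/
noncomputable def gf (K : Consts) (S : Data) (y : ℝ × ℝ) : ℝ :=
  S.P y ^ 2 + 6 * (K.q : ℝ) * S.E y ^ 2
    - 4400 * (K.q : ℝ) * K.am ^ 2 * (S.F1 K y ^ 2 + S.F2 K y ^ 2)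

theorem pde (hK : K.OK) (hq : S.q = K.q) (hb : Bds K S 2 p) (hg : Geo0 K S p) (ha : Alg S p)
    (he : Evol S p) (hf : 0 < gf K S p) : ∃ s b : ℝ, S.Jet (gf K S) p s b ∧ b ≤ 0 := by
  have hq1 : (10000 : ℝ) ≤ K.q := by exact_mod_cast hK.q_ge
  have hφ := ha.φ_pos
  have hρ := ha.ρ_pos
  have hσ := hg.σ_pos
  obtain ⟨hl1, hl2⟩ := lam_pos hK
  obtain ⟨s, jP, -, -⟩ := he.jP ha
  have jE := he.jE ha
  have j1 : S.Jet (S.F1 K) p _ _ := he.jpow ha hσ (K.lam + 41 / 40) (-41 / 20)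
  have j2' := he.jpow ha hσ 0 (2 * K.lam)
  simp only [rpow_zero, one_mul, zero_div, sub_zero] at j2'
  have j2 : S.Jet (S.F2 K) p _ _ := j2'
  have jf := (jP.sq.add (jE.sq.const_mul (6 * (K.q : ℝ)))).sub
    ((j1.sq.add j2.sq).const_mul (4400 * (K.q : ℝ) * K.am ^ 2))
  refine ⟨_, _, jf, ?_⟩
  change _ - 4400 * (K.q : ℝ) * K.am ^ 2 *
    (2 * S.F1 K p * (_ * S.F1 K p) - 2 * (_ * S.F1 K p) ^ 2
      + (2 * S.F2 K p * (_ * S.F2 K p) - 2 * (_ * S.F2 K p) ^ 2)) ≤ 0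
  rw [hq]
  have he1 : S.φ p ^ 2 / S.ρ p ^ 2 = 1 - S.E p := by unfold Data.E; ring
  have hx : S.φ p * S.β p = S.P p + S.A p := by unfold Data.P; ring
  have hw : S.φ p ^ 2 * (S.F1 K p ^ 2 / S.σ p) ≤ (1 - S.E p) * (S.F1 K p ^ 2 + S.F2 K p ^ 2) := by
    have := mul_le_mul_of_nonneg_left (F1_sq_div hK hσ hρ) (sq_nonneg (S.φ p))
    rw [← he1]
    refine this.trans (le_of_eq ?_)
    ring
  have key := ineq_all (s := S.φ p * s) hq1 hl1 hl2 hg.A_le (hb.P.trans (by norm_num)) hb.E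
    (le_trans (by norm_num) hb.Elow) hx (by positivity) hw hf
  have hφ2 : 0 < S.φ p ^ 2 := by positivity
  refine le_of_mul_le_mul_left (a := S.φ p ^ 2) ?_ hφ2
  rw [mul_zero]
  refine le_trans (le_of_eq ?_) key
  rw [← he1]
  field_simp
  ring

end GradAux

open GradAux in
/-- Step 3, from steps 0, 1 (`hgeo`) and 2 (`htrap`). -/
theorem grad_of (K : Consts) (hgeo : Ev K (fun S _ t1 => ∀ p ∈ strip t1, Geo0 K S p))
    (htrap : Ev K (fun S _ t1 => ∀ p ∈ strip t1, S.φ p ≤ K.δ → Trap K S p)) :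
    Ev K (fun S _ t1 => ∀ p ∈ strip t1, Grad K S p ∧ |S.P p| ≤ 2) := by
  refine ((hgeo.and htrap).and (Ev.small_one K (2 / K.δ ^ 2) one_pos)).mono ?_
  rintro S J t1 d hc ⟨⟨hg, ht⟩, hs⟩
  have hB := hc.boot
  have hK := hB.ok
  have hS := hB.sol
  have hq : 10000 ≤ S.q := hB.q_eq ▸ hK.q_ge
  have hq2 : 2 ≤ S.q := by omega
  have hq1 : (10000 : ℝ) ≤ K.q := by exact_mod_cast hK.q_ge
  have hJ : ∀ p ∈ strip t1, p.2 ∈ J := fun p hp => hS.time.down t1 hB.mem hp.2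
  have hcont : ContinuousOn (gf K S) (cstrip t1) :=
    ((((cont_P hS).pow 2).add (continuousOn_const.mul ((cont_E hS hq2).pow 2))).sub
      (continuousOn_const.mul (((cont_F1 hS hq2 hK).pow 2).add ((cont_F2 hS hq2).pow 2)))).mono
      (cstrip_sub hS hB.mem)
  have hmp := mp (ι := Unit) hS hB.mem hq hc.evol (fun p hp => (hB.bds p hp).A)
    (C := fun _ => -1) continuousOn_const (f := fun _ => gf K S) (fun _ => hcont)
    (fun _ θ hθ _ => ?_) (fun _ _ _ h => by norm_num at h) 0 (fun _ p hp h0 _ hf _ => ?_)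
  · intro p hp
    have h1 : gf K S p ≤ 0 := hmp () p hp (by norm_num)
    have hG : Grad K S p := by
      unfold gf at h1
      unfold Grad
      have : 0 ≤ 6 * (K.q : ℝ) * S.E p ^ 2 := by positivity
      linarith
    refine ⟨hG, ?_⟩
    rcases le_total (S.φ p) K.δ with h | h
    · exact (ht p hp h).P_le.trans (by norm_num)
    · have g := hg p hp
      have hρ := ρ_pos hq2 p
      have hδ := hK.δ_pos
      have hs' : 2 * S.sg 0 ≤ K.δ ^ 2 := by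
        have h2 : 2 / K.δ ^ 2 * S.sg 0 ≤ 1 := hs
        rw [div_mul_eq_mul_div, div_le_one (by positivity)] at h2
        exact h2
      have h3 : S.σ p ≤ S.ρ p ^ 2 := by
        have := g.σ_le
        have := g.φ_sq_le
        have : K.δ ^ 2 ≤ S.φ p ^ 2 := by gcongr
        nlinarith [sq_nonneg (S.ρ p)]
      have h4 := F1_le_F2 hK g.σ_pos hρ h3
      have h5 : S.F2 K p ≤ 1 :=
        rpow_le_one hρ.le g.ρ_le (by have := (lam_pos hK).1; linarith)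
      have h6 : 0 ≤ S.F1 K p := mul_nonneg (rpow_nonneg g.σ_pos.le _) (rpow_nonneg hρ.le _)
      have h7 : S.F1 K p ^ 2 + S.F2 K p ^ 2 ≤ 2 := by nlinarith
      have h8 : (K.q : ℝ) * K.am ^ 2 ≤ 1 / 10000 := by
        have a1 := hK.am_le
        have a2 := hK.am_pos
        have a3 : K.am * (K.q : ℝ) ^ 3 ≤ 1 := by rwa [le_div_iff₀ (by positivity)] at a1
        have a4 : (K.q : ℝ) ≤ (K.q : ℝ) ^ 3 := le_self_pow₀ (by linarith) (by norm_num)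
        have a5 : K.am * (K.q : ℝ) ≤ 1 := (mul_le_mul_of_nonneg_left a4 a2.le).trans a3
        have a6 : K.am * 10000 ≤ 1 := (mul_le_mul_of_nonneg_left hq1 a2.le).trans a5
        nlinarith
      unfold Grad at hG
      have h9 : S.P p ^ 2 ≤ 2 ^ 2 := by
        have : (K.q : ℝ) * K.am ^ 2 * (S.F1 K p ^ 2 + S.F2 K p ^ 2) ≤ 1 / 10000 * 2 :=
          mul_le_mul h8 h7 (by positivity) (by norm_num)
        nlinarith
      exact abs_le_of_sq_le_sq' h9 (by norm_num) |> abs_le.2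
  · have h1 := hc.init.P θ hθ
    have h2 := hc.init.E θ hθ
    have h3 := sq_le_sq' (abs_le.1 h1).1 (abs_le.1 h1).2
    have h4 := sq_le_sq' (abs_le.1 h2).1 (abs_le.1 h2).2
    unfold gf
    set f1 := S.F1 K (θ, 0)
    set f2 := S.F2 K (θ, 0)
    have h5 : K.am ^ 2 * (f1 + f2) ^ 2 ≤ 2 * (K.am ^ 2 * (f1 ^ 2 + f2 ^ 2)) := by
      nlinarith [mul_nonneg (sq_nonneg K.am) (sq_nonneg (f1 - f2))]
    have h6 : 0 ≤ K.am ^ 2 * (f1 ^ 2 + f2 ^ 2) := by positivity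
    have h7 : (K.q : ℝ) * S.E (θ, 0) ^ 2 ≤ (K.q : ℝ) * (8 * (K.am ^ 2 * (f1 ^ 2 + f2 ^ 2))) :=
      mul_le_mul_of_nonneg_left (by nlinarith) (by positivity)
    have h8 := mul_le_mul_of_nonneg_right hq1 h6
    nlinarith
  · obtain ⟨s, b, hj, hb⟩ := pde hK hB.q_eq (hB.bds p hp) (hg p hp)
      (hS.alg hq2 hp.1 (hJ p hp)) (hc.evol p hp h0) hf
    have hφ := (hS.alg hq2 hp.1 (hJ p hp)).φ_pos
    exact ⟨s, b, 0, 0, hj, by simpa using hb, by simp, by positivity⟩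

end Vale.Agent.P244Z.Q
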