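import Vale.Agent.P244Z.QJets

/-!
# P244, step 8: the bound for the scalar curvature
-/

open Set Real Filter Topology

namespace Vale.Agent.P244Z.Q

/-- The squared norm of the Ricci tensor in terms of the trace and the differences. -/
theorem ric_sq_le {q a b c : ℝ} (hq : 0 ≤ q) :
    a ^ 2 + q * b ^ 2 + 2 * c ^ 2 ≤
      (a + q * b + 2 * c) ^ 2 / (q + 3) + (a - c) ^ 2 + q * (b - c) ^ 2 := by
  have hn : 0 < q + 3 := by linarith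
  have h : a ^ 2 + q * b ^ 2 + 2 * c ^ 2 =
      (a + q * b + 2 * c) ^ 2 / (q + 3) + (a - c) ^ 2 + q * (b - c) ^ 2
        - ((a - c) + q * (b - c)) ^ 2 / (q + 3) := by
    field_simp; ring
  have h2 : 0 ≤ ((a - c) + q * (b - c)) ^ 2 / (q + 3) := by positivity
  linarith

/-- The singular weight is dominated by `ρ ^ (-9 / 5)` with a small factor. -/
theorem G1_sq_le {σ ρ s0 a : ℝ} (hσ : 0 < σ) (hs : σ ≤ s0) (hρ : 0 < ρ) (ha : 0 < a)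
    (h : a * σ ^ 3 ≤ 4 * ρ ^ 2) :
    (σ ^ (73 / 40 : ℝ) * ρ ^ (-41 / 20 : ℝ)) ^ 2 ≤
      (a / 4) ^ (-23 / 20 : ℝ) * s0 ^ (1 / 5 : ℝ) * (ρ ^ (1 / 5 : ℝ) / ρ ^ 2) := by
  have h1 : (ρ ^ 2) ^ (-23 / 20 : ℝ) ≤ (a / 4 * σ ^ 3) ^ (-23 / 20 : ℝ) :=
    rpow_le_rpow_of_nonpos (by positivity) (by linarith) (by norm_num)
  have h2 : (a / 4 * σ ^ 3) ^ (-23 / 20 : ℝ) = (a / 4) ^ (-23 / 20 : ℝ) * σ ^ (-69 / 20 : ℝ) := by
    rw [mul_rpow (by positivity) (by positivity), ← rpow_natCast, ← rpow_mul hσ.le]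
    norm_num
  have h3 : (σ ^ (73 / 40 : ℝ) * ρ ^ (-41 / 20 : ℝ)) ^ 2 =
      σ ^ (73 / 20 : ℝ) * (ρ ^ 2) ^ (-23 / 20 : ℝ) * (ρ ^ (1 / 5 : ℝ) / ρ ^ 2) := by
    have e1 : (σ ^ (73 / 40 : ℝ)) ^ 2 = σ ^ (73 / 20 : ℝ) := by
      rw [← rpow_natCast, ← rpow_mul hσ.le]; norm_num
    have e2 : (ρ ^ (-41 / 20 : ℝ)) ^ 2 = (ρ ^ 2) ^ (-23 / 20 : ℝ) * (ρ ^ (1 / 5 : ℝ) / ρ ^ 2) := by
      rw [← rpow_natCast, ← rpow_natCast, ← rpow_mul hρ.le, ← rpow_mul hρ.le, ← rpow_sub hρ,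
        ← rpow_add hρ]
      norm_num
    rw [mul_pow, e1, e2, mul_assoc]
  have h4 : σ ^ (73 / 20 : ℝ) * σ ^ (-69 / 20 : ℝ) = σ ^ (1 / 5 : ℝ) := by
    rw [← rpow_add hσ]; norm_num
  have h5 : σ ^ (1 / 5 : ℝ) ≤ s0 ^ (1 / 5 : ℝ) := rpow_le_rpow hσ.le hs (by norm_num)
  rw [h3]
  refine mul_le_mul_of_nonneg_right ?_ (by positivity)
  calc σ ^ (73 / 20 : ℝ) * (ρ ^ 2) ^ (-23 / 20 : ℝ)
      ≤ σ ^ (73 / 20 : ℝ) * ((a / 4) ^ (-23 / 20 : ℝ) * σ ^ (-69 / 20 : ℝ)) :=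
        mul_le_mul_of_nonneg_left (h2 ▸ h1) (by positivity)
    _ = (a / 4) ^ (-23 / 20 : ℝ) * σ ^ (1 / 5 : ℝ) := by rw [← h4]; ring
    _ ≤ _ := mul_le_mul_of_nonneg_left h5 (by positivity)

theorem rbound_of (K : Consts) (hgeo : Ev K (fun S _ t1 => ∀ p ∈ strip t1, Geo0 K S p)) :
    Ev K (fun S _ t1 => ∀ p ∈ strip t1, |S.R p| ≤ K.N) := by
  set Λ : ℝ := 8 * K.N ^ 2 + 16 * (1 + (K.q : ℝ)) * K.M ^ 2 with hΛ
  set C : ℝ := 16 * (1 + (K.q : ℝ)) * K.M ^ 2 * (K.am / 4) ^ (-23 / 20 : ℝ) with hC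
  refine (hgeo.and ((Ev.small_one K Λ one_pos).and
    (Ev.small K C (κ := 1 / 5) (η := 1) (by norm_num) one_pos))).mono ?_
  rintro S J t1 d hc ⟨hg, hs1, hs2⟩
  have hb := hc.boot
  have hok := hb.ok
  have hq : 10000 ≤ S.q := hb.q_eq ▸ hok.q_ge
  have hqR : (10000 : ℝ) ≤ S.q := by exact_mod_cast hq
  have hqK : (K.q : ℝ) = S.q := by rw [hb.q_eq]
  have hJ : ∀ p ∈ strip t1, p.2 ∈ J := fun p hp => hb.sol.time.down t1 hb.mem hp.2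
  have halg : ∀ p ∈ strip t1, Alg S p := fun p hp => hb.sol.alg (by omega) hp.1 (hJ p hp)
  have hΛ0 : 0 ≤ Λ := by positivity
  have key := mp (ι := Unit) hb.sol hb.mem hq hc.evol (fun p hp => (hb.bds p hp).A)
    (C := fun _ => -1) continuousOn_const
    (f := fun _ y => S.R y + Λ * S.σ y + S.σ y ^ (0 : ℝ) * S.ρ y ^ (1 / 5 : ℝ)
      - (K.N / 2 + Λ * S.sg 0 + 1)) ?_ ?_ ?_ 0 ?_
  · intro p hp
    have h1 := key () p hp (by norm_num)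
    have g := hg p hp
    have h2 : 0 ≤ S.σ p ^ (0 : ℝ) * S.ρ p ^ (1 / 5 : ℝ) :=
      mul_nonneg (rpow_nonneg g.σ_pos.le _) (rpow_nonneg (halg p hp).ρ_pos.le _)
    have h3 : 0 ≤ Λ * S.σ p := mul_nonneg hΛ0 g.σ_pos.le
    have h4 := g.R_ge
    have h5 := hok.N_ge
    rw [abs_le]
    constructor <;> linarith
  · intro _
    simp only [rpow_zero, one_mul]
    exact (((hb.sol.cont hb.mem hb.sol.sm_R).add (continuousOn_const.mul (hb.sol.cont hb.mem hb.sol.sm_σ))).add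
      ((hb.sol.cont hb.mem hb.sol.sm_ρ).rpow_const fun _ _ => Or.inr (by norm_num))).sub continuousOn_const
  · intro _ θ hθ _
    have h0 : (θ, (0 : ℝ)) ∈ strip t1 := ⟨hθ, le_rfl, hb.sol.time.nonneg t1 hb.mem⟩
    have h1 := (abs_le.1 (hc.init.R θ hθ)).2
    have h2 : S.ρ (θ, 0) ^ (1 / 5 : ℝ) ≤ 1 :=
      rpow_le_one (halg _ h0).ρ_pos.le (hc.init.rho θ hθ) (by norm_num)
    have h3 : S.σ (θ, 0) = S.sg 0 := rfl
    simp only [rpow_zero, one_mul, h3]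
    linarith
  · intro _ p _ h
    norm_num at h
  · intro _ p hp ht _ _ _
    have ev := hc.evol p hp ht
    have al := halg p hp
    have g := hg p hp
    have bd := hb.bds p hp
    have hρ := al.ρ_pos
    have hφ := al.φ_pos
    refine ⟨_, _, 0, 0, ((ev.jR.add (ev.jσ.const_mul Λ)).add
      (ev.jpow al g.σ_pos 0 (1 / 5))).sub_const _, ?_, by simp, by positivity⟩
    simp only [rpow_zero, one_mul, zero_mul, add_zero, zero_div, sub_zero]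
    set w := S.ρ p ^ (1 / 5 : ℝ) with hw
    have hw0 : 0 < w := rpow_pos_of_pos hρ _
    have hric := ric_sq_le (q := (S.q : ℝ)) (a := S.a p) (b := S.b p) (c := S.c p) (by positivity)
    change _ ≤ S.R p ^ 2 / ((S.q : ℝ) + 3) + S.U1 p ^ 2 + (S.q : ℝ) * S.U2 p ^ 2 at hric
    have hR : S.R p ^ 2 / ((S.q : ℝ) + 3) ≤ 4 * K.N ^ 2 := by
      have h1 : S.R p ^ 2 ≤ (2 * K.N) ^ 2 := sq_le_sq' (abs_le.1 bd.R).1 (abs_le.1 bd.R).2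
      have h2 : S.R p ^ 2 / ((S.q : ℝ) + 3) ≤ S.R p ^ 2 :=
        div_le_self (sq_nonneg _) (by linarith)
      nlinarith
    have hG2 : S.G2 p ^ 2 ≤ 1 := by
      have h1 : S.G2 p ≤ 1 := rpow_le_one hρ.le g.ρ_le (by norm_num)
      have h2 : 0 ≤ S.G2 p := rpow_nonneg hρ.le _
      nlinarith
    have hG1 : S.G1 p ^ 2 ≤ (K.am / 4) ^ (-23 / 20 : ℝ) * S.sg 0 ^ (1 / 5 : ℝ) * (w / S.ρ p ^ 2) :=
      G1_sq_le g.σ_pos g.σ_le hρ hok.am_pos (by have := bd.rho; linarith)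
    have hU : ∀ x : ℝ, |x| ≤ 2 * K.M * (S.G1 p + S.G2 p) →
        x ^ 2 ≤ 8 * K.M ^ 2 * (S.G1 p ^ 2 + 1) := by
      intro x hx
      have h1 : x ^ 2 ≤ (2 * K.M * (S.G1 p + S.G2 p)) ^ 2 := sq_le_sq' (abs_le.1 hx).1 (abs_le.1 hx).2
      have h2 : (S.G1 p + S.G2 p) ^ 2 ≤ 2 * (S.G1 p ^ 2 + 1) := by
        nlinarith [sq_nonneg (S.G1 p - S.G2 p)]
      calc x ^ 2 ≤ 4 * K.M ^ 2 * (S.G1 p + S.G2 p) ^ 2 := by rw [mul_pow, mul_pow] at h1; linarith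
        _ ≤ 4 * K.M ^ 2 * (2 * (S.G1 p ^ 2 + 1)) := mul_le_mul_of_nonneg_left h2 (by positivity)
        _ = _ := by ring
    have hU1 := hU _ bd.U1
    have hU2 := hU _ bd.U2
    have hU3 : (S.q : ℝ) * S.U2 p ^ 2 ≤ (S.q : ℝ) * (8 * K.M ^ 2 * (S.G1 p ^ 2 + 1)) :=
      mul_le_mul_of_nonneg_left hU2 (by positivity)
    have hsm : 16 * (1 + (S.q : ℝ)) * K.M ^ 2 * S.G1 p ^ 2 ≤ w / S.ρ p ^ 2 := by
      calc 16 * (1 + (S.q : ℝ)) * K.M ^ 2 * S.G1 p ^ 2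
          ≤ 16 * (1 + (S.q : ℝ)) * K.M ^ 2 *
            ((K.am / 4) ^ (-23 / 20 : ℝ) * S.sg 0 ^ (1 / 5 : ℝ) * (w / S.ρ p ^ 2)) :=
            mul_le_mul_of_nonneg_left hG1 (by positivity)
        _ = C * S.sg 0 ^ (1 / 5 : ℝ) * (w / S.ρ p ^ 2) := by rw [hC, hqK]; ring
        _ ≤ 1 * (w / S.ρ p ^ 2) := mul_le_mul_of_nonneg_right hs2 (by positivity)
        _ = _ := one_mul _
    have hd : (-(1 / 5) * ((S.q : ℝ) - 1) / S.ρ p ^ 2 - (1 / 5) ^ 2 * S.β p ^ 2) * w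
        ≤ -(w / S.ρ p ^ 2) := by
      have h1 : 0 ≤ (1 / 5 : ℝ) ^ 2 * S.β p ^ 2 * w := by positivity
      have h2 : 0 ≤ ((1 / 5) * ((S.q : ℝ) - 1) - 1) * (w / S.ρ p ^ 2) :=
        mul_nonneg (by linarith) (by positivity)
      have h3 : (-(1 / 5) * ((S.q : ℝ) - 1) / S.ρ p ^ 2 - (1 / 5) ^ 2 * S.β p ^ 2) * w =
          -(w / S.ρ p ^ 2) - ((1 / 5) * ((S.q : ℝ) - 1) - 1) * (w / S.ρ p ^ 2)
            - (1 / 5 : ℝ) ^ 2 * S.β p ^ 2 * w := by ring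
      linarith
    have hΛ' : Λ = 8 * K.N ^ 2 + 16 * (1 + (S.q : ℝ)) * K.M ^ 2 := by rw [hΛ, hqK]
    have e : 2 * (8 * K.M ^ 2 * (S.G1 p ^ 2 + 1) + (S.q : ℝ) * (8 * K.M ^ 2 * (S.G1 p ^ 2 + 1))) =
        16 * (1 + (S.q : ℝ)) * K.M ^ 2 * S.G1 p ^ 2 + 16 * (1 + (S.q : ℝ)) * K.M ^ 2 := by ring
    linarith

end Vale.Agent.P244Z.Q
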