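import Vale.Agent.P244Z.QGeo
import Vale.Agent.P244Z.QGrad

/-!
# P244, large `q` design, step 6: the bound for `U1`, `U2` in the outer region

On `X ≥ 1/4` the function `U1^2 + U2^2 + 1000 q P^2 / ρ^4` stays below an explicit barrier.
-/

open Set Real Filter Topology

namespace Vale.Agent.P244Z.Q

namespace Outer

/-! ## Pure inequalities -/

theorem z_bound {q z φ2 r R a E A P N N1 : ℝ} (hq : 10000 ≤ q) (hr : 0 ≤ r) (hφ : 0 ≤ φ2)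
    (h : (q + 2) * z = -φ2 * (R - 2 * a) - 2 * (q - 1) * E - 4 * (q + 1) * A * P - 2 * P ^ 2)
    (h1 : φ2 ≤ 11 / 10 * r) (hR : |R| ≤ 2 * N) (hN : 2 * N ≤ N1)
    (ha : r * |a| ≤ 1 / 100 + N1 * r) (hE : |q * E| ≤ 1) (hA : |A| ≤ 1) (hP : |q * P| ≤ 1) :
    |q * z| ≤ 4 * (N1 * r) + 7 := by
  have hN1 : 0 ≤ N1 := (abs_nonneg _).trans (hR.trans hN)
  have hm : 0 ≤ N1 * r := mul_nonneg hN1 hr
  have hq0 : 0 < q := by linarith
  have e1 : |φ2 * (R - 2 * a)| ≤ 4 * (N1 * r) + 1 / 10 := by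
    rw [abs_mul, abs_of_nonneg hφ]
    have : |R - 2 * a| ≤ N1 + 2 * |a| := by
      have := abs_sub R (2 * a)
      rw [abs_mul, abs_two] at this
      linarith
    have h2 : φ2 * |R - 2 * a| ≤ 11 / 10 * r * (N1 + 2 * |a|) :=
      mul_le_mul h1 this (abs_nonneg _) (by positivity)
    nlinarith
  rw [abs_mul, abs_of_pos hq0] at hE hP ⊢
  have hE' : |E| ≤ 1 / 10000 := by nlinarith [abs_nonneg E]
  have hP' : |P| ≤ 1 / 10000 := by nlinarith [abs_nonneg P]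
  have e2 : |A * P| ≤ |P| := by
    rw [abs_mul]; nlinarith [abs_nonneg A, abs_nonneg P]
  have e3 : P ^ 2 ≤ 1 / 10000 := by rw [← sq_abs]; nlinarith [abs_nonneg P]
  have e4 : |(q - 1) * E| ≤ 1 := by
    rw [abs_mul, abs_of_pos (by linarith : 0 < q - 1)]; nlinarith [abs_nonneg E]
  have e5 : |(q + 1) * (A * P)| ≤ 1 + 1 / 10000 := by
    rw [abs_mul, abs_of_pos (by linarith : 0 < q + 1)]; nlinarith [abs_nonneg P]
  have e6 : (q + 2) * |z| ≤ 4 * (N1 * r) + 7 := by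
    have : (q + 2) * |z| = |(q + 2) * z| := by rw [abs_mul, abs_of_pos (by linarith : 0 < q + 2)]
    rw [this, h, abs_le]
    have := abs_le.1 e1
    have := abs_le.1 e4
    have := abs_le.1 e5
    constructor <;> nlinarith [sq_nonneg P]
  nlinarith [abs_nonneg z]

theorem quad {q m k11 k k22 U1 U2 : ℝ} (hq : 10000 ≤ q) (hm : 0 ≤ m)
    (h11 : k11 ≤ -2 * q + 15 + 4 * m) (hk : |k| ≤ 404 / 100 * q + 3 * (q * m))
    (h22 : k22 ≤ 2 * q + 7 + 5 * m) :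
    2 * k11 * U1 ^ 2 + 2 * k * U1 * U2 + 2 * k22 * U2 ^ 2 - 490 * q * U2 ^ 2
      ≤ (-(37 / 10) * q + 4 * (q * m)) * (U1 ^ 2 + U2 ^ 2) := by
  have e1 : k * U1 * U2 ≤ (404 / 100 * q + 3 * (q * m)) * (|U1| * |U2|) := by
    have : k * U1 * U2 ≤ |k| * (|U1| * |U2|) := by
      rw [← abs_mul, ← abs_mul, mul_assoc]; exact le_abs_self _
    exact this.trans (mul_le_mul_of_nonneg_right hk (by positivity))
  have e2 : 2 * (|U1| * |U2|) ≤ U1 ^ 2 + U2 ^ 2 := by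
    nlinarith [sq_nonneg (|U1| - |U2|), sq_abs U1, sq_abs U2]
  have e3 : 808 / 100 * (|U1| * |U2|) ≤ 1 / 5 * U1 ^ 2 + 82 * U2 ^ 2 := by
    nlinarith [sq_nonneg (|U1| - 202 / 10 * |U2|), sq_abs U1, sq_abs U2, sq_nonneg U2]
  have hqm : 10000 * m ≤ q * m := mul_le_mul_of_nonneg_right hq hm
  have e4 := mul_le_mul_of_nonneg_left e3 (by linarith : 0 ≤ q)
  have e5 := mul_le_mul_of_nonneg_left e2 (by linarith : 0 ≤ q * m)
  have e6 : k11 * U1 ^ 2 ≤ (-(195 / 100) * q + 1 / 2 * (q * m)) * U1 ^ 2 :=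
    mul_le_mul_of_nonneg_right (by linarith) (sq_nonneg _)
  have e7 : k22 * U2 ^ 2 ≤ (3 * q + 1 / 2 * (q * m)) * U2 ^ 2 :=
    mul_le_mul_of_nonneg_right (by linarith) (sq_nonneg _)
  have e8 : 0 ≤ q * U2 ^ 2 := by positivity
  nlinarith

theorem U_ineq {q m A P E x bb cc db h U1 U2 : ℝ} (hq : 10000 ≤ q) (hm : 0 ≤ m) (hA : |A| ≤ 1)
    (hP : |q * P| ≤ 1) (hE : |q * E| ≤ 1) (hx : x = A + P)
    (hz : |q * ((q + 1) * A ^ 2 - (q - 1))| ≤ 4 * m + 7)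
    (hb : |bb| ≤ 11 / 10 * (1 / 100 + m)) (hc : |cc| ≤ 11 / 10 * (1 / 100 + m))
    (hdb : db = -cc - q * A * x - 2 * x ^ 2 + (q - 1) * (1 - E))
    (hh : h = -bb - 2 * A * x + (q - 1) * (1 - A ^ 2)) :
    2 * U1 * (-2 * q * A ^ 2 * (U1 - U2) - (4 * x ^ 2 - 2 * db - 2 * cc) * U1
        + 2 * q * (A * x - h) * U2)
      + 2 * U2 * (2 * A ^ 2 * (U1 - U2) + 2 * (db - h) * U1
        + (2 * (q - 1) * (1 - A ^ 2) + 2 * q * A * x + 2 * cc) * U2) - 490 * q * U2 ^ 2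
      ≤ (-(37 / 10) * q + 4 * (q * m)) * (U1 ^ 2 + U2 ^ 2) := by
  have hq0 : 0 < q := by linarith
  obtain ⟨z, hzd⟩ : ∃ z, z = (q + 1) * A ^ 2 - (q - 1) := ⟨_, rfl⟩
  rw [← hzd] at hz
  have small : ∀ y c : ℝ, |q * y| ≤ c → 10000 * |y| ≤ c := fun y c hy => by
    rw [abs_mul, abs_of_pos hq0] at hy
    nlinarith [abs_nonneg y]
  have hP' := small P 1 hP
  have hE' := small E 1 hE
  have hz' := small z _ hz
  have hA2 : A ^ 2 ≤ 1 := by rw [← sq_abs]; nlinarith [abs_nonneg A]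
  have hw : |q * (A * P)| ≤ 1 := by
    rw [mul_left_comm, abs_mul]; nlinarith [abs_nonneg A, abs_nonneg (q * P)]
  have hAP := small _ 1 hw
  have hx2 : x ^ 2 ≤ 101 / 100 := by
    have : |x| ≤ 10001 / 10000 := by rw [hx]; linarith [abs_add_le A P]
    rw [← sq_abs]; nlinarith [abs_nonneg x]
  have hqb : |q * bb| ≤ 11 / 1000 * q + 11 / 10 * (q * m) := by
    rw [abs_mul, abs_of_pos hq0]; nlinarith
  have hqm : 10000 * m ≤ q * m := mul_le_mul_of_nonneg_right hq hm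
  have hqA : q * A ^ 2 ≤ q := by nlinarith
  have hqA0 : 0 ≤ q * A ^ 2 := by positivity
  have key := quad (U1 := U1) (U2 := U2)
    (k11 := -4 * (q - 1) - 4 * z + 4 * A ^ 2 - 2 * (q * (A * P)) - 8 * x ^ 2 + 2 * (q - 1)
      - 2 * (q * E) + 2 * E)
    (k := 4 * (q * A ^ 2) + 6 * (q * (A * P)) + 2 * (q * bb) + 2 * (q * z)
      + (4 * A ^ 2 - 2 * cc - 2 * (q * (A * P)) - 4 * x ^ 2 - 2 * (q * E) + 2 * E + 2 * bb
        + 4 * (A * P)))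
    (k22 := 2 * A ^ 2 - 2 * z + 2 * (q * A ^ 2) + 2 * (q * (A * P)) + 2 * cc) hq hm
    (by
      have := abs_le.1 hw
      have := abs_le.1 hE
      linarith [neg_abs_le z, le_abs_self E, sq_nonneg x])
    (by
      have := abs_le.1 hw
      have := abs_le.1 hE
      have := abs_le.1 hz
      have := abs_le.1 hqb
      have := abs_le.1 hb
      have := abs_le.1 hc
      rw [abs_le]
      constructor <;> linarith [neg_abs_le E, le_abs_self E, sq_nonneg x, sq_nonneg A,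
        neg_abs_le (A * P), le_abs_self (A * P)])
    (by
      have := abs_le.1 hw
      have := abs_le.1 hc
      linarith [neg_abs_le z])
  refine le_of_eq_of_le ?_ key
  rw [hh, hdb, hzd, hx]
  ring

theorem st_lower {q k E pt st Et U2 : ℝ} (hq : 10000 ≤ q) (hk : k ^ 2 ≤ (q + 2) ^ 2)
    (hE : E ≤ 1 / 10000) (hU : (1 - E) * U2 = st + k * pt + (q - 1) * Et) :
    49 / 100 * U2 ^ 2 ≤ st ^ 2 + 2 * (q + 2) ^ 2 * pt ^ 2 + 2 * q ^ 2 * Et ^ 2 := by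
  have h2 : (q - 1) ^ 2 ≤ q ^ 2 := pow_le_pow_left₀ (by linarith) (by linarith) 2
  have h3 : (99 / 100) ^ 2 ≤ (1 - E) ^ 2 := pow_le_pow_left₀ (by norm_num) (by linarith) 2
  have h4 := mul_le_mul_of_nonneg_right hk (sq_nonneg pt)
  have h5 := mul_le_mul_of_nonneg_right h2 (sq_nonneg Et)
  have h6 := mul_le_mul_of_nonneg_right h3 (sq_nonneg U2)
  have h7 : ((1 - E) * U2) ^ 2 ≤ 2 * st ^ 2 + 4 * (k * pt) ^ 2 + 4 * ((q - 1) * Et) ^ 2 := by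
    rw [hU]
    nlinarith [sq_nonneg (st - (k * pt + (q - 1) * Et)), sq_nonneg (k * pt - (q - 1) * Et)]
  rw [mul_pow, mul_pow, mul_pow] at h7
  linarith [sq_nonneg U2]

theorem cross1 {k pt st : ℝ} (hk : |k| ≤ 11) : 2 * k * pt * st ≤ st ^ 2 + 121 * pt ^ 2 := by
  have h1 : k ^ 2 ≤ 121 := by rw [← sq_abs]; nlinarith [abs_nonneg k]
  nlinarith [sq_nonneg (st - k * pt), mul_le_mul_of_nonneg_right h1 (sq_nonneg pt)]

theorem cross2 {A Et pt : ℝ} (hA : |A| ≤ 1) : -(2 * (A * Et * pt)) ≤ Et ^ 2 + pt ^ 2 := by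
  have h1 : A ^ 2 ≤ 1 := by rw [← sq_abs]; nlinarith [abs_nonneg A]
  nlinarith [sq_nonneg (A * Et + pt), mul_le_mul_of_nonneg_right h1 (sq_nonneg Et)]

theorem P_ineq {q A P E x pt st Et U2 : ℝ} (hq : 10000 ≤ q) (hA : |A| ≤ 1)
    (hP : |q * P| ≤ 1) (hE : |q * E| ≤ 1) (hx : x = A + P)
    (hU : (1 - E) * U2 = st + ((q - 1) * A + 2 * x) * pt + (q - 1) * Et) :
    -4 * A * pt * st + 2 * pt ^ 2 * ((q - 1) * (1 - A ^ 2 - 2 * E) - 2 * x ^ 2)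
      - 4 * (q - 1) * A * Et * pt - 2 * st ^ 2 + pt ^ 2 * (4 * (q - 1) * (1 - E) - 16 * x ^ 2)
      + 16 * x * pt * st
      ≤ -(49 / 100) * U2 ^ 2 - 37 / 10 * q * pt ^ 2 + 4 * q ^ 2 * (pt ^ 2 + Et ^ 2) := by
  have hq0 : 0 < q := by linarith
  have small : ∀ y c : ℝ, |q * y| ≤ c → 10000 * |y| ≤ c := fun y c hy => by
    rw [abs_mul, abs_of_pos hq0] at hy
    nlinarith [abs_nonneg y]
  have hP' := small P 1 hP
  have hE' := small E 1 hE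
  have hx1 : |x| ≤ 10001 / 10000 := by rw [hx]; linarith [abs_add_le A P]
  have hA' := abs_le.1 hA
  have hx' := abs_le.1 hx1
  have hE2 := abs_le.1 hE
  have hE3 : E ≤ 1 / 10000 := by linarith [le_abs_self E]
  have hp := sq_nonneg pt
  have e1 := cross1 (k := 8 * x - 2 * A) (pt := pt) (st := st)
    (by rw [abs_le]; constructor <;> linarith)
  have e2 : ((q - 1) * (1 - A ^ 2 - 2 * E) - 2 * x ^ 2) * pt ^ 2 ≤ (q + 2) * pt ^ 2 := by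
    refine mul_le_mul_of_nonneg_right ?_ hp
    have : 0 ≤ (q - 1) * A ^ 2 := mul_nonneg (by linarith) (sq_nonneg _)
    linarith [sq_nonneg x]
  have e3 : (4 * (q - 1) * (1 - E) - 16 * x ^ 2) * pt ^ 2 ≤ (4 * q + 1) * pt ^ 2 := by
    refine mul_le_mul_of_nonneg_right ?_ hp
    linarith [sq_nonneg x]
  have e4 := mul_le_mul_of_nonneg_left (cross2 (Et := Et) (pt := pt) hA)
    (by linarith : 0 ≤ q - 1)
  have e5 := st_lower hq (sq_le_sq'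
    (by linarith [mul_le_mul_of_nonneg_left hA'.1 (by linarith : 0 ≤ q - 1)])
    (by linarith [mul_le_mul_of_nonneg_left hA'.2 (by linarith : 0 ≤ q - 1)])) hE3 hU
  have hqq : 10000 * q ≤ q ^ 2 := by rw [sq]; exact mul_le_mul_of_nonneg_right hq hq0.le
  have e6 : (2 * (q + 2) ^ 2 + 121 + 2 * (q + 2) + (4 * q + 1) + 2 * (q - 1) + 37 / 10 * q)
      * pt ^ 2 ≤ 4 * q ^ 2 * pt ^ 2 := mul_le_mul_of_nonneg_right (by linarith) hp
  have e7 : (2 * q ^ 2 + 2 * (q - 1)) * Et ^ 2 ≤ 4 * q ^ 2 * Et ^ 2 :=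
    mul_le_mul_of_nonneg_right (by linarith) (sq_nonneg _)
  linarith

theorem B_ineq {q e x X g1 g2 g3 : ℝ} (hq : 10000 ≤ q) (he1 : 99 / 100 ≤ e)
    (he2 : e ≤ 101 / 100) (hx : x ^ 2 ≤ 2) (h1 : 0 ≤ g1) (h2 : 0 ≤ g2) (h3 : 0 ≤ g3)
    (hX1 : X * g1 ≤ 2 * (g1 + g2)) (hX3 : X * g3 ≤ 2 * (g3 + g1)) :
    -(34 / 10) * q * (1 / 8 * (g1 + g2) + 1 / 100 * g3) ≤
      1 / 8 * ((41 / 10 * (q - 1) * e - (41 / 10) ^ 2 * x ^ 2 - 73 / 20 * X) * g1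
        + (-(16 / 5) * (q - 1) * e - (16 / 5) ^ 2 * x ^ 2) * g2)
      + 1 / 100 * ((161 / 10 * (q - 1) * e - (161 / 10) ^ 2 * x ^ 2 - 193 / 20 * X) * g3) := by
  have e1 : 100 * g1 ≤ (41 / 10 * (q - 1) * e - (41 / 10) ^ 2 * x ^ 2) * g1 :=
    mul_le_mul_of_nonneg_right (by nlinarith) h1
  have e2 : (-(34 / 10) * q + 100) * g2
      ≤ (-(16 / 5) * (q - 1) * e - (16 / 5) ^ 2 * x ^ 2) * g2 :=
    mul_le_mul_of_nonneg_right (by nlinarith) h2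
  have e3 : 100 * g3 ≤ (161 / 10 * (q - 1) * e - (161 / 10) ^ 2 * x ^ 2) * g3 :=
    mul_le_mul_of_nonneg_right (by nlinarith) h3
  have e4 : 0 ≤ q * g1 := by positivity
  have e5 : 0 ≤ q * g3 := by positivity
  nlinarith

/-! ## The weights -/

variable {S : Data} {J : Set ℝ} {K : Consts} {t1 : ℝ} {p : ℝ × ℝ} {d : Fin 3 → ℝ}

noncomputable def g1 (S : Data) (y : ℝ × ℝ) : ℝ := S.σ y ^ (73 / 20 : ℝ) * S.ρ y ^ (-41 / 10 : ℝ)
noncomputable def g2 (S : Data) (y : ℝ × ℝ) : ℝ := S.ρ y ^ (16 / 5 : ℝ)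
noncomputable def g3 (S : Data) (y : ℝ × ℝ) : ℝ :=
  S.σ y ^ (193 / 20 : ℝ) * S.ρ y ^ (-161 / 10 : ℝ)

theorem sq_rpow {x : ℝ} (hx : 0 < x) (k : ℝ) : (x ^ k) ^ 2 = x ^ (2 * k) := by
  rw [← rpow_natCast, ← rpow_mul hx.le, mul_comm]; norm_num

theorem g1_eq (hσ : 0 < S.σ p) (hρ : 0 < S.ρ p) : g1 S p = S.G1 p ^ 2 := by
  unfold g1 Data.G1
  rw [mul_pow, sq_rpow hσ, sq_rpow hρ]; norm_num

theorem g2_eq (hρ : 0 < S.ρ p) : g2 S p = S.G2 p ^ 2 := by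
  unfold g2 Data.G2
  rw [sq_rpow hρ]; norm_num

theorem g3_eq (hσ : 0 < S.σ p) (hρ : 0 < S.ρ p) :
    g3 S p = g1 S p * (S.σ p / S.ρ p ^ 2) ^ 6 := by
  have e1 : S.σ p ^ (193 / 20 : ℝ) = S.σ p ^ (73 / 20 : ℝ) * S.σ p ^ 6 := by
    rw [← rpow_natCast, ← rpow_add hσ]; norm_num
  have e2 : S.ρ p ^ (-41 / 10 : ℝ) = S.ρ p ^ (-161 / 10 : ℝ) * S.ρ p ^ 12 := by
    rw [← rpow_natCast, ← rpow_add hρ]; norm_num
  unfold g3 g1
  rw [e1, e2]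
  field_simp

theorem g1_eq_g2 (hσ : 0 < S.σ p) (hρ : 0 < S.ρ p) :
    g1 S p = g2 S p * (S.σ p / S.ρ p ^ 2) ^ (73 / 20 : ℝ) := by
  have e1 : (S.ρ p ^ 2) ^ (73 / 20 : ℝ) = S.ρ p ^ (73 / 10 : ℝ) := by
    rw [← rpow_natCast, ← rpow_mul hρ.le]; norm_num
  have e2 : S.ρ p ^ (16 / 5 : ℝ) = S.ρ p ^ (-41 / 10 : ℝ) * S.ρ p ^ (73 / 10 : ℝ) := by
    rw [← rpow_add hρ]; norm_num
  have e3 : 0 < S.ρ p ^ (73 / 10 : ℝ) := rpow_pos_of_pos hρ _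
  unfold g1 g2
  rw [div_rpow hσ.le (by positivity), e1, e2]
  field_simp

theorem g1_pos (hσ : 0 < S.σ p) (hρ : 0 < S.ρ p) : 0 < g1 S p := by unfold g1; positivity
theorem g2_pos (hρ : 0 < S.ρ p) : 0 < g2 S p := by unfold g2; positivity
theorem g3_pos (hσ : 0 < S.σ p) (hρ : 0 < S.ρ p) : 0 < g3 S p := by unfold g3; positivity

theorem X_g (hg : Geo0 K S p) (hρ : 0 < S.ρ p) :
    S.φ p ^ 2 / S.σ p * g1 S p ≤ 2 * (g1 S p + g2 S p) ∧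
      S.φ p ^ 2 / S.σ p * g3 S p ≤ 2 * (g3 S p + g1 S p) := by
  have hσ := hg.σ_pos
  have h1 := g1_pos hσ hρ
  have h2 := g2_pos hρ
  have h3 := g3_pos hσ hρ
  obtain ⟨y, hy⟩ : ∃ y, y = S.σ p / S.ρ p ^ 2 := ⟨_, rfl⟩
  have hy0 : 0 < y := by rw [hy]; positivity
  have hX : S.φ p ^ 2 / S.σ p * y ≤ 2 := by
    have : S.φ p ^ 2 / S.σ p * y = S.φ p ^ 2 / S.ρ p ^ 2 := by rw [hy]; field_simp
    rw [this, div_le_iff₀ (by positivity)]
    nlinarith [hg.φ_sq_le]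
  have hX0 : 0 ≤ S.φ p ^ 2 / S.σ p := by positivity
  rcases le_total 1 y with h | h
  · have : S.φ p ^ 2 / S.σ p ≤ 2 := by nlinarith
    constructor <;> nlinarith
  · have e1 : g1 S p ≤ g2 S p * y := by
      rw [g1_eq_g2 hσ hρ, ← hy]
      refine mul_le_mul_of_nonneg_left ?_ h2.le
      simpa using rpow_le_rpow_of_exponent_ge hy0 h (show (1 : ℝ) ≤ 73 / 20 by norm_num)
    have e2 : g3 S p ≤ g1 S p * y := by
      rw [g3_eq hσ hρ, ← hy]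
      refine mul_le_mul_of_nonneg_left ?_ h1.le
      simpa using pow_le_pow_of_le_one hy0.le h (show 1 ≤ 6 by norm_num)
    constructor
    · nlinarith [mul_le_mul_of_nonneg_left e1 hX0, mul_le_mul_of_nonneg_left hX h2.le]
    · nlinarith [mul_le_mul_of_nonneg_left e2 hX0, mul_le_mul_of_nonneg_left hX h1.le]

/-- The bounds in the region `X ≥ 1/4`. -/
structure Out (S : Data) (p : ℝ × ℝ) : Prop where
  E : |(S.q : ℝ) * S.E p| ≤ 1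
  P : |(S.q : ℝ) * S.P p| ≤ 1
  err : 4000 * (S.q : ℝ) ^ 3 * ((S.P p / S.ρ p ^ 2) ^ 2 + (S.E p / S.ρ p ^ 2) ^ 2)
    ≤ 20 * (g1 S p + g2 S p)
  small : 1000 * (S.q : ℝ) * (S.P p / S.ρ p ^ 2) ^ 2 ≤ 1 / 16 * (g1 S p + g2 S p)

theorem out (hK : K.OK) (hq : S.q = K.q) (hb : Bds K S 2 p) (hg : Geo0 K S p) (hG : Grad K S p)
    (hρ : 0 < S.ρ p) (h0 : S.sg 0 ≤ 1 / 20) (hX : S.σ p ≤ 4 * S.φ p ^ 2) : Out S p := by
  have hσ := hg.σ_pos
  have hσ1 : S.σ p ≤ 1 / 20 := hg.σ_le.trans h0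
  have hl := hK.lam_ge
  have hy : S.σ p ≤ 44 / 10 * S.ρ p ^ 2 := by linarith [hg.φ_sq_le]
  have hq1 := hK.q_geR
  have ha := hK.am_pos
  have haq : K.am * (K.q : ℝ) ^ 3 ≤ 1 := by
    have := hK.am_le
    rwa [le_div_iff₀ (by positivity)] at this
  have hF1 : S.F1 K p ≤ 1 := by
    have e1 : S.σ p ^ (K.lam + 41 / 40) ≤ S.σ p ^ (1 + 41 / 40 : ℝ) :=
      rpow_le_rpow_of_exponent_ge hσ (by linarith) (by linarith)
    have e2 : S.σ p ^ (41 / 40 : ℝ) ≤ (44 / 10 * S.ρ p ^ 2) ^ (41 / 40 : ℝ) :=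
      rpow_le_rpow hσ.le hy (by norm_num)
    have e3 : (44 / 10 : ℝ) ^ (41 / 40 : ℝ) ≤ 20 := by
      have := rpow_le_rpow_of_exponent_le (show (1 : ℝ) ≤ 44 / 10 by norm_num)
        (show (41 / 40 : ℝ) ≤ 2 by norm_num)
      rw [rpow_two] at this
      linarith
    have e4 : (S.ρ p ^ 2) ^ (41 / 40 : ℝ) * S.ρ p ^ (-41 / 20 : ℝ) = 1 := by
      rw [← rpow_natCast, ← rpow_mul hρ.le, ← rpow_add hρ]; norm_num
    rw [mul_rpow (by norm_num) (by positivity)] at e2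
    rw [rpow_add hσ 1, rpow_one] at e1
    have e5 : S.σ p ^ (41 / 40 : ℝ) ≤ 20 * (S.ρ p ^ 2) ^ (41 / 40 : ℝ) :=
      e2.trans (mul_le_mul_of_nonneg_right e3 (by positivity))
    have e6 : S.σ p * S.σ p ^ (41 / 40 : ℝ) ≤ 1 / 20 * (20 * (S.ρ p ^ 2) ^ (41 / 40 : ℝ)) :=
      mul_le_mul hσ1 e5 (by positivity) (by norm_num)
    unfold Data.F1
    rw [← e4]
    exact mul_le_mul_of_nonneg_right (by linarith) (by positivity)
  have hF2 : S.F2 K p ≤ 1 := rpow_le_one hρ.le hg.ρ_le (by linarith)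
  have hF10 : 0 ≤ S.F1 K p := by unfold Data.F1; positivity
  have hF20 : 0 ≤ S.F2 K p := by unfold Data.F2; positivity
  have hH1 : S.F1 K p ^ 2 ≤ 20 * g1 S p * (S.ρ p ^ 2) ^ 2 := by
    have e1 : S.σ p ^ (2 * (K.lam + 41 / 40)) ≤ S.σ p ^ (73 / 20 + 2 : ℝ) :=
      rpow_le_rpow_of_exponent_ge hσ (by linarith) (by linarith)
    rw [rpow_add hσ, rpow_two] at e1
    have e2 : S.σ p ^ 2 ≤ (44 / 10 * S.ρ p ^ 2) ^ 2 := pow_le_pow_left₀ hσ.le hy 2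
    have e3 : S.σ p ^ 2 ≤ 20 * (S.ρ p ^ 2) ^ 2 := by nlinarith [sq_nonneg (S.ρ p ^ 2)]
    have e4 := e1.trans (mul_le_mul_of_nonneg_left e3 (by positivity))
    unfold Data.F1 g1
    rw [mul_pow, sq_rpow hσ, sq_rpow hρ, show (2 * (-41 / 20) : ℝ) = -41 / 10 by norm_num]
    have := mul_le_mul_of_nonneg_right e4 (rpow_pos_of_pos hρ (-41 / 10 : ℝ)).le
    linarith
  have hH2 : S.F2 K p ^ 2 ≤ g2 S p * (S.ρ p ^ 2) ^ 2 := by
    have e1 : S.ρ p ^ (2 * (2 * K.lam)) ≤ S.ρ p ^ (16 / 5 + (4 : ℕ) : ℝ) :=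
      rpow_le_rpow_of_exponent_ge hρ hg.ρ_le (by push_cast; linarith)
    rw [rpow_add hρ, rpow_natCast] at e1
    unfold Data.F2 g2
    rw [sq_rpow hρ]
    linarith
  have h1 := g1_pos hσ hρ
  have h2 := g2_pos hρ
  have hH : S.F1 K p ^ 2 + S.F2 K p ^ 2 ≤ 20 * (g1 S p + g2 S p) * (S.ρ p ^ 2) ^ 2 := by
    have : 0 ≤ g2 S p * (S.ρ p ^ 2) ^ 2 := by positivity
    linarith
  have hE2 : S.E p ^ 2 ≤ 32 * K.am ^ 2 * (S.F1 K p ^ 2 + S.F2 K p ^ 2) := by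
    have e1 := pow_le_pow_left₀ (abs_nonneg _) hb.E 2
    rw [sq_abs] at e1
    nlinarith [mul_nonneg (sq_nonneg K.am) (sq_nonneg (S.F1 K p - S.F2 K p))]
  have hG' : S.P p ^ 2 ≤ 4400 * (K.q : ℝ) * K.am ^ 2 * (S.F1 K p ^ 2 + S.F2 K p ^ 2) := hG
  have hq2 : (10 : ℝ) ^ 8 ≤ (K.q : ℝ) ^ 2 := by nlinarith
  have hc1 : 10 ^ 8 * ((K.q : ℝ) ^ 4 * K.am ^ 2) ≤ 1 := by
    have e1 : (K.am * (K.q : ℝ) ^ 3) ^ 2 ≤ 1 := pow_le_one₀ (by positivity) haq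
    have e2 := mul_le_mul_of_nonneg_right hq2 (by positivity : 0 ≤ (K.q : ℝ) ^ 4 * K.am ^ 2)
    linarith
  have hmono : ∀ n : ℕ, n ≤ 4 → (K.q : ℝ) ^ n * K.am ^ 2 ≤ (K.q : ℝ) ^ 4 * K.am ^ 2 := fun n hn =>
    mul_le_mul_of_nonneg_right (pow_le_pow_right₀ (by linarith) hn) (sq_nonneg _)
  have hH' : S.F1 K p ^ 2 + S.F2 K p ^ 2 ≤ 2 := by
    linarith [pow_le_one₀ hF10 hF1 (n := 2), pow_le_one₀ hF20 hF2 (n := 2)]
  have hpt : (S.P p / S.ρ p ^ 2) ^ 2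
      ≤ 4400 * (K.q : ℝ) * K.am ^ 2 * (20 * (g1 S p + g2 S p)) := by
    rw [div_pow, div_le_iff₀ (by positivity), mul_assoc _ (20 * (g1 S p + g2 S p))]
    exact hG'.trans (mul_le_mul_of_nonneg_left hH (by positivity))
  have hEt : (S.E p / S.ρ p ^ 2) ^ 2 ≤ 32 * K.am ^ 2 * (20 * (g1 S p + g2 S p)) := by
    rw [div_pow, div_le_iff₀ (by positivity), mul_assoc _ (20 * (g1 S p + g2 S p))]
    exact hE2.trans (mul_le_mul_of_nonneg_left hH (by positivity))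
  refine ⟨?_, ?_, ?_, ?_⟩ <;> rw [hq]
  · rw [← sq_le_one_iff_abs_le_one, mul_pow]
    have e1 := mul_le_mul_of_nonneg_left (hE2.trans (mul_le_mul_of_nonneg_left hH'
      (by positivity))) (sq_nonneg (K.q : ℝ))
    linarith [hmono 2 (by norm_num)]
  · rw [← sq_le_one_iff_abs_le_one, mul_pow]
    have e1 := mul_le_mul_of_nonneg_left (hG'.trans (mul_le_mul_of_nonneg_left hH'
      (by positivity))) (sq_nonneg (K.q : ℝ))
    linarith [hmono 3 (by norm_num)]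
  · have e1 := mul_le_mul_of_nonneg_left (add_le_add hpt hEt)
      (by positivity : 0 ≤ 4000 * (K.q : ℝ) ^ 3)
    have e2 : 4000 * (4400 * ((K.q : ℝ) ^ 4 * K.am ^ 2) + 32 * ((K.q : ℝ) ^ 3 * K.am ^ 2)) ≤ 1 := by
      linarith [hmono 3 (by norm_num)]
    have e3 := mul_le_mul_of_nonneg_right e2 (by positivity : 0 ≤ 20 * (g1 S p + g2 S p))
    linarith
  · have e1 := mul_le_mul_of_nonneg_left hpt (by positivity : 0 ≤ 1000 * (K.q : ℝ))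
    have e2 : 1000 * 4400 * 20 * ((K.q : ℝ) ^ 2 * K.am ^ 2) ≤ 1 / 16 := by
      have e4 := mul_le_mul_of_nonneg_right hq2 (by positivity : 0 ≤ (K.q : ℝ) ^ 2 * K.am ^ 2)
      have : 0 ≤ (K.q : ℝ) ^ 2 * K.am ^ 2 := by positivity
      linarith
    have e3 := mul_le_mul_of_nonneg_right e2 (by positivity : 0 ≤ g1 S p + g2 S p)
    linarith

/-! ## The evolution inequalities -/

/-- the quantity to be bounded -/
noncomputable def Ph (S : Data) (y : ℝ × ℝ) : ℝ :=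
  S.U1 y ^ 2 + S.U2 y ^ 2 + 1000 * (S.q : ℝ) * (S.P y ^ 2 * S.ρ y ^ (-4 : ℝ))

/-- the barrier without the time factor -/
noncomputable def B0 (S : Data) (y : ℝ × ℝ) : ℝ := 1 / 8 * (g1 S y + g2 S y) + 1 / 100 * g3 S y

theorem rho_neg_four (hρ : 0 < S.ρ p) : S.ρ p ^ (-4 : ℝ) = 1 / (S.ρ p ^ 2) ^ 2 := by
  rw [rpow_neg hρ.le, ← pow_mul, one_div, ← rpow_natCast]; norm_num

theorem Ph_eq (hρ : 0 < S.ρ p) :
    Ph S p = S.U1 p ^ 2 + S.U2 p ^ 2 + 1000 * (S.q : ℝ) * (S.P p / S.ρ p ^ 2) ^ 2 := by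
  unfold Ph; rw [rho_neg_four hρ]; ring

theorem Out.E_le (h : Out S p) (hq : (10000 : ℝ) ≤ S.q) : |S.E p| ≤ 1 / 100 := by
  have := h.E
  rw [abs_mul, abs_of_pos (by linarith : (0 : ℝ) < S.q)] at this
  nlinarith [abs_nonneg (S.E p)]

theorem pde_Ph (hK : K.OK) (hq : S.q = K.q) (hb : Bds K S 2 p) (hg : Geo0 K S p) (ho : Out S p)
    (ha : Alg S p) (he : Evol S p) : ∃ s b : ℝ, S.Jet (Ph S) p s b ∧
      S.φ p ^ 2 * b ≤ (8 * (K.q : ℝ) * K.N1 * S.φ p ^ 2 - 37 / 10 * (K.q : ℝ)) * Ph S p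
        + 20 * (g1 S p + g2 S p) := by
  have hφ := ha.φ_pos
  have hρ := ha.ρ_pos
  have hq1 : (10000 : ℝ) ≤ S.q := by rw [hq]; exact hK.q_geR
  have hN := hK.N1_ge
  obtain ⟨s, jP, hU, -⟩ := he.jP ha
  refine ⟨_, _, (he.jU1.sq.add he.jU2.sq).add ((jP.sq.mul (he.jρpow ha (-4))).const_mul
    (1000 * (S.q : ℝ))), ?_⟩
  have hx : S.φ p * S.β p = S.A p + S.P p := S.β_eq p
  have hm : 0 ≤ K.N1 * S.ρ p ^ 2 := by positivity
  have hz : |(S.q : ℝ) * (((S.q : ℝ) + 1) * S.A p ^ 2 - ((S.q : ℝ) - 1))|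
      ≤ 4 * (K.N1 * S.ρ p ^ 2) + 7 := by
    refine z_bound hq1 (sq_nonneg (S.ρ p)) (sq_nonneg (S.φ p)) ?_ hg.φ_sq_le hb.R
      (by unfold Consts.N1; linarith [hK.M_ge]) hg.a_le ho.E hg.A_le ho.P
    rw [← ha.Z_eq]
    unfold Data.Z
    field_simp
  have hsc : ∀ x : ℝ, S.ρ p ^ 2 * |x| ≤ 1 / 100 + K.N1 * S.ρ p ^ 2 →
      |S.φ p ^ 2 * x| ≤ 11 / 10 * (1 / 100 + K.N1 * S.ρ p ^ 2) := fun x h => by
    rw [abs_mul, abs_of_nonneg (sq_nonneg (S.φ p))]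
    linarith [mul_le_mul_of_nonneg_right hg.φ_sq_le (abs_nonneg x)]
  have hkk : S.kk p = (1 - S.A p ^ 2) / S.φ p ^ 2 := by
    rw [eq_div_iff (by positivity), mul_comm]; exact ha.kk_eq
  have hvv : S.vv p = S.β p / S.φ p := by
    rw [eq_div_iff hφ.ne', mul_comm]; exact ha.vv_eq
  have hE : 1 - S.E p = S.φ p ^ 2 / S.ρ p ^ 2 := by unfold Data.E; ring
  have i1 := U_ineq (U1 := S.U1 p) (U2 := S.U2 p) (db := S.φ p ^ 2 * S.Ds S.β p)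
    (h := S.φ p ^ 2 * S.hh p) hq1 hm hg.A_le ho.P ho.E hx hz (hsc _ hg.b_le) (hsc _ hg.c_le)
    (by rw [ha.c_eq, hvv, hE]; field_simp; ring)
    (by unfold Data.b; rw [hvv, hkk]; field_simp; ring)
  have i2 := P_ineq (pt := S.P p / S.ρ p ^ 2) (st := S.φ p * s / S.ρ p ^ 2)
    (Et := S.E p / S.ρ p ^ 2) (U2 := S.U2 p) hq1 hg.A_le ho.P ho.E hx (by
      have : (1 - S.E p) * S.U2 p = S.φ p * (S.φ p * S.U2 p) / S.ρ p ^ 2 := by rw [hE]; ring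
      rw [this, hU]; field_simp)
  have i3 := mul_le_mul_of_nonneg_left i2 (by positivity : 0 ≤ 1000 * (S.q : ℝ))
  have i4 := ho.err
  have i5 : S.ρ p ^ 2 ≤ 2 * S.φ p ^ 2 := by
    have := (abs_le.1 (ho.E_le hq1)).2
    rw [ha.φ_sq]
    nlinarith [sq_nonneg (S.ρ p)]
  have i6 : 4 * ((S.q : ℝ) * (K.N1 * S.ρ p ^ 2)) * (S.U1 p ^ 2 + S.U2 p ^ 2)
      ≤ 8 * (S.q : ℝ) * K.N1 * S.φ p ^ 2 * Ph S p := by
    refine mul_le_mul ?_ ?_ (by positivity) (by positivity)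
    · linarith [mul_le_mul_of_nonneg_left i5 (by positivity : 0 ≤ (S.q : ℝ) * K.N1)]
    · rw [Ph_eq hρ]
      have : 0 ≤ 1000 * (S.q : ℝ) * (S.P p / S.ρ p ^ 2) ^ 2 := by positivity
      linarith
  have j1 : S.φ p ^ 2 * (-2 * (S.q : ℝ) * (S.A p / S.φ p) ^ 2 * (S.U1 p - S.U2 p)
      - (4 * S.β p ^ 2 - 2 * S.Ds S.β p - 2 * S.c p) * S.U1 p
      + 2 * (S.q : ℝ) * (S.A p * S.vv p - S.hh p) * S.U2 p)
      = -2 * (S.q : ℝ) * S.A p ^ 2 * (S.U1 p - S.U2 p) - (4 * (S.φ p * S.β p) ^ 2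
        - 2 * (S.φ p ^ 2 * S.Ds S.β p) - 2 * (S.φ p ^ 2 * S.c p)) * S.U1 p
        + 2 * (S.q : ℝ) * (S.A p * (S.φ p * S.β p) - S.φ p ^ 2 * S.hh p) * S.U2 p := by
    rw [hvv]; field_simp
  have j2 : S.φ p ^ 2 * (2 * (S.A p / S.φ p) ^ 2 * (S.U1 p - S.U2 p)
      + 2 * (S.Ds S.β p - S.hh p) * S.U1 p
      + (2 * ((S.q : ℝ) - 1) * S.kk p + 2 * (S.q : ℝ) * S.A p * S.vv p + 2 * S.c p) * S.U2 p)
      = 2 * S.A p ^ 2 * (S.U1 p - S.U2 p)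
        + 2 * (S.φ p ^ 2 * S.Ds S.β p - S.φ p ^ 2 * S.hh p) * S.U1 p
        + (2 * ((S.q : ℝ) - 1) * (1 - S.A p ^ 2) + 2 * (S.q : ℝ) * S.A p * (S.φ p * S.β p)
          + 2 * (S.φ p ^ 2 * S.c p)) * S.U2 p := by
    rw [hvv, hkk]; field_simp
  have j3 : S.φ p ^ 2 * ((2 * S.P p * (-2 * (S.A p / S.φ p) * s
      + S.P p * (((S.q : ℝ) - 1) * (1 - S.A p ^ 2 - 2 * S.E p) / S.φ p ^ 2 - 2 * S.β p ^ 2)
      - 2 * ((S.q : ℝ) - 1) * S.A p * S.E p / S.φ p ^ 2) - 2 * s ^ 2) * S.ρ p ^ (-4 : ℝ)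
      + S.P p ^ 2 * ((- -4 * ((S.q : ℝ) - 1) / S.ρ p ^ 2 - (-4) ^ 2 * S.β p ^ 2)
        * S.ρ p ^ (-4 : ℝ)) - 2 * (2 * S.P p * s) * (-4 * S.β p * S.ρ p ^ (-4 : ℝ)))
      = -4 * S.A p * (S.P p / S.ρ p ^ 2) * (S.φ p * s / S.ρ p ^ 2)
        + 2 * (S.P p / S.ρ p ^ 2) ^ 2 * (((S.q : ℝ) - 1) * (1 - S.A p ^ 2 - 2 * S.E p)
          - 2 * (S.φ p * S.β p) ^ 2)
        - 4 * ((S.q : ℝ) - 1) * S.A p * (S.E p / S.ρ p ^ 2) * (S.P p / S.ρ p ^ 2)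
        - 2 * (S.φ p * s / S.ρ p ^ 2) ^ 2
        + (S.P p / S.ρ p ^ 2) ^ 2 * (4 * ((S.q : ℝ) - 1) * (1 - S.E p)
          - 16 * (S.φ p * S.β p) ^ 2)
        + 16 * (S.φ p * S.β p) * (S.P p / S.ρ p ^ 2) * (S.φ p * s / S.ρ p ^ 2) := by
    rw [rho_neg_four hρ, hE]; field_simp; ring
  rw [← j1, ← j2] at i1
  rw [← j3] at i3
  have k1 : 0 ≤ S.φ p ^ 2 * S.Ds S.U1 p ^ 2 := by positivity
  have k2 : 0 ≤ S.φ p ^ 2 * S.Ds S.U2 p ^ 2 := by positivity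
  have k3 : (S.q : ℝ) * Ph S p = (S.q : ℝ) * (S.U1 p ^ 2 + S.U2 p ^ 2
      + 1000 * (S.q : ℝ) * (S.P p / S.ρ p ^ 2) ^ 2) := by rw [Ph_eq hρ]
  rw [← hq]
  linarith

theorem pde_B0 (hq : (10000 : ℝ) ≤ S.q) (hg : Geo0 K S p) (ho : Out S p)
    (ha : Alg S p) (he : Evol S p) : ∃ s b : ℝ, S.Jet (B0 S) p s b ∧
      -(34 / 10) * (S.q : ℝ) * B0 S p ≤ S.φ p ^ 2 * b := by
  have hφ := ha.φ_pos
  have hρ := ha.ρ_pos
  have hσ := hg.σ_pos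
  refine ⟨_, _, (((he.jpow ha hσ (73 / 20) (-41 / 10)).add (he.jρpow ha (16 / 5))).const_mul
    (1 / 8)).add ((he.jpow ha hσ (193 / 20) (-161 / 10)).const_mul (1 / 100)), ?_⟩
  have hE := abs_le.1 (ho.E_le hq)
  have hP : |S.P p| ≤ 1 / 100 := by
    have := ho.P
    rw [abs_mul, abs_of_pos (by linarith : (0 : ℝ) < S.q)] at this
    nlinarith [abs_nonneg (S.P p)]
  have hx : (S.φ p * S.β p) ^ 2 ≤ 2 := by
    have : |S.A p + S.P p| ≤ 101 / 100 := by linarith [abs_add_le (S.A p) (S.P p), hg.A_le]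
    rw [S.β_eq p, ← sq_abs]
    nlinarith [abs_nonneg (S.A p + S.P p)]
  have hX := X_g hg hρ
  have key := B_ineq (e := 1 - S.E p) hq (by linarith) (by linarith) hx (g1_pos hσ hρ).le
    (g2_pos hρ).le (g3_pos hσ hρ).le hX.1 hX.2
  refine le_of_le_of_eq key ?_
  unfold g1 g2 g3 Data.E
  field_simp
  ring

end Outer

open Outer

variable {S : Data} {J : Set ℝ} {K : Consts} {t1 : ℝ} {p : ℝ × ℝ} {d : Fin 3 → ℝ}

theorem Ctx.ubound_out (h : Ctx K S J t1 d) (hg : ∀ p ∈ strip t1, Geo0 K S p)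
    (hG : ∀ p ∈ strip t1, Grad K S p) (h1 : S.sg 0 ≤ 1 / 20)
    (h2 : 16 * (K.q : ℝ) * K.N1 * S.sg 0 ≤ 1) (hp : p ∈ strip t1) (hX : 1 ≤ S.X p) :
    S.U1 p ^ 2 + S.U2 p ^ 2 ≤ 2 / 5 * K.M ^ 2 * (S.G1 p ^ 2 + S.G2 p ^ 2) := by
  have hB := h.boot
  have hK := hB.ok
  have hS := hB.sol
  have hq := h.q_geR
  have hN := hK.N1_ge
  have hM : 1 ≤ K.M ^ 2 := one_le_pow₀ hK.M_ge
  obtain ⟨L, hL⟩ : ∃ L, L = 8 * (K.q : ℝ) * K.N1 := ⟨_, rfl⟩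
  have hL0 : 0 ≤ L := by rw [hL]; positivity
  have ho : ∀ p ∈ strip t1, S.σ p - 4 * S.φ p ^ 2 ≤ 0 → Out S p := fun p hp hC =>
    out hK hB.q_eq (hB.bds p hp) (hg p hp) (hG p hp) (h.ρ_pos p) h1 (by linarith)
  have hw : ∀ p ∈ strip t1, 1 ≤ 2 * L * (S.sg 0 - S.σ p) + 1 ∧
      2 * L * (S.sg 0 - S.σ p) + 1 ≤ 2 := fun p hp => by
    have e1 := (hg p hp).σ_le
    have e2 := (hg p hp).σ_pos
    have e3 := mul_nonneg hL0 (sub_nonneg.2 e1)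
    have e4 := mul_nonneg hL0 e2.le
    have e5 : 2 * (L * S.sg 0) ≤ 1 := by rw [hL]; linarith
    constructor <;> linarith
  have hsq : ∀ p ∈ strip t1, ∀ U k : ℝ, |U| ≤ k * (S.G1 p + S.G2 p) →
      U ^ 2 ≤ 2 * k ^ 2 * (g1 S p + g2 S p) := fun p hp U k hU => by
    have e1 := pow_le_pow_left₀ (abs_nonneg _) hU 2
    rw [sq_abs] at e1
    rw [g1_eq (hg p hp).σ_pos (h.ρ_pos p), g2_eq (h.ρ_pos p)]
    nlinarith [mul_nonneg (sq_nonneg k) (sq_nonneg (S.G1 p - S.G2 p))]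
  have key := h.mp1 (C := fun y => S.σ y - 4 * S.φ y ^ 2)
    (f := fun y => Ph S y - (2 * L * (S.sg 0 - S.σ y) + 1) * (K.M ^ 2 * B0 S y))
    ((h.cont hS.sm_σ).sub (continuousOn_const.mul ((h.cont hS.sm_φ).pow 2)))
    (((((h.cont hS.sm_U1).pow 2).add ((h.cont hS.sm_U2).pow 2)).add (continuousOn_const.mul
      (((h.cont hS.sm_P).pow 2).mul (hB.cont_ρpow _)))).sub
      (((continuousOn_const.mul (continuousOn_const.sub (h.cont hS.sm_σ))).add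
        continuousOn_const).mul (continuousOn_const.mul ((continuousOn_const.mul
          ((hB.cont_pow _ _).add (hB.cont_ρpow _))).add
            (continuousOn_const.mul (hB.cont_pow _ _))))))
    (fun θ hθ hC => by
      have hp : (θ, (0 : ℝ)) ∈ strip t1 := ⟨hθ, le_rfl, h.t1_nonneg⟩
      have e1 := hsq _ hp _ _ (h.init.U1 θ hθ)
      have e2 := hsq _ hp _ _ (h.init.U2 θ hθ)
      have e3 := (ho _ hp hC).small
      have e4 := g1_pos (hg _ hp).σ_pos (h.ρ_pos _)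
      have e5 := g2_pos (h.ρ_pos (θ, 0))
      have e6 := g3_pos (hg _ hp).σ_pos (h.ρ_pos _)
      have e7 := mul_le_mul_of_nonneg_right hM (add_pos e4 e5).le
      have e8 : 0 ≤ K.M ^ 2 * g3 S (θ, 0) := by positivity
      have e9 : S.σ (θ, 0) = S.sg 0 := rfl
      simp only [Ph_eq (h.ρ_pos (θ, 0)), e9, B0]
      linarith)
    (fun p hp hC => by
      have hσ := (hg p hp).σ_pos
      have hρ := h.ρ_pos p
      have hC' : S.σ p - 4 * S.φ p ^ 2 = 0 := hC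
      have e0 := ho p hp hC'.le
      have e1 := hsq _ hp _ _ (hB.bds p hp).U1
      have e2 := hsq _ hp _ _ (hB.bds p hp).U2
      have e3 := e0.small
      have e4 := g1_pos hσ hρ
      have e5 := g2_pos hρ
      have e6 := g3_pos hσ hρ
      have hy : 396 / 100 ≤ S.σ p / S.ρ p ^ 2 := by
        have := (abs_le.1 (e0.E_le hq)).2
        rw [le_div_iff₀ (by positivity)]
        nlinarith [(h.alg hp).φ_sq, sq_nonneg (S.ρ p)]
      have e7 : g2 S p ≤ g1 S p := by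
        rw [g1_eq_g2 hσ hρ]
        exact le_mul_of_one_le_right e5.le (one_le_rpow (by linarith) (by norm_num))
      have e8 : 3800 * g1 S p ≤ g3 S p := by
        have := pow_le_pow_left₀ (by norm_num) hy 6
        rw [g3_eq hσ hρ, mul_comm]
        exact mul_le_mul_of_nonneg_left (le_trans (by norm_num) this) e4.le
      have e9 := mul_le_mul_of_nonneg_left e7 (sq_nonneg K.M)
      have e10 := mul_le_mul_of_nonneg_left e8 (sq_nonneg K.M)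
      have e11 := mul_le_mul_of_nonneg_right hM e4.le
      have e12 : 0 ≤ K.M ^ 2 * g2 S p := by positivity
      have e13 : K.M ^ 2 * B0 S p ≤ (2 * L * (S.sg 0 - S.σ p) + 1) * (K.M ^ 2 * B0 S p) :=
        le_mul_of_one_le_left (by unfold B0; positivity) (hw p hp).1
      have e14 : Ph S p ≤ K.M ^ 2 * B0 S p := by
        rw [Ph_eq hρ]; unfold B0; linarith
      linarith) L
    (fun p hp ht hC hf => by
      have hσ := (hg p hp).σ_pos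
      have hρ := h.ρ_pos p
      have ha := h.alg hp
      have hφ := ha.φ_pos
      have he := h.evol p hp ht
      have e0 := ho p hp (le_of_lt hC)
      obtain ⟨s1, b1, j1, i1⟩ := pde_Ph hK hB.q_eq (hB.bds p hp) (hg p hp) e0 ha he
      obtain ⟨s2, b2, j2, i2⟩ := pde_B0 hq (hg p hp) e0 ha he
      refine ⟨_, _, 0, L - 37 / 10 * (S.q : ℝ) / S.φ p ^ 2, j1.sub
        ((((he.jσ.const_sub (S.sg 0)).const_mul (2 * L)).add_const 1).mul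
          (j2.const_mul (K.M ^ 2))), ?_, by simp, ?_⟩
      · rw [← hL, h.qK] at i1
        obtain ⟨w1, w2⟩ := hw p hp
        obtain ⟨w, hwd⟩ : ∃ w, w = 2 * L * (S.sg 0 - S.σ p) + 1 := ⟨_, rfl⟩
        simp only [← hwd] at w1 w2 hf ⊢
        have e4 := g1_pos hσ hρ
        have e5 := g2_pos hρ
        have e6 := g3_pos hσ hρ
        have hB0 : 0 ≤ B0 S p := by unfold B0; positivity
        have e7 : 20 * (g1 S p + g2 S p) ≤ 3 / 10 * (S.q : ℝ) * (w * (K.M ^ 2 * B0 S p)) := by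
          have f1 : B0 S p ≤ w * (K.M ^ 2 * B0 S p) :=
            (le_mul_of_one_le_left hB0 hM).trans (le_mul_of_one_le_left (by positivity) w1)
          have f2 : 1 / 8 * (g1 S p + g2 S p) ≤ B0 S p := by unfold B0; linarith
          have f3 := mul_le_mul hq (f2.trans f1) (by positivity) (by linarith)
          linarith
        have e8 := mul_le_mul_of_nonneg_left i2 (by positivity : 0 ≤ w * K.M ^ 2)
        have e9 := mul_le_mul_of_nonneg_right w2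
          (by positivity : 0 ≤ L * S.φ p ^ 2 * (K.M ^ 2 * B0 S p))
        refine le_of_mul_le_mul_left ?_ (pow_pos hφ 2)
        have e10 : S.φ p ^ 2 * ((L - 37 / 10 * (S.q : ℝ) / S.φ p ^ 2)
            * (Ph S p - w * (K.M ^ 2 * B0 S p)))
            = (L * S.φ p ^ 2 - 37 / 10 * (S.q : ℝ)) * (Ph S p - w * (K.M ^ 2 * B0 S p)) := by
          field_simp
        rw [e10]
        linarith
      · have : 0 ≤ (S.q : ℝ) / S.φ p ^ 2 := by positivity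
        rw [mul_div_assoc, mul_div_assoc]
        linarith)
  have hσ := (hg p hp).σ_pos
  have hρ := h.ρ_pos p
  have hX' : S.σ p ≤ S.φ p ^ 2 := by
    have := (le_div_iff₀ hσ).1 hX
    linarith
  have e1 := key p hp (by linarith)
  have e4 := g1_pos hσ hρ
  have e5 := g2_pos hρ
  have e6 : g3 S p ≤ 2 * g1 S p := by
    have hy : S.σ p / S.ρ p ^ 2 ≤ 11 / 10 := by
      rw [div_le_iff₀ (by positivity)]; linarith [(hg p hp).φ_sq_le]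
    have := pow_le_pow_left₀ (by positivity) hy 6
    rw [g3_eq hσ hρ, mul_comm 2]
    exact mul_le_mul_of_nonneg_left (this.trans (by norm_num)) e4.le
  have e7 : B0 S p ≤ 1 / 5 * (g1 S p + g2 S p) := by unfold B0; linarith
  have e8 : (2 * L * (S.sg 0 - S.σ p) + 1) * (K.M ^ 2 * B0 S p)
      ≤ 2 * (K.M ^ 2 * (1 / 5 * (g1 S p + g2 S p))) :=
    mul_le_mul (hw p hp).2 (mul_le_mul_of_nonneg_left e7 (sq_nonneg _))
      (by have := g3_pos hσ hρ; unfold B0; positivity) (by norm_num)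
  have e9 : 0 ≤ 1000 * (S.q : ℝ) * (S.P p / S.ρ p ^ 2) ^ 2 := by positivity
  simp only [Ph_eq hρ] at e1
  rw [← g1_eq hσ hρ, ← g2_eq hρ]
  linarith

theorem ubound_out (K : Consts) : Ev K (fun S _ t1 => ∀ p ∈ strip t1, 1 ≤ S.X p →
    S.U1 p ^ 2 + S.U2 p ^ 2 ≤ 2 / 5 * K.M ^ 2 * (S.G1 p ^ 2 + S.G2 p ^ 2)) :=
  (((geo0 K).and (grad_of K (geo0 K) (trap K))).and ((Ev.small_one K 1 (η := 1 / 20)
    (by norm_num)).and (Ev.small_one K (16 * (K.q : ℝ) * K.N1) one_pos))).mono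
    fun _ _ _ _ h h1 _ hp hX => h.ubound_out h1.1.1 (fun p hp => (h1.1.2 p hp).1)
      (by linarith [h1.2.1]) h1.2.2 hp hX

end Vale.Agent.P244Z.Q
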