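import Mathlib.Analysis.SpecialFunctions.Gaussian.GaussianIntegral
import Mathlib.Analysis.SpecialFunctions.ImproperIntegrals
import Mathlib.Analysis.SpecialFunctions.Pow.Asymptotics
import Mathlib.Analysis.SpecialFunctions.Pow.Deriv
import Mathlib.MeasureTheory.Integral.IntegralEqImproper

/-!
# P244: the spectral gaps of the Laguerre operator, by a ladder of antiderivatives
-/

open Set Real Filter Topology MeasureTheory

namespace Vale.Agent.P244Z.Q.Gap

/-- the weight -/
noncomputable def w (ν c X : ℝ) : ℝ := X ^ (ν - 1) * exp (-c * X)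

/-- the weighted integral -/
noncomputable def W (ν c : ℝ) (f : ℝ → ℝ) : ℝ := ∫ X in Ioi (0 : ℝ), f X * w ν c X

/-- continuous, bounded at `0`, of subexponential growth -/
structure PB (f : ℝ → ℝ) : Prop where
  cont : ContinuousOn f (Ioi 0)
  bd : ∀ ε > 0, ∃ C, ∀ X, 0 < X → |f X| ≤ C * exp (ε * X)

variable {f g f1 g1 g2 : ℝ → ℝ} {ν c : ℝ}

theorem w_pos (ν c : ℝ) {X : ℝ} (hX : 0 < X) : 0 < w ν c X :=
  mul_pos (rpow_pos_of_pos hX _) (exp_pos _)

theorem w_succ (ν c : ℝ) {X : ℝ} (hX : 0 < X) : w (ν + 1) c X = X * w ν c X := by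
  unfold w
  rw [show ν + 1 - 1 = 1 + (ν - 1) by ring, rpow_add hX, rpow_one, mul_assoc]

theorem w_cont (ν c : ℝ) : ContinuousOn (w ν c) (Ioi 0) := fun X hX =>
  ((continuousAt_rpow_const X _ (Or.inl (ne_of_gt hX))).mul (by fun_prop)).continuousWithinAt

theorem hasDerivAt_w (ν c : ℝ) {X : ℝ} (hX : 0 < X) :
    HasDerivAt (w (ν + 1) c) ((ν - c * X) * w ν c X) X := by
  have h1 := (hasDerivAt_rpow_const (p := ν + 1 - 1) (Or.inl hX.ne')).mul
    ((hasDerivAt_id X).const_mul (-c)).exp
  refine HasDerivAt.congr_deriv h1 ?_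
  have h2 := w_succ ν c hX
  unfold w at h2 ⊢
  simp only [id, mul_one, add_sub_cancel_right] at h2 ⊢
  linear_combination (-c) * h2

namespace PB

theorem congr (hf : PB f) (h : ∀ X, 0 < X → g X = f X) : PB g :=
  ⟨hf.cont.congr h, fun ε hε => (hf.bd ε hε).imp fun _ hC X hX => by rw [h X hX]; exact hC X hX⟩

theorem of_bdd (hf : ContinuousOn f (Ioi 0)) {C : ℝ} (hC : ∀ X, 0 < X → |f X| ≤ C) : PB f :=
  ⟨hf, fun ε hε => ⟨C, fun X hX => (hC X hX).trans (le_mul_of_one_le_right
    ((abs_nonneg _).trans (hC X hX)) (one_le_exp (by positivity)))⟩⟩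

theorem const (a : ℝ) : PB fun _ => a := of_bdd continuousOn_const fun _ _ => le_rfl

theorem id : PB fun X => X :=
  ⟨continuousOn_id, fun ε hε => ⟨1 / ε, fun X hX => by
    rw [abs_of_pos hX, div_mul_eq_mul_div, le_div_iff₀ hε]
    linarith [add_one_le_exp (ε * X)]⟩⟩

theorem add (hf : PB f) (hg : PB g) : PB fun X => f X + g X :=
  ⟨hf.cont.add hg.cont, fun ε hε => by
    obtain ⟨C, hC⟩ := hf.bd ε hε
    obtain ⟨D, hD⟩ := hg.bd ε hε
    exact ⟨C + D, fun X hX => (abs_add_le _ _).trans (by linarith [hC X hX, hD X hX])⟩⟩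

theorem mul (hf : PB f) (hg : PB g) : PB fun X => f X * g X :=
  ⟨hf.cont.mul hg.cont, fun ε hε => by
    obtain ⟨C, hC⟩ := hf.bd (ε / 2) (by positivity)
    obtain ⟨D, hD⟩ := hg.bd (ε / 2) (by positivity)
    refine ⟨C * D, fun X hX => ?_⟩
    rw [abs_mul, show ε * X = ε / 2 * X + ε / 2 * X by ring, exp_add]
    exact (mul_le_mul (hC X hX) (hD X hX) (abs_nonneg _)
      ((abs_nonneg _).trans (hC X hX))).trans (le_of_eq (by ring))⟩

theorem cmul (a : ℝ) (hf : PB f) : PB fun X => a * f X := (const a).mul hf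

theorem sub (hf : PB f) (hg : PB g) : PB fun X => f X - g X :=
  (hf.add (hg.cmul (-1))).congr fun _ _ => by ring

theorem pow (hf : PB f) (n : ℕ) : PB fun X => f X ^ n := by
  induction n with
  | zero => simpa using const 1
  | succ n ih => simpa [pow_succ] using ih.mul hf

theorem lin (ν c : ℝ) : PB fun X => ν - c * X := (const ν).sub (id.cmul c)

theorem le_half (hf : PB f) (ν : ℝ) (hc : 0 < c) :
    ∃ C, ∀ X, 0 < X → |f X * w ν c X| ≤ C * w ν (c / 2) X := by
  obtain ⟨C, hC⟩ := hf.bd (c / 2) (by positivity)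
  refine ⟨C, fun X hX => ?_⟩
  rw [abs_mul, abs_of_pos (w_pos ν c hX)]
  refine (mul_le_mul_of_nonneg_right (hC X hX) (w_pos ν c hX).le).trans (le_of_eq ?_)
  unfold w
  rw [show -(c / 2) * X = c / 2 * X + -c * X by ring, exp_add]
  ring

theorem integrable (hf : PB f) (hν : 0 < ν) (hc : 0 < c) :
    IntegrableOn (fun X => f X * w ν c X) (Ioi 0) := by
  obtain ⟨C, hC⟩ := hf.le_half ν hc
  have h := integrableOn_rpow_mul_exp_neg_mul_rpow (p := 1) (s := ν - 1) (b := c / 2)
    (by linarith) one_pos (by positivity)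
  simp only [rpow_one] at h
  refine Integrable.mono' (h.const_mul C)
    ((hf.cont.mul (w_cont ν c)).aestronglyMeasurable measurableSet_Ioi) ?_
  filter_upwards [ae_restrict_mem measurableSet_Ioi] with X hX
  exact hC X hX

theorem integrable' (hf : PB fun X => X * f X) (hν : 1 < ν) (hc : 0 < c) :
    IntegrableOn (fun X => f X * w ν c X) (Ioi 0) := by
  refine (hf.integrable (ν := ν - 1) (by linarith) hc).congr_fun (fun X hX => ?_) measurableSet_Ioi
  have := w_succ (ν - 1) c hX
  rw [sub_add_cancel] at this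
  simp only [this]
  ring

end PB

/-- the fundamental theorem of calculus with vanishing boundary terms -/
theorem ftc {F : ℝ → ℝ} (hf : PB f) (hν : 1 < ν) (hc : 0 < c)
    (hd : ∀ X, 0 < X → HasDerivAt (fun X => f X * w ν c X) (F X) X)
    (hi : IntegrableOn F (Ioi 0)) : ∫ X in Ioi (0 : ℝ), F X = 0 := by
  obtain ⟨C, hC⟩ := hf.le_half ν hc
  have w0 : ∀ c, w ν c 0 = 0 := fun c => by
    unfold w; rw [zero_rpow (by linarith), zero_mul]
  have cw : Continuous (w ν (c / 2)) :=
    (continuous_rpow_const (by linarith)).mul (by fun_prop)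
  have h := integral_Ioi_of_hasDerivAt_of_tendsto (m := 0) ?_ hd hi ?_
  · rw [h, w0]; simp
  · refine (continuousWithinAt_Ioi_iff_Ici.1 ?_)
    unfold ContinuousWithinAt
    simp only [w0, mul_zero]
    have h1 : Tendsto (fun X => C * w ν (c / 2) X) (𝓝[>] 0) (𝓝 0) := by
      have := ((cw.tendsto 0).const_mul C).mono_left (nhdsWithin_le_nhds (s := Ioi 0))
      rwa [w0, mul_zero] at this
    refine squeeze_zero_norm' ?_ h1
    filter_upwards [self_mem_nhdsWithin] with X hX using hC X hX
  · have h1 := (tendsto_rpow_mul_exp_neg_mul_atTop_nhds_zero (ν - 1) (c / 2)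
      (by positivity)).const_mul C
    rw [mul_zero] at h1
    refine squeeze_zero_norm' ?_ h1
    filter_upwards [eventually_gt_atTop 0] with X hX using hC X hX

/-- the formula of Green -/
theorem green (hν : 1 < ν) (hc : 0 < c) (hf : ∀ X, 0 < X → HasDerivAt f (f1 X) X)
    (hg : ∀ X, 0 < X → HasDerivAt g1 (g2 X) X) (hb : PB fun X => X * (f X * g1 X))
    (i1 : IntegrableOn (fun X => X * f1 X * g1 X * w ν c X) (Ioi 0))
    (i2 : IntegrableOn (fun X => f X * (X * g2 X + (ν - c * X) * g1 X) * w ν c X) (Ioi 0)) :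
    W ν c (fun X => f X * (X * g2 X + (ν - c * X) * g1 X)) =
      -W ν c (fun X => X * f1 X * g1 X) := by
  have h := ftc hb hν hc (fun X hX => ?_) (i1.add i2)
  · simp only [Pi.add_apply] at h
    rw [integral_add i1 i2] at h
    unfold W
    linarith
  · have h1 := ((hf X hX).mul (hg X hX)).mul (hasDerivAt_w ν c hX)
    refine (h1.congr_deriv ?_).congr_of_eventuallyEq ?_
    · simp only [Pi.add_apply, Pi.mul_apply, w_succ ν c hX]; ring
    · filter_upwards [Ioi_mem_nhds hX] with Y hY
      simp only [Pi.mul_apply, w_succ ν c hY]; ring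

/-- the antiderivative -/
theorem exists_anti (hν : 1 ≤ ν) (hc : 0 < c) (hf : PB f) (h0 : W ν c f = 0) :
    ∃ g g1 : ℝ → ℝ, PB g ∧ (∀ X, 0 < X → HasDerivAt g (g1 X) X) ∧
      ∀ X, 0 < X → X * g1 X + (ν - c * X) * g X = -f X := by
  have hi := hf.integrable (ν := ν) (by linarith) hc
  have hct : ContinuousOn (fun X => f X * w ν c X) (Ioi 0) := hf.cont.mul (w_cont ν c)
  set G : ℝ → ℝ := fun X => ∫ s in (0 : ℝ)..X, f s * w ν c s with hG
  have hd : ∀ X, 0 < X → HasDerivAt G (f X * w ν c X) X := fun X hX =>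
    intervalIntegral.integral_hasDerivAt_right
      ((intervalIntegrable_iff_integrableOn_Ioc_of_le hX.le).2 (hi.mono_set Ioc_subset_Ioi_self))
      (hct.stronglyMeasurableAtFilter isOpen_Ioi X hX) (hct.continuousAt (Ioi_mem_nhds hX))
  have hg : ∀ X, 0 < X → HasDerivAt (fun X => -G X / w (ν + 1) c X)
      ((-f X + (ν - c * X) * (G X / w (ν + 1) c X)) / X) X := fun X hX => by
    refine ((hd X hX).neg.div (hasDerivAt_w ν c hX) (w_pos _ c hX).ne').congr_deriv ?_
    have := (w_pos ν c hX).ne'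
    simp only [Pi.neg_apply, w_succ ν c hX]
    field_simp
    ring
  refine ⟨_, _, ⟨fun X hX => (hg X hX).continuousAt.continuousWithinAt, fun ε hε => ?_⟩, hg,
    fun X hX => by field_simp; ring⟩
  obtain ⟨C, hC⟩ := hf.bd 1 one_pos
  have hC0 : 0 ≤ C := by
    have := (abs_nonneg _).trans (hC 1 one_pos)
    exact nonneg_of_mul_nonneg_left this (exp_pos _)
  obtain ⟨D, hD⟩ := (hf.mul (((PB.const 1).add PB.id).pow ⌈ν - 1⌉₊)).bd (min ε (c / 2))
    (by positivity)
  have hD0 : 0 ≤ D := by
    have := (abs_nonneg _).trans (hD 1 one_pos)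
    exact nonneg_of_mul_nonneg_left this (exp_pos _)
  refine ⟨C * exp 1 * exp c + D * (2 / c), fun X hX => ?_⟩
  have hw := w_pos (ν + 1) c hX
  have e1 : 1 ≤ exp (ε * X) := one_le_exp (by positivity)
  rw [abs_div, abs_neg, abs_of_pos hw, div_le_iff₀ hw]
  rcases le_total X 1 with h1 | h1
  · have h2 := intervalIntegral.norm_integral_le_of_norm_le_const (a := 0) (b := X)
      (f := fun s => f s * w ν c s) (C := C * exp 1 * X ^ (ν - 1)) fun s hs => by
        rw [uIoc_of_le hX.le] at hs
        rw [Real.norm_eq_abs, abs_mul, abs_of_pos (w_pos ν c hs.1)]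
        have h3 : w ν c s ≤ X ^ (ν - 1) := by
          unfold w
          have : exp (-c * s) ≤ 1 := exp_le_one_iff.2 (by nlinarith [hs.1])
          exact (mul_le_of_le_one_right (rpow_nonneg hs.1.le _) this).trans
            (rpow_le_rpow hs.1.le hs.2 (by linarith))
        refine mul_le_mul ((hC s hs.1).trans ?_) h3 (w_pos ν c hs.1).le (by positivity)
        gcongr
        linarith [hs.2]
    rw [Real.norm_eq_abs, sub_zero, abs_of_pos hX] at h2
    refine h2.trans ?_
    have h3 : X ^ (ν - 1) * X ≤ exp c * w (ν + 1) c X := by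
      rw [w_succ ν c hX]
      unfold w
      have : 1 ≤ exp c * exp (-c * X) := by
        rw [← exp_add]; exact one_le_exp (by nlinarith)
      have h4 : 0 ≤ X ^ (ν - 1) * X := by positivity
      nlinarith
    calc _ = C * exp 1 * (X ^ (ν - 1) * X) := by ring
      _ ≤ C * exp 1 * (exp c * w (ν + 1) c X) := by gcongr
      _ = (C * exp 1 * exp c + 0) * 1 * w (ν + 1) c X := by ring
      _ ≤ _ := by gcongr; positivity
  · have h2 := intervalIntegral.integral_interval_add_Ioi hi (hi.mono_set (Ioi_subset_Ioi hX.le))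
    change G X + _ = W ν c f at h2
    have hη : min ε (c / 2) - c < 0 := by linarith [min_le_right ε (c / 2)]
    have h3 := norm_integral_le_of_norm_le (μ := volume.restrict (Ioi X))
      (f := fun s => f s * w ν c s) ((integrableOn_exp_mul_Ioi hη X).const_mul D) (by
        filter_upwards [ae_restrict_mem measurableSet_Ioi] with s hs
        have hs0 : 0 < s := hX.trans hs
        have h4 := hD s hs0
        have h5 : s ^ (ν - 1) ≤ (1 + s) ^ ⌈ν - 1⌉₊ := by
          rw [← rpow_natCast]
          exact (rpow_le_rpow hs0.le (by linarith) (by linarith)).trans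
            (rpow_le_rpow_of_exponent_le (by linarith) (Nat.le_ceil _))
        rw [abs_mul, abs_of_pos (show 0 < (1 + s) ^ ⌈ν - 1⌉₊ by positivity)] at h4
        rw [Real.norm_eq_abs, abs_mul, abs_of_pos (w_pos ν c hs0), sub_mul, sub_eq_add_neg,
          exp_add, ← mul_assoc, ← neg_mul]
        unfold w
        rw [← mul_assoc]
        exact mul_le_mul_of_nonneg_right
          ((mul_le_mul_of_nonneg_left h5 (abs_nonneg _)).trans h4) (exp_pos _).le)
    rw [integral_const_mul, integral_exp_mul_Ioi hη, Real.norm_eq_abs] at h3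
    rw [show G X = -∫ s in Ioi X, f s * w ν c s by linarith, abs_neg]
    refine h3.trans ?_
    have h4 : exp ((min ε (c / 2) - c) * X) ≤ exp (ε * X) * w (ν + 1) c X := by
      unfold w
      have h5 : 1 ≤ X ^ (ν + 1 - 1) := one_le_rpow h1 (by linarith)
      have h6 : exp ((min ε (c / 2) - c) * X) ≤ exp (ε * X) * exp (-c * X) := by
        rw [← exp_add]
        exact exp_le_exp.2 (by nlinarith [min_le_left ε (c / 2)])
      refine h6.trans ?_
      gcongr
      exact le_mul_of_one_le_left (exp_pos _).le h5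
    have h5 : -exp ((min ε (c / 2) - c) * X) / (min ε (c / 2) - c) ≤
        2 / c * exp ((min ε (c / 2) - c) * X) := by
      rw [div_le_iff_of_neg hη, mul_right_comm, ← neg_one_mul (exp _)]
      gcongr
      rw [div_mul_eq_mul_div, div_le_iff₀ hc]
      linarith [min_le_right ε (c / 2)]
    calc _ ≤ D * (2 / c * (exp (ε * X) * w (ν + 1) c X)) := by
          gcongr
          exact h5.trans (by gcongr)
      _ = (0 + D * (2 / c)) * exp (ε * X) * w (ν + 1) c X := by ring
      _ ≤ _ := by gcongr; positivity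

theorem W_congr (h : ∀ X, 0 < X → f X = g X) : W ν c f = W ν c g :=
  setIntegral_congr_fun measurableSet_Ioi fun X hX => by simp only [h X hX]

theorem W_succ (f : ℝ → ℝ) : W (ν + 1) c f = W ν c fun X => X * f X :=
  setIntegral_congr_fun measurableSet_Ioi fun X hX => by simp only [w_succ ν c hX]; ring

theorem W_nonneg (h : ∀ X, 0 < X → 0 ≤ f X) : 0 ≤ W ν c f :=
  setIntegral_nonneg measurableSet_Ioi fun X hX => mul_nonneg (h X hX) (w_pos ν c hX).le

theorem W_lin3 {h : ℝ → ℝ} (hν : 1 < ν) (hc : 0 < c) (hf : PB fun X => X * f X)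
    (hg : PB fun X => X * g X) (hh : PB fun X => X * h X) (a b d : ℝ) :
    W ν c (fun X => a * f X + b * g X + d * h X) = a * W ν c f + b * W ν c g + d * W ν c h := by
  have i1 := (hf.integrable' hν hc).const_mul a
  have i2 := (hg.integrable' hν hc).const_mul b
  have i3 := (hh.integrable' hν hc).const_mul d
  have i4 : Integrable (fun X => a * (f X * w ν c X) + b * (g X * w ν c X))
    (volume.restrict (Ioi 0)) := i1.add i2
  unfold W
  rw [← integral_const_mul, ← integral_const_mul, ← integral_const_mul, ← integral_add i1 i2,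
    ← integral_add i4 i3]
  refine setIntegral_congr_fun measurableSet_Ioi fun X _ => ?_
  simp only
  ring

/-- **The spectral gaps.** -/
theorem ladder (hc : 0 < c) (m : ℕ) : ∀ (ν : ℝ) (f f1 : ℝ → ℝ), 1 < ν →
    (∀ X, 0 < X → HasDerivAt f (f1 X) X) → PB f → PB (fun X => X * f1 X) →
    (∀ j < m, W ν c (fun X => X ^ j * f X) = 0) →
    m * c * W ν c (fun X => f X ^ 2) ≤ W ν c fun X => X * f1 X ^ 2 := by
  induction m with
  | zero =>
    intro ν f f1 _ _ _ _ _
    simpa using W_nonneg fun X hX => mul_nonneg hX.le (sq_nonneg (f1 X))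
  | succ m ih =>
    intro ν f f1 hν hd hf hf1 ho
    obtain ⟨g, g1, hg, hgd, he⟩ := exists_anti hν.le hc hf (by simpa using ho 0 m.succ_pos)
    have hg1 : PB fun X => X * g1 X :=
      ((hf.cmul (-1)).sub ((PB.lin ν c).mul hg)).congr fun X hX => by linarith [he X hX]
    have gr : ∀ p p1 : ℝ → ℝ, (∀ X, 0 < X → HasDerivAt p (p1 X) X) → PB p →
        PB (fun X => X * p1 X) → W ν c (fun X => X * p1 X * g X) = W ν c fun X => p X * f X := by
      intro p p1 hp bp bp1
      have h1 := green hν hc hp hgd (PB.id.mul (bp.mul hg))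
        ((bp1.mul hg).integrable (by linarith) hc)
        ((bp.mul (hg1.add ((PB.lin ν c).mul hg))).integrable (by linarith) hc)
      rw [W_congr (g := fun X => -(p X * f X)) fun X hX => by rw [he X hX]; ring] at h1
      unfold W at h1 ⊢
      simp only [neg_mul, integral_neg] at h1
      linarith
    have h1 := ih (ν + 1) g g1 (by linarith) hgd hg hg1 fun j hj => by
      have h2 := gr (fun X => X ^ (j + 1)) _ (fun X _ => hasDerivAt_pow (j + 1) X) (PB.id.pow _)
        (PB.id.mul ((PB.id.pow _).cmul _))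
      rw [ho (j + 1) (by omega), W_congr (g := fun X => ((j + 1 : ℕ) : ℝ) * (X * (X ^ j * g X)))
        fun X _ => by simp only [Nat.add_sub_cancel]; ring] at h2
      unfold W at h2
      simp only [mul_assoc ((j + 1 : ℕ) : ℝ), integral_const_mul] at h2
      rw [W_succ]
      exact (mul_eq_zero.1 h2).resolve_left (by positivity)
    rw [W_succ, W_succ] at h1
    have h2 := gr f f1 hd hf hf1
    have b1 : PB fun X => X * f X ^ 2 := PB.id.mul (hf.pow 2)
    have b2 : PB fun X => X * (X * (X * g1 X ^ 2)) :=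
      (PB.id.mul (hg1.pow 2)).congr fun X _ => by ring
    have b3 : PB fun X => X * (X * g X ^ 2) := PB.id.mul (PB.id.mul (hg.pow 2))
    have h3 := ftc (ν := ν + 1) ((PB.lin ν c).mul (hg.pow 2)) (by linarith) hc
      (F := fun X => (1 * f X ^ 2 + -1 * (X * (X * g1 X ^ 2)) + -c * (X * g X ^ 2)) * w ν c X)
      (fun X hX => by
        have h4 := ((((hasDerivAt_id X).const_mul c).const_sub ν).mul ((hgd X hX).pow 2)).mul
          (hasDerivAt_w ν c hX)
        refine h4.congr_deriv ?_
        have h5 : f X = -(X * g1 X + (ν - c * X) * g X) := by linarith [he X hX]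
        simp only [Pi.mul_apply, Pi.pow_apply, w_succ ν c hX, h5, _root_.id]
        push_cast
        ring)
      (PB.integrable' ((((b1.cmul 1).add (b2.cmul (-1))).add (b3.cmul (-c))).congr
        fun X _ => by ring) hν hc)
    change W ν c _ = 0 at h3
    rw [W_lin3 hν hc b1 b2 b3] at h3
    set l : ℝ := ((m + 1 : ℕ) : ℝ) * c with hl
    have hl0 : 0 ≤ l := by positivity
    have h4 := W_nonneg (ν := ν) (c := c)
      (f := fun X => 1 * (X * f1 X ^ 2) + -(2 * l) * (X * f1 X * g X) + l ^ 2 * (X * g X ^ 2))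
      fun X hX => by nlinarith [mul_nonneg hX.le (sq_nonneg (f1 X - l * g X))]
    rw [W_lin3 hν hc ((hf1.pow 2).congr fun X _ => by ring) (PB.id.mul (hf1.mul hg)) b3, h2,
      W_congr (f := fun X => f X * f X) (g := fun X => f X ^ 2) fun X _ => by ring] at h4
    have h5 : l * W ν c (fun X => X * g X ^ 2) ≤ W ν c fun X => f X ^ 2 := by
      rw [hl]; push_cast; linarith
    nlinarith [mul_le_mul_of_nonneg_left h5 hl0]

end Vale.Agent.P244Z.Q.Gap
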