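import Vale.Agent.P244Z.QMb

/-!
# P244, large `q` design: crude bounds at a fixed time
-/

open Set Real Filter Topology
open scoped ContDiff

namespace Vale.Agent.P244Z.Q

variable {S : Data} {J : Set ℝ} {K : Consts} {t : ℝ}

namespace McAux

/-- the coefficient of the derivative of `g * f ^ a` with respect to `log (f ^ 2)` -/
noncomputable def nxt (f : ℝ → ℝ) (a : ℝ) (g : ℝ → ℝ) (y : ℝ) : ℝ :=
  (deriv g y * f y + a * g y * deriv f y) / (2 * deriv f y)

variable {f g : ℝ → ℝ} {x a : ℝ}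

theorem sm_nxt (hf : ContDiff ℝ ∞ f) (hg : ContDiffAt ℝ ∞ g x) (h : deriv f x ≠ 0) :
    ContDiffAt ℝ ∞ (nxt f a g) x := by
  have h1 : ContDiffAt ℝ ∞ (deriv f) x := hf.contDiffAt.derivWithin (by simp)
  have h2 : ContDiffAt ℝ ∞ (deriv g) x := hg.derivWithin (by simp)
  exact ((h2.mul hf.contDiffAt).add ((contDiffAt_const.mul hg).mul h1)).div
    (contDiffAt_const.mul h1) (mul_ne_zero two_ne_zero h)

theorem deriv_nxt (hf : ContDiff ℝ ∞ f) (hg : ContDiffAt ℝ ∞ g x) (h : deriv f x ≠ 0)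
    (h0 : 0 < f x) : deriv (fun y => g y * f y ^ a) x =
      nxt f a g x * f x ^ (a - 2) * (2 * f x * deriv f x) := by
  have h1 := ((hg.differentiableAt (by simp)).hasDerivAt.mul
    ((hf.differentiable (by simp) x).hasDerivAt.rpow_const (p := a) (Or.inl h0.ne'))).deriv
  refine h1.trans ?_
  rw [nxt, rpow_sub h0, rpow_sub h0, rpow_one, rpow_two]
  field_simp

theorem inv_sq_le {X : ℝ} (hX : 0 < X) : (X ^ 2)⁻¹ ≤ (X ^ 8)⁻¹ + X ^ 12 := by
  rcases le_total X 1 with h | h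
  · exact (inv_anti₀ (by positivity) (pow_le_pow_of_le_one hX.le h (by norm_num))).trans
      (le_add_of_nonneg_right (by positivity))
  · exact ((inv_le_one_of_one_le₀ (one_le_pow₀ h)).trans (one_le_pow₀ h)).trans
      (le_add_of_nonneg_left (by positivity))

end McAux

open MdAux MbAux McAux

theorem Slice.crude (h : Slice K S J t) : ∃ C, ∀ θ ∈ Ioc 0 (π / 2), S.φ (θ, t) < K.δ →
    |S.v K (θ, t)| ≤ C ∧ |S.vX K (θ, t)| ≤ C / S.X (θ, t) ∧
      |S.vXX K (θ, t)| ≤ C * ((S.X (θ, t) ^ 8)⁻¹ + S.X (θ, t) ^ 12) := by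
  obtain ⟨b, hb, e, hlt⟩ := exists_star h
  set f : ℝ → ℝ := fun x => S.φ (x, t) with hfd
  set g : ℝ → ℝ := fun x => (1 - cut (4 * S.φ (x, t) / K.δ)) * S.D (x, t) / S.sg t ^ 3 with hgd
  have hf : ContDiff ℝ ∞ f := sm_slice h.sol.sm_φ h.mem
  have hg : ContDiff ℝ ∞ g :=
    ((sm_slice (sm_cut h.sol) h.mem).mul (sm_slice h.sol.sm_D h.mem)).div_const (S.sg t ^ 3)
  have hl := (h.sol.l_pos t h.mem).ne'
  have hs := h.sg_pos
  have hd : ∀ x, deriv f x = S.l t * S.A (x, t) := fun x =>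
    (h.sol.hasDerivAt_slice h.sol.sm_φ x h.mem).deriv
  have hne : ∀ x ∈ Icc 0 b, deriv f x ≠ 0 := fun x hx => by
    rw [hd]
    exact mul_ne_zero hl (A_pos h ⟨hb.1, hb.2.le⟩ e.le hx).ne'
  have s1 : ∀ x ∈ Icc 0 b, ContDiffAt ℝ ∞ (fun y => S.sg t * nxt f K.th g y) x := fun x hx =>
    contDiffAt_const.mul (sm_nxt hf hg.contDiffAt (hne x hx))
  have s2 : ∀ x ∈ Icc 0 b, ContDiffAt ℝ ∞
      (nxt f (K.th - 2) fun y => S.sg t * nxt f K.th g y) x := fun x hx =>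
    sm_nxt hf (s1 x hx) (hne x hx)
  have hpos : ∀ x ∈ Ioo 0 b, 0 < f x := fun x hx => φ_pos' h ⟨hx.1, (hx.2.trans hb.2).le⟩
  have hX : ∀ x, d1 S.X (x, t) = 2 * f x * deriv f x / S.sg t := fun x => by
    rw [(hasDerivAt_X h x).2, hd]
  have e0 : (fun x => S.v K (x, t)) = fun x => g x * f x ^ K.th := by
    funext x
    simp only [Data.v, hgd, hfd]
    ring
  have e1 : ∀ x ∈ Ioo 0 b, S.vX K (x, t) = S.sg t * nxt f K.th g x * f x ^ (K.th - 2) := by
    intro x hx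
    have k1 : d1 (S.v K) (x, t) = _ := (congrArg (fun u => deriv u x) e0).trans
      (deriv_nxt hf hg.contDiffAt (hne x (Ioo_subset_Icc_self hx)) (hpos x hx))
    have := hne x (Ioo_subset_Icc_self hx)
    have := (hpos x hx).ne'
    simp only [Data.vX, Data.Ds, k1, hX]
    field_simp
  have e2 : ∀ x ∈ Ioo 0 b, S.vXX K (x, t) = S.sg t *
      nxt f (K.th - 2) (fun y => S.sg t * nxt f K.th g y) x * f x ^ (K.th - 2 - 2) := by
    intro x hx
    have k0 : (fun y => S.vX K (y, t)) =ᶠ[𝓝 x]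
        fun y => S.sg t * nxt f K.th g y * f y ^ (K.th - 2) :=
      Eventually.mono (isOpen_Ioo.mem_nhds hx) e1
    have k1 : d1 (S.vX K) (x, t) = _ := k0.deriv_eq.trans
      (deriv_nxt hf (s1 x (Ioo_subset_Icc_self hx)) (hne x (Ioo_subset_Icc_self hx)) (hpos x hx))
    have := hne x (Ioo_subset_Icc_self hx)
    have := (hpos x hx).ne'
    simp only [Data.vXX, Data.Ds, k1, hX]
    field_simp
  obtain ⟨C0, h0⟩ := (isCompact_Icc (a := 0) (b := b)).exists_bound_of_continuousOn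
    hg.continuous.continuousOn
  obtain ⟨C1, h1⟩ := (isCompact_Icc (a := 0) (b := b)).exists_bound_of_continuousOn
    fun x hx => (sm_nxt (a := K.th) hf hg.contDiffAt (hne x hx)).continuousAt.continuousWithinAt
  obtain ⟨C2, h2⟩ := (isCompact_Icc (a := 0) (b := b)).exists_bound_of_continuousOn
    fun x hx => ((s2 x hx).div_const (S.sg t)).continuousAt.continuousWithinAt
  refine ⟨max C0 (max C1 C2), fun θ hθ hδ => ?_⟩
  have hθb : θ ∈ Ioo 0 b := ⟨hθ.1, (hlt θ hθ).1 hδ⟩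
  have hθc := Ioo_subset_Icc_self hθb
  have p0 := hpos θ hθb
  have hδ1 : K.δ ≤ 1 := by
    have k1 := h.ok.δ_le
    have k2 := h.ok.M_ge
    have k3 := h.ok.N_ge
    have k4 := h.ok.δ_pos
    unfold Consts.N1 at k1
    nlinarith
  have p1 : f θ ^ K.th ≤ 1 := rpow_le_one p0.le (hδ.le.trans hδ1) h.ok.th_pos.le
  have p2 : 0 < f θ ^ K.th := rpow_pos_of_pos p0 _
  have key : ∀ u C : ℝ, ‖u‖ ≤ C → |u * f θ ^ K.th| ≤ C := fun u C hu => by
    rw [abs_mul, abs_of_pos p2]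
    exact (mul_le_of_le_one_right (abs_nonneg _) p1).trans hu
  have hXθ : S.X (θ, t) = f θ ^ 2 / S.sg t := rfl
  have hXp : 0 < S.X (θ, t) := by rw [hXθ]; positivity
  refine ⟨?_, ?_, ?_⟩
  · rw [congrFun e0 θ]
    exact (key _ _ (h0 θ hθc)).trans (le_max_left _ _)
  · have k : S.vX K (θ, t) = nxt f K.th g θ * f θ ^ K.th / S.X (θ, t) := by
      rw [e1 θ hθb, hXθ, rpow_sub p0, rpow_two]
      field_simp
    rw [k, abs_div, abs_of_pos hXp]
    exact div_le_div_of_nonneg_right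
      ((key _ _ (h1 θ hθc)).trans ((le_max_left _ _).trans (le_max_right _ _))) hXp.le
  · have k : S.vXX K (θ, t) = nxt f (K.th - 2) (fun y => S.sg t * nxt f K.th g y) θ / S.sg t *
        f θ ^ K.th * (S.X (θ, t) ^ 2)⁻¹ := by
      rw [e2 θ hθb, hXθ, rpow_sub p0, rpow_sub p0, rpow_two]
      field_simp
    have k2 := (key _ _ (h2 θ hθc)).trans ((le_max_right C1 _).trans (le_max_right C0 _))
    rw [k, abs_mul, abs_of_pos (by positivity : 0 < (S.X (θ, t) ^ 2)⁻¹)]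
    exact mul_le_mul k2 (inv_sq_le hXp) (by positivity) ((abs_nonneg _).trans k2)

end Vale.Agent.P244Z.Q
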