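import Vale.Agent.P244Z.QCalc

/-!
# P244, large `q` design: evolution of derived quantities and the maximum principle
-/

open Set Real Filter Topology
open scoped ContDiff

namespace Vale.Agent.P244Z.Q

variable {S : Data} {J : Set ℝ} {K : Consts} {t1 : ℝ} {p : ℝ × ℝ}

theorem Evol.jσpow (h : Evol S p) (hσ : 0 < S.σ p) (k : ℝ) :
    S.Jet (fun y => S.σ y ^ k) p 0 (-k / S.σ p * S.σ p ^ k) :=
  (HasJet.rpow h.jσ hσ k).of_eq (by ring) (by ring)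

theorem Evol.jρpow (h : Evol S p) (ha : Alg S p) (g : ℝ) :
    S.Jet (fun y => S.ρ y ^ g) p (g * S.β p * S.ρ p ^ g)
      ((-g * ((S.q : ℝ) - 1) / S.ρ p ^ 2 - g ^ 2 * S.β p ^ 2) * S.ρ p ^ g) := by
  have hρ := ha.ρ_pos.ne'
  exact (HasJet.rpow h.jρ ha.ρ_pos g).of_eq (by field_simp) (by field_simp; ring)

theorem Evol.jpow (h : Evol S p) (ha : Alg S p) (hσ : 0 < S.σ p) (k g : ℝ) :
    S.Jet (fun y => S.σ y ^ k * S.ρ y ^ g) p (g * S.β p * (S.σ p ^ k * S.ρ p ^ g))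
      ((-g * ((S.q : ℝ) - 1) / S.ρ p ^ 2 - g ^ 2 * S.β p ^ 2 - k / S.σ p)
        * (S.σ p ^ k * S.ρ p ^ g)) :=
  (HasJet.mul (h.jσpow hσ k) (h.jρpow ha g)).of_eq (by ring) (by ring)

theorem Evol.jρsq (h : Evol S p) (ha : Alg S p) :
    S.Jet (fun y => S.ρ y ^ 2) p (2 * S.β p * S.ρ p ^ 2)
      (-2 * ((S.q : ℝ) - 1) - 4 * S.β p ^ 2 * S.ρ p ^ 2) := by
  have hρ := ha.ρ_pos.ne'
  exact (HasJet.sq h.jρ).of_eq (by ring) (by field_simp; ring)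

theorem Evol.jφsq (h : Evol S p) (ha : Alg S p) :
    S.Jet (fun y => S.φ y ^ 2) p (2 * S.φ p * S.A p) (-2 * ((S.q : ℝ) - 1) - 4 * S.A p ^ 2) := by
  have hφ := ha.φ_pos.ne'
  exact (HasJet.sq h.jφ).of_eq (by ring) (by field_simp; ring)

theorem Evol.jD (h : Evol S p) (ha : Alg S p) :
    S.Jet S.D p (2 * S.β p * S.ρ p ^ 2 - 2 * S.φ p * S.A p)
      (4 * S.A p ^ 2 - 4 * S.β p ^ 2 * S.ρ p ^ 2) :=
  (HasJet.sub (h.jρsq ha) (h.jφsq ha)).of_eq rfl (by ring)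

/-- the linear form of the equation of `D` -/
theorem Alg.D_lin (ha : Alg S p) :
    (4 * S.A p ^ 2 - 4 * S.β p ^ 2 * S.ρ p ^ 2)
      + (2 * S.β p + 2 * S.φ p * S.A p / S.ρ p ^ 2) * (2 * S.β p * S.ρ p ^ 2 - 2 * S.φ p * S.A p)
      = 4 * S.A p ^ 2 / S.ρ p ^ 2 * S.D p := by
  have hρ := ha.ρ_pos.ne'
  unfold Data.D
  field_simp
  ring

theorem Evol.jE (h : Evol S p) (ha : Alg S p) :
    S.Jet S.E p (2 * S.φ p * S.P p / S.ρ p ^ 2)
      (2 * ((S.q : ℝ) - 1) * S.E p / S.ρ p ^ 2 + 4 * S.P p ^ 2 / S.ρ p ^ 2) := by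
  have hρ := ha.ρ_pos.ne'
  refine (HasJet.const_sub 1 (HasJet.div (h.jφsq ha) (h.jρsq ha) (pow_ne_zero 2 hρ))).of_eq ?_ ?_
  · unfold Data.P; field_simp; ring
  · unfold Data.P Data.E; field_simp; ring

theorem Evol.jP (h : Evol S p) (ha : Alg S p) : ∃ s : ℝ,
    S.Jet S.P p s (-2 * (S.A p / S.φ p) * s
      + S.P p * (((S.q : ℝ) - 1) * (1 - S.A p ^ 2 - 2 * S.E p) / S.φ p ^ 2 - 2 * S.β p ^ 2)
      - 2 * ((S.q : ℝ) - 1) * S.A p * S.E p / S.φ p ^ 2) ∧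
    S.φ p * S.U2 p = s + (((S.q : ℝ) - 1) * S.A p + 2 * S.φ p * S.β p) * S.P p / S.φ p
      + ((S.q : ℝ) - 1) * S.E p / S.φ p ∧
    s = S.A p * S.β p + S.φ p * (S.Ds S.β p - S.hh p) := by
  have hρ := ha.ρ_pos.ne'
  have hφ := ha.φ_pos.ne'
  have h1 : S.kk p = (1 - S.A p ^ 2) / S.φ p ^ 2 := by
    rw [eq_div_iff (pow_ne_zero 2 hφ), mul_comm]; exact ha.kk_eq
  have h2 : S.vv p = S.β p / S.φ p := by
    rw [eq_div_iff hφ, mul_comm]; exact ha.vv_eq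
  refine ⟨_, ?_, ?_, rfl⟩
  · refine (HasJet.sub (HasJet.mul h.jφ h.jβ) h.jA).of_eq (by ring) ?_
    rw [h1]
    unfold Data.P Data.E
    field_simp
    ring
  · unfold Data.U2
    rw [ha.c_eq]
    unfold Data.b Data.P Data.E
    rw [h1, h2]
    field_simp
    ring

/-- the weight which blows up at the poles -/
theorem Evol.jw (h : Evol S p) (ha : Alg S p) (Λ : ℝ) :
    S.Jet (fun y => exp (-Λ * S.σ y) * (S.φ y ^ 2)⁻¹ ^ 2) p
      (-4 * (S.A p / S.φ p) * (exp (-Λ * S.σ p) * (S.φ p ^ 2)⁻¹ ^ 2))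
      ((Λ + (4 * ((S.q : ℝ) - 1) - 16 * S.A p ^ 2) / S.φ p ^ 2)
        * (exp (-Λ * S.σ p) * (S.φ p ^ 2)⁻¹ ^ 2)) := by
  have hφ := ha.φ_pos.ne'
  refine (HasJet.mul (HasJet.exp (HasJet.const_mul (-Λ) h.jσ))
    (HasJet.sq (HasJet.inv (h.jφsq ha) (pow_ne_zero 2 hφ)))).of_eq ?_ ?_
  · field_simp; ring
  · field_simp; ring

/-- the maximum principle in the region `C ≤ 0` -/
theorem mp {ι : Type} [Finite ι] (hS : Sol S J) (ht1 : t1 ∈ J) (hq : 10000 ≤ S.q)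
    (hev : ∀ p ∈ strip t1, 0 < p.2 → Evol S p) (hA : ∀ p ∈ strip t1, |S.A p| ≤ 2)
    {C : ℝ × ℝ → ℝ} (hC : ContinuousOn C (cstrip t1)) {f : ι → ℝ × ℝ → ℝ}
    (hf : ∀ i, ContinuousOn (f i) (cstrip t1))
    (h0 : ∀ i, ∀ θ ∈ Ioo 0 π, C (θ, 0) ≤ 0 → f i (θ, 0) ≤ 0)
    (hbd : ∀ i, ∀ p ∈ strip t1, C p = 0 → f i p ≤ 0) (Λ : ℝ)
    (hpde : ∀ i, ∀ p ∈ strip t1, 0 < p.2 → C p < 0 → 0 < f i p → (∀ j, f j p ≤ f i p) →
      ∃ s b B c : ℝ, S.Jet (f i) p s b ∧ b + B * s ≤ c * f i p ∧ |B| * S.φ p ≤ 30 ∧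
        c ≤ 3 * (S.q : ℝ) / S.φ p ^ 2 + Λ) :
    ∀ i, ∀ p ∈ strip t1, C p ≤ 0 → f i p ≤ 0 := by
  by_contra hcon
  push Not at hcon
  obtain ⟨i0, p0, hp0, hC0, hpos⟩ := hcon
  have hq2 : 2 ≤ S.q := le_trans (by norm_num) hq
  have hqr : (10000 : ℝ) ≤ S.q := by exact_mod_cast hq
  set T : Set (ℝ × ℝ) := cstrip t1 ∩ C ⁻¹' Iic 0 with hT
  have hTc : IsCompact T :=
    (isCompact_cstrip t1).of_isClosed_subset
      (hC.preimage_isClosed_of_isClosed (isCompact_cstrip t1).isClosed isClosed_Iic)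
      inter_subset_left
  have hp0T : p0 ∈ T := ⟨strip_subset_cstrip hp0, hC0⟩
  let g : ι → ℝ × ℝ → ℝ := fun i y => f i y * (exp (Λ * S.σ y) * (S.φ y ^ 2) ^ 2)
  have hg : ∀ i, ContinuousOn (g i) T := fun i =>
    ((hf i).mul (((continuousOn_const.mul (hS.cont ht1 hS.sm_σ)).rexp).mul
      (((hS.cont ht1 hS.sm_φ).pow 2).pow 2))).mono inter_subset_left
  choose z hzT hz using fun i => hTc.exists_isMaxOn ⟨p0, hp0T⟩ (hg i)
  have : Nonempty ι := ⟨i0⟩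
  obtain ⟨i, hi⟩ := Finite.exists_max (fun i => g i (z i))
  set y := z i with hy
  set m := g i y with hm
  have hall : ∀ j, ∀ x ∈ T, g j x ≤ m := fun j x hx => (hz j hx).trans (hi j)
  have hφ0 : 0 < S.φ p0 := hS.φ_pos p0.1 hp0.1 p0.2 (hS.mem_of_strip ht1 hp0)
  have hmpos : 0 < m := lt_of_lt_of_le (by simp only [g]; positivity) (hall i0 p0 hp0T)
  have hyT : y ∈ T := hzT i
  have hyJ : y.2 ∈ J := hS.mem_of_cstrip ht1 hyT.1
  have hφy : S.φ y ≠ 0 := by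
    intro h
    have : m = 0 := by simp only [hm, g, h]; simp
    exact hmpos.ne' this
  have hy1 : y.1 ∈ Ioo 0 π := by
    refine ⟨lt_of_le_of_ne hyT.1.1.1 fun h => hφy ?_, lt_of_le_of_ne hyT.1.1.2 fun h => hφy ?_⟩
    · have h1 : y = (0, y.2) := Prod.ext h.symm rfl
      rw [h1]; exact hS.φ_zero hyJ
    · have h1 : y = (π, y.2) := Prod.ext h rfl
      rw [h1]; exact hS.φ_pi hyJ
  have hys : y ∈ strip t1 := ⟨hy1, hyT.1.2⟩
  have ha := hS.alg hq2 hy1 hyJ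
  have hφp := ha.φ_pos
  have hfy : 0 < f i y := by
    have h1 : 0 < exp (Λ * S.σ y) * (S.φ y ^ 2) ^ 2 := by positivity
    exact (mul_pos_iff_of_pos_right h1).1 hmpos
  have ht0 : 0 < y.2 := by
    rcases hyT.1.2.1.lt_or_eq with h | h
    · exact h
    · exfalso
      have h1 : y = (y.1, 0) := by rw [h]
      have h2 := h0 i y.1 hy1 (by rw [← h1]; exact hyT.2)
      rw [← h1] at h2
      exact absurd hfy (not_lt.2 h2)
  have hCy : C y < 0 := by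
    rcases (show C y ≤ 0 from hyT.2).lt_or_eq with h | h
    · exact h
    · exact absurd hfy (not_lt.2 (hbd i y hys h))
  have hcmp : ∀ j, f j y ≤ f i y := fun j => by
    have h1 : 0 < exp (Λ * S.σ y) * (S.φ y ^ 2) ^ 2 := by positivity
    exact le_of_mul_le_mul_right (hall j y hyT) h1
  obtain ⟨s, b, B, c, hj, hb, hB, hc⟩ := hpde i y hys ht0 hCy hfy hcmp
  let w : ℝ × ℝ → ℝ := fun x => exp (-Λ * S.σ x) * (S.φ x ^ 2)⁻¹ ^ 2
  have hwy : 0 < w y := by simp only [w]; positivity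
  have hkey : ∀ x ∈ T, 0 < S.φ x → f i x - m * w x ≤ 0 := fun x hx hφx => by
    have h1 := hall i x hx
    have h2 : f i x = g i x * w x := by
      simp only [g, w]
      rw [neg_mul, exp_neg]
      field_simp
    have h3 : 0 < w x := by simp only [w]; positivity
    rw [h2]
    nlinarith
  have hval : f i y - m * w y = 0 := by
    simp only [hm, g, w]
    rw [neg_mul, exp_neg]
    field_simp
    ring
  have hnb : ∀ᶠ x in 𝓝[cstrip t1] y, x ∈ T := by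
    have h1 : ∀ᶠ x in 𝓝[cstrip t1] y, C x < 0 := (hC y hyT.1).eventually (gt_mem_nhds hCy)
    filter_upwards [h1, self_mem_nhdsWithin] with x hx1 hx2 using ⟨hx2, hx1.le⟩
  have hjet := HasJet.sub hj (HasJet.const_mul m ((hev y hys ht0).jw ha Λ))
  have hmax := hjet.at_max (by
    have h1 : ∀ᶠ x in 𝓝 y.1, x ∈ Ioo 0 π := isOpen_Ioo.mem_nhds hy1
    have h2 : Tendsto (fun x : ℝ => (x, y.2)) (𝓝 y.1) (𝓝[cstrip t1] y) := by
      refine tendsto_nhdsWithin_iff.2 ⟨(continuous_id.prodMk continuous_const).continuousAt, ?_⟩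
      filter_upwards [h1] with x hx using ⟨Ioo_subset_Icc_self hx, hyT.1.2⟩
    filter_upwards [h1, h2.eventually hnb] with x hx1 hx2
    exact (hkey _ hx2 (hS.φ_pos x hx1 y.2 hyJ)).trans hval.ge) (by
    have h1 : ∀ᶠ t in 𝓝[Iic y.2] y.2, t ∈ Icc 0 t1 := by
      filter_upwards [mem_nhdsWithin_of_mem_nhds (lt_mem_nhds ht0), self_mem_nhdsWithin]
        with t h1 h2 using ⟨h1.le, le_trans h2 hyT.1.2.2⟩
    have h2 : Tendsto (fun t : ℝ => (y.1, t)) (𝓝[Iic y.2] y.2) (𝓝[cstrip t1] y) := by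
      refine tendsto_nhdsWithin_iff.2 ⟨?_, ?_⟩
      · exact ((continuous_const.prodMk continuous_id).continuousAt (x := y.2)).mono_left
          nhdsWithin_le_nhds
      · filter_upwards [h1] with t ht using ⟨hyT.1.1, ht⟩
    filter_upwards [h1, h2.eventually hnb] with t ht1' ht2
    exact (hkey _ ht2 (hS.φ_pos y.1 hy1 t (hS.time.down t1 ht1 ht1'))).trans hval.ge)
  obtain ⟨e1, e2⟩ := hmax
  change s - m * (-4 * (S.A y / S.φ y) * w y) = 0 at e1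
  change 0 ≤ b - m * ((Λ + (4 * ((S.q : ℝ) - 1) - 16 * S.A y ^ 2) / S.φ y ^ 2) * w y) at e2
  have hfw : f i y = m * w y := by linarith
  have hs : s = -4 * (S.A y / S.φ y) * f i y := by rw [hfw]; linarith
  have hb2 : (Λ + (4 * ((S.q : ℝ) - 1) - 16 * S.A y ^ 2) / S.φ y ^ 2) * f i y ≤ b := by
    rw [hfw]; linarith
  have hAy := hA y hys
  have hA2 : S.A y ^ 2 ≤ 4 := by
    have := abs_le.1 hAy
    nlinarith
  have hAB : S.A y * B * S.φ y ≤ 60 := by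
    have h1 : S.A y * B ≤ 2 * |B| := by
      calc S.A y * B ≤ |S.A y * B| := le_abs_self _
        _ = |S.A y| * |B| := abs_mul _ _
        _ ≤ 2 * |B| := mul_le_mul_of_nonneg_right hAy (abs_nonneg _)
    nlinarith
  have hfin : (Λ + (4 * ((S.q : ℝ) - 1) - 16 * S.A y ^ 2) / S.φ y ^ 2)
      + B * (-4 * (S.A y / S.φ y)) ≤ 3 * (S.q : ℝ) / S.φ y ^ 2 + Λ := by
    refine le_trans (le_of_mul_le_mul_right ?_ hfy) hc
    rw [hs] at hb
    nlinarith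
  have hid : (Λ + (4 * ((S.q : ℝ) - 1) - 16 * S.A y ^ 2) / S.φ y ^ 2)
      + B * (-4 * (S.A y / S.φ y)) - (3 * (S.q : ℝ) / S.φ y ^ 2 + Λ)
      = ((S.q : ℝ) - 4 - 16 * S.A y ^ 2 - 4 * (S.A y * B * S.φ y)) / S.φ y ^ 2 := by
    field_simp
    ring
  have hpos' : 0 < ((S.q : ℝ) - 4 - 16 * S.A y ^ 2 - 4 * (S.A y * B * S.φ y)) / S.φ y ^ 2 :=
    div_pos (by linarith) (by positivity)
  linarith

/-- the maximum principle for one function in a region, under the standing hypotheses -/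
theorem Ctx.mp1 {d : Fin 3 → ℝ} (h : Ctx K S J t1 d) {C : ℝ × ℝ → ℝ}
    (hC : ContinuousOn C (cstrip t1)) {f : ℝ × ℝ → ℝ} (hf : ContinuousOn f (cstrip t1))
    (h0 : ∀ θ ∈ Ioo 0 π, C (θ, 0) ≤ 0 → f (θ, 0) ≤ 0)
    (hbd : ∀ p ∈ strip t1, C p = 0 → f p ≤ 0) (Λ : ℝ)
    (hpde : ∀ p ∈ strip t1, 0 < p.2 → C p < 0 → 0 < f p →
      ∃ s b B c : ℝ, S.Jet f p s b ∧ b + B * s ≤ c * f p ∧ |B| * S.φ p ≤ 30 ∧
        c ≤ 3 * (S.q : ℝ) / S.φ p ^ 2 + Λ) :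
    ∀ p ∈ strip t1, C p ≤ 0 → f p ≤ 0 :=
  mp (ι := Unit) (f := fun _ => f) h.boot.sol h.boot.mem h.boot.q_ge h.evol
    (fun p hp => (h.boot.bds p hp).A) hC (fun _ => hf) (fun _ => h0) (fun _ => hbd) Λ
    (fun _ p hp h1 h2 h3 _ => hpde p hp h1 h2 h3) ()

/-- the maximum principle for one function on the whole strip, without lower order terms -/
theorem Ctx.mp0 {d : Fin 3 → ℝ} (h : Ctx K S J t1 d) {f : ℝ × ℝ → ℝ}
    (hf : ContinuousOn f (cstrip t1)) (h0 : ∀ θ ∈ Ioo 0 π, f (θ, 0) ≤ 0)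
    (hpde : ∀ p ∈ strip t1, 0 < p.2 → 0 < f p →
      ∃ s b B : ℝ, S.Jet f p s b ∧ b + B * s ≤ 0 ∧ |B| * S.φ p ≤ 30) :
    ∀ p ∈ strip t1, f p ≤ 0 := fun p hp =>
  h.mp1 (C := fun _ => -1) continuousOn_const hf (fun θ hθ _ => h0 θ hθ)
    (fun _ _ h => absurd h (by norm_num)) 0
    (fun p hp h1 _ h3 => by
      obtain ⟨s, b, B, e1, e2, e3⟩ := hpde p hp h1 h3
      exact ⟨s, b, B, 0, e1, by linarith, e3, by positivity⟩) p hp (by norm_num)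

end Vale.Agent.P244Z.Q
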