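import Vale.Agent.P244Z.QLag
import Vale.Agent.P244Z.QMd
import Vale.Agent.P244Z.QGeo
import Mathlib.Analysis.Calculus.FDeriv.Measurable

/-!
# P244, large `q` design, step 4: the differential inequalities for the modes
-/

open Set Real Filter Topology MeasureTheory

namespace Vale.Agent.P244Z.Q

/-- The results of the other files of the block MODES which are used here. -/
structure ModesIn : Prop where
  ibp_mode : ∀ {K : Consts} {V V1 V2 : ℝ → ℝ}, K.OK → Adm V V1 V2 → ∀ {j : ℕ}, j < 4 →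
    K.pr j (fun X => X * V2 X + (K.nu - K.cc * X) * V1 X) = -K.cc * j * K.pr j V
  gap : ∀ {K : Consts} {V V1 V2 : ℝ → ℝ}, K.OK → Adm V V1 V2 →
    K.W (fun X => V X * (X * V2 X + (K.nu - K.cc * X) * V1 X)) ≤
      -(∑ j ∈ Finset.range 4, K.cc * j * K.pr j V ^ 2) - 4 * K.cc * K.st V
  pointwise : ∀ (q : ℕ) (th C6 : ℝ), ∃ ε0 > 0, ∀ (K : Consts) (V V1 V2 : ℝ → ℝ), K.OK →
    K.q = q → K.th = th → K.ε ≤ ε0 → Adm V V1 V2 →
    (∀ X ∈ Icc (1 / 2) (32 * (q : ℝ)), |V1 X| ≤ C6 * K.am) →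
    ∑ j ∈ Finset.range 3, K.pr j V ^ 2 ≤ (3 * K.ε * K.am) ^ 2 →
    |K.pr 3 V - K.am * √(K.hL 3)| ≤ K.ε * K.am / 5 → K.st V ≤ (K.ε * K.am / 5) ^ 2 →
    ∀ X ∈ Icc 1 (16 * (q : ℝ)), |V X - K.am * K.Lag 3 X| ≤ K.am / 10
  exists_inv : ∀ {K : Consts} {S : Data} {J : Set ℝ} {t : ℝ}, Slice K S J t → ∃ Θ, IsInv K S t Θ
  vanish : ∀ {K : Consts} {S : Data} {J : Set ℝ} {t : ℝ}, Slice K S J t → ∀ {θ : ℝ},
    θ ∈ Ioc 0 (π / 2) → K.δ / 2 < S.φ (θ, t) →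
    S.v K (θ, t) = 0 ∧ S.vX K (θ, t) = 0 ∧ S.vXX K (θ, t) = 0 ∧ (0 < t → S.vdot K (θ, t) = 0)
  pull_deriv : ∀ {K : Consts} {S : Data} {J : Set ℝ} {t : ℝ}, Slice K S J t → ∀ {Θ : ℝ → ℝ},
    IsInv K S t Θ → ∀ {Y : ℝ}, 0 < Y →
    HasDerivAt (pull K S t Θ (S.v K)) (pull K S t Θ (S.vX K) Y) Y ∧
    HasDerivAt (pull K S t Θ (S.vX K)) (pull K S t Θ (S.vXX K) Y) Y
  pull_meas : ∀ {K : Consts} {S : Data} {J : Set ℝ} {t : ℝ}, Slice K S J t → 0 < t →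
    ∀ {Θ : ℝ → ℝ}, IsInv K S t Θ →
    AEStronglyMeasurable (pull K S t Θ (S.err K)) (volume.restrict (Ioi 0))
  err_bound : ∀ K : Consts, ∃ C > 0, Ev K (fun S _ t1 => ∀ p ∈ strip t1, 0 < p.2 →
    p.1 ≤ π / 2 → S.φ p < K.δ →
      |S.err K p| ≤ C * S.σ p ^ (4 / 5 : ℝ) * ((S.X p ^ 8)⁻¹ + S.X p ^ 12))
  crude : ∀ {K : Consts} {S : Data} {J : Set ℝ} {t : ℝ}, Slice K S J t →
    ∃ C, ∀ θ ∈ Ioc 0 (π / 2), S.φ (θ, t) < K.δ →
    |S.v K (θ, t)| ≤ C ∧ |S.vX K (θ, t)| ≤ C / S.X (θ, t) ∧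
      |S.vXX K (θ, t)| ≤ C * ((S.X (θ, t) ^ 8)⁻¹ + S.X (θ, t) ^ 12)
  vX_bound : ∀ q : ℕ, ∃ C6, ∀ K : Consts, K.q = q → Ev K (fun S _ t1 => ∀ p ∈ strip t1,
    p.1 ≤ π / 2 → 1 / 2 ≤ S.X p → S.X p ≤ 32 * (q : ℝ) →
      |S.vX K p| ≤ C6 * K.am ∧ S.φ p < K.δ / 4)

namespace MfAux

variable {S : Data} {J : Set ℝ} {K : Consts} {t t1 : ℝ} {V V1 V2 Θ : ℝ → ℝ}

theorem pg_L (K : Consts) (hV : Adm V V1 V2) :
    PG fun X => X * V2 X + (K.nu - K.cc * X) * V1 X := by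
  obtain ⟨C, hC⟩ := hV.bd
  obtain ⟨C2, hC2⟩ := hV.bd2
  obtain ⟨X0, hX0⟩ := hV.supp
  have m2 : AEStronglyMeasurable V2 (volume.restrict (Ioi 0)) := by
    refine (measurable_deriv V1).aestronglyMeasurable.congr ?_
    filter_upwards [ae_restrict_mem measurableSet_Ioi] with X hX using (hV.d2 X hX).deriv
  have c1 : ContinuousOn V1 (Ioi 0) := fun X hX => (hV.d2 X hX).continuousAt.continuousWithinAt
  have hC0 : 0 ≤ C := (abs_nonneg _).trans (hC 1 one_pos).1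
  have p1 : PG fun X => X * V2 X := by
    refine ⟨continuous_id.aestronglyMeasurable.mul m2, |X0| * C2, fun X hX => ?_⟩
    beta_reduce
    rcases le_total X0 X with h | h
    · rw [(hX0 X h).2.2, mul_zero, abs_zero]
      have := hC2.nonneg
      positivity
    · rw [abs_mul, abs_of_pos hX, mul_assoc]
      exact mul_le_mul (h.trans (le_abs_self _)) (hC2 X hX) (abs_nonneg _) (abs_nonneg _)
  have p2 : PG V1 := by
    refine ⟨c1.aestronglyMeasurable measurableSet_Ioi, C, fun X hX => (hC X hX).2.trans ?_⟩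
    rw [div_eq_mul_inv]
    refine mul_le_mul_of_nonneg_left ?_ hC0
    simpa using inv_pow_le_grow (k := 1) hX (by norm_num)
  have p3 : PG fun X => X * V1 X := by
    refine PG.of_bdd (continuousOn_id.mul c1) (C := C) fun X hX => ?_
    rw [abs_mul, abs_of_pos hX, mul_comm, ← le_div_iff₀ hX]
    exact (hC X hX).2
  have := p1.add ((p2.const_mul K.nu).sub (p3.const_mul K.cc))
  have e : (fun X => X * V2 X + (K.nu - K.cc * X) * V1 X) =
      fun X => X * V2 X + (K.nu * V1 X - K.cc * (X * V1 X)) := by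
    funext X; ring
  rw [e]
  exact this

theorem adm (H : ModesIn) (h : Slice K S J t) (hΘ : IsInv K S t Θ) :
    Adm (pull K S t Θ (S.v K)) (pull K S t Θ (S.vX K)) (pull K S t Θ (S.vXX K)) := by
  obtain ⟨C, hC⟩ := H.crude h
  have key : ∀ Y, 0 < Y → Y < K.δ ^ 2 / S.sg t → |S.v K (Θ Y, t)| ≤ C ∧
      |S.vX K (Θ Y, t)| ≤ C / Y ∧ |S.vXX K (Θ Y, t)| ≤ C * ((Y ^ 8)⁻¹ + Y ^ 12) := by
    intro Y h0 h1
    obtain ⟨r1, r2, r3⟩ := hΘ.right Y ⟨h0, h1⟩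
    have := hC (Θ Y) ⟨r1.1, r1.2.le⟩ r3
    rwa [r2] at this
  refine ⟨fun X hX => (H.pull_deriv h hΘ hX).1, fun X hX => (H.pull_deriv h hΘ hX).2,
    ⟨|C|, fun X hX => ?_⟩, ⟨|C|, fun X hX => ?_⟩, ⟨K.δ ^ 2 / S.sg t, fun X hX => ?_⟩⟩
  · unfold pull
    split_ifs with h1
    · obtain ⟨k1, k2, -⟩ := key X hX h1
      exact ⟨k1.trans (le_abs_self _), k2.trans (div_le_div_of_nonneg_right (le_abs_self _) hX.le)⟩
    · rw [abs_zero]
      exact ⟨abs_nonneg _, by positivity⟩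
  · unfold pull
    split_ifs with h1
    · exact (key X hX h1).2.2.trans (mul_le_mul_of_nonneg_right (le_abs_self _) (by positivity))
    · rw [abs_zero]; positivity
  · unfold pull
    simp [not_lt.2 hX]

theorem pull_mul_lag (hΘ : IsInv K S t Θ) (F : ℝ × ℝ → ℝ) (L : ℝ → ℝ) {Y : ℝ} (hY : 0 < Y) :
    pull K S t Θ (fun p => F p * L (S.X p)) Y = pull K S t Θ F Y * L Y := by
  unfold pull
  split_ifs with h1
  · beta_reduce
    rw [(hΘ.right Y ⟨hY, h1⟩).2.1]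
  · rw [zero_mul]

theorem pull_mul (F G : ℝ × ℝ → ℝ) (Y : ℝ) :
    pull K S t Θ (fun p => F p * G p) Y = pull K S t Θ F Y * pull K S t Θ G Y := by
  unfold pull
  split_ifs <;> simp

theorem I_lag (hΘ : IsInv K S t Θ) {F : ℝ × ℝ → ℝ}
    (hF : ∀ θ ∈ Ioc 0 (π / 2), K.δ ≤ S.φ (θ, t) → F (θ, t) = 0) (j : ℕ) :
    S.I K (fun p => F p * K.Lag j (S.X p)) t / √(K.hL j) = K.pr j (pull K S t Θ F) := by
  rw [hΘ.integral _ fun θ h1 h2 => by simp only [hF θ h1 h2, zero_mul], Consts.pr,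
    W_congr K fun Y hY => pull_mul_lag hΘ F (K.Lag j) hY]

theorem I_mul (hΘ : IsInv K S t Θ) {F : ℝ × ℝ → ℝ}
    (hF : ∀ θ ∈ Ioc 0 (π / 2), K.δ ≤ S.φ (θ, t) → F (θ, t) = 0) (G : ℝ × ℝ → ℝ) :
    S.I K (fun p => F p * G p) t = K.ip (pull K S t Θ F) (pull K S t Θ G) := by
  rw [hΘ.integral _ fun θ h1 h2 => by simp only [hF θ h1 h2, zero_mul], Consts.ip,
    W_congr K fun Y _ => pull_mul F G Y]

theorem v_out (H : ModesIn) (h : Slice K S J t) :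
    ∀ θ ∈ Ioc 0 (π / 2), K.δ ≤ S.φ (θ, t) → S.v K (θ, t) = 0 := fun _ h1 h2 =>
  (H.vanish h h1 (by linarith [h.ok.δ_pos])).1

theorem md_pr (H : ModesIn) (h : Slice K S J t) (hΘ : IsInv K S t Θ) (j : ℕ) :
    S.md K j t = K.pr j (pull K S t Θ (S.v K)) :=
  I_lag hΘ (v_out H h) j

theorem Ep_st (H : ModesIn) (h : Slice K S J t) (hΘ : IsInv K S t Θ) :
    S.Ep K t = K.st (pull K S t Θ (S.v K)) := by
  have e1 : S.En K t = S.I K (fun p => S.v K p * S.v K p) t := by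
    simp only [Data.En, Data.I, sq]
  rw [Data.Ep, Consts.st, e1, I_mul hΘ (v_out H h), ip_self]
  simp only [md_pr H h hΘ]

/-- The differential inequalities at a fixed time; `b` bounds the projections of the error. -/
theorem odes (H : ModesIn) (h : Slice K S J t) (h0 : 0 < t) {Cw η : ℝ}
    (hCw : ∀ (V V1 V2 e : ℝ → ℝ) (η : ℝ), Adm V V1 V2 →
      AEStronglyMeasurable e (volume.restrict (Ioi 0)) → Grow e η →
      (∀ j < 4, |K.pr j e| ≤ Cw * η) ∧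
      |K.W (fun X => V X * e X) - ∑ j ∈ Finset.range 4, K.pr j V * K.pr j e| ≤
        Cw * η * √(K.st V)) (hη0 : 0 ≤ η)
    (hη : ∀ θ ∈ Ioo 0 (π / 2), S.φ (θ, t) < K.δ →
      |S.err K (θ, t)| ≤ η * ((S.X (θ, t) ^ 8)⁻¹ + S.X (θ, t) ^ 12)) :
    ∃ r : ℕ → ℝ, (∀ j < 4, |r j| ≤ Cw * η ∧
      HasDerivAt (S.md K j) (S.l t ^ 2 / S.sg t * ((3 - j) * S.md K j t + r j)) t) ∧
      ∃ D, D ≤ -S.Ep K t + (Cw * η) ^ 2 ∧ HasDerivAt (S.Ep K) (S.l t ^ 2 / S.sg t * D) t := by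
  obtain ⟨Θ, hΘ⟩ := H.exists_inv h
  have hK := h.ok
  have hcc := hK.cc_pos
  have hV := adm H h hΘ
  set V := pull K S t Θ (S.v K) with hVd
  set V1 := pull K S t Θ (S.vX K)
  set V2 := pull K S t Θ (S.vXX K)
  set e := pull K S t Θ (S.err K) with hed
  have hm : AEStronglyMeasurable e (volume.restrict (Ioi 0)) := H.pull_meas h h0 hΘ
  have hg : Grow e η := fun Y hY => by
    simp only [hed, pull]
    split_ifs with h1
    · obtain ⟨r1, r2, r3⟩ := hΘ.right Y ⟨hY, h1⟩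
      have := hη (Θ Y) r1 r3
      rwa [r2] at this
    · rw [abs_zero]; positivity
  obtain ⟨k1, k2⟩ := hCw V V1 V2 e η hV hm hg
  have pe : PG e := ⟨hm, η, hg⟩
  have pV := hV.pg
  have pL := pg_L K hV
  set L : ℝ → ℝ := fun X => X * V2 X + (K.nu - K.cc * X) * V1 X with hL
  have hdot : ∀ Y, 0 < Y → pull K S t Θ (S.vdot K) Y = e Y + (K.cc⁻¹ * L Y + 3 * V Y) := by
    intro Y hY
    simp only [hL, hed, hVd, V1, V2, pull]
    split_ifs with h1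
    · simp only [Data.err, Data.Lv]
      rw [(hΘ.right Y ⟨hY, h1⟩).2.1]
      ring
    · simp
  have hvd : ∀ θ ∈ Ioc 0 (π / 2), K.δ ≤ S.φ (θ, t) → S.vdot K (θ, t) = 0 := fun _ h1 h2 =>
    (H.vanish h h1 (by linarith [hK.δ_pos])).2.2.2 h0
  obtain ⟨d1, d2⟩ := h.time_deriv h0
  have hmd : ∀ j < 4, HasDerivAt (S.md K j)
      (S.l t ^ 2 / S.sg t * ((3 - j) * S.md K j t + K.pr j e)) t := fun j hj => by
    refine (d1 j hj).congr_deriv ?_
    rw [I_lag hΘ hvd j, pr_congr K j hdot,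
      pr_add hK j pe ((pL.const_mul _).add (pV.const_mul _)),
      pr_add hK j (pL.const_mul _) (pV.const_mul _), pr_const_mul, pr_const_mul,
      H.ibp_mode hK hV hj, md_pr H h hΘ]
    congr 1
    field_simp
    ring
  refine ⟨fun j => K.pr j e, fun j hj => ⟨k1 j hj, hmd j hj⟩, ?_⟩
  have hEp : HasDerivAt (S.Ep K) (S.l t ^ 2 / S.sg t * (2 * S.I K (fun p => S.v K p * S.vdot K p) t
      - ∑ j ∈ Finset.range 4, 2 * S.md K j t * ((3 - j) * S.md K j t + K.pr j e))) t := by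
    have := d2.fun_sub (HasDerivAt.fun_sum (u := Finset.range 4)
      fun j hj => (hmd j (Finset.mem_range.1 hj)).fun_pow 2)
    refine HasDerivAt.congr_deriv (f := S.Ep K) this ?_
    rw [mul_sub, Finset.mul_sum]
    congr 1
    exact Finset.sum_congr rfl fun j _ => by push_cast; ring
  refine ⟨_, ?_, hEp⟩
  rw [I_mul hΘ (v_out H h), ip_congr K (fun _ _ => rfl) hdot,
    ip_add_right hK pe ((pL.const_mul _).add (pV.const_mul _)) pV,
    ip_add_right hK (pL.const_mul _) (pV.const_mul _) pV, ip_mul_right, ip_mul_right,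
    Ep_st H h hΘ]
  simp only [md_pr H h hΘ]
  have g1 : K.ip V L ≤ _ := H.gap hK hV
  have g2 : K.ip V V = K.st V + ∑ j ∈ Finset.range 4, K.pr j V ^ 2 := by
    rw [Consts.st, ip_self]; ring
  have g3 : K.ip V e - ∑ j ∈ Finset.range 4, K.pr j V * K.pr j e ≤ Cw * η * √(K.st V) :=
    (le_abs_self _).trans k2
  have g4 := st_nonneg hK hV
  have g5 : 2 * (Cw * η * √(K.st V)) ≤ K.st V + (Cw * η) ^ 2 := by
    nlinarith [sq_nonneg (Cw * η - √(K.st V)), Real.sq_sqrt g4]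
  have g6 : K.cc⁻¹ * K.ip V L ≤ -(∑ j ∈ Finset.range 4, j * K.pr j V ^ 2) - 4 * K.st V := by
    refine (mul_le_mul_of_nonneg_left g1 (inv_nonneg.2 hcc.le)).trans (le_of_eq ?_)
    simp only [Finset.sum_range_succ, Finset.sum_range_zero]
    field_simp
    ring
  rw [g2]
  simp only [Finset.sum_range_succ, Finset.sum_range_zero] at g3 g6 ⊢
  push_cast at g3 g6 ⊢
  linarith

theorem hasDerivAt_sg (hS : Sol S J) (ht : t ∈ J) (h0 : 0 < t) :
    HasDerivAt S.sg (-S.l t ^ 2) t := by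
  rw [← hS.eq_sg t ht h0]
  exact ((hS.sm_sg.contDiffAt (hS.time.mem_nhds ht h0)).differentiableAt (by simp)).hasDerivAt

theorem le_start {f : ℝ → ℝ} (hc : ContinuousOn f (Icc 0 t1))
    (hd : ∀ t ∈ Ioo 0 t1, ∃ f' ≤ 0, HasDerivAt f f' t) (ht : t ∈ Icc 0 t1) : f t ≤ f 0 := by
  refine antitoneOn_of_deriv_nonpos (convex_Icc 0 t1) hc (fun s hs => ?_) (fun s hs => ?_)
    ⟨le_rfl, ht.1.trans ht.2⟩ ht ht.1
  · rw [interior_Icc] at hs
    obtain ⟨f', -, h⟩ := hd s hs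
    exact h.differentiableAt.differentiableWithinAt
  · rw [interior_Icc] at hs
    obtain ⟨f', h1, h⟩ := hd s hs
    rwa [h.deriv]

end MfAux

open MfAux in
/-- Step 4 of the plan, from the results of the other files of the block. -/
theorem modes_of (H : ModesIn) (q : ℕ) (th : ℝ) :
    ∃ ε0 > 0, ∀ K : Consts, K.q = q → K.th = th → K.ε ≤ ε0 →
    Ev K (fun S _ t1 => (∀ p ∈ strip t1, Mid K S p) ∧
      ∀ t ∈ Ioc 0 t1, (K.ε * K.am / 2) ^ 2 ≤ S.Eu K t →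
        ∃ e' > 0, HasDerivAt (S.Eu K) e' t) := by
  obtain ⟨C6, hC6⟩ := H.vX_bound q
  obtain ⟨ε0, hε0, hpt⟩ := H.pointwise q th |C6|
  refine ⟨ε0, hε0, fun K hq hth hε => ?_⟩
  by_cases hK : K.OK
  swap
  · exact Eventually.of_forall fun _ _ _ _ _ _ hc => absurd hc.boot.ok hK
  obtain ⟨C, hC, herr⟩ := H.err_bound K
  obtain ⟨Cw, hCw, hpair⟩ := err_pair hK
  have hεa : 0 < K.ε * K.am := mul_pos hK.ε_pos hK.am_pos
  refine ((((hC6 K hq).and herr).and (mono K)).and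
    (Ev.small K (5 / 4 * (Cw * C)) (κ := 4 / 5) (η := K.ε * K.am / 10) (by norm_num)
      (by positivity))).mono ?_
  rintro S J t1 d hc ⟨⟨⟨hvX, he⟩, hmono⟩, hs⟩
  have hB := hc.boot
  have hS := hB.sol
  have hJ : ∀ t ∈ Icc 0 t1, t ∈ J := fun t ht => hS.time.down t1 hB.mem ht
  have hσ : ∀ t ∈ Icc 0 t1, 0 < S.sg t := fun t ht =>
    hB.σ_pos (p := (0, t)) ⟨⟨le_rfl, pi_pos.le⟩, ht⟩
  have hσ' : ∀ t ∈ Icc 0 t1, S.sg t ≤ S.sg 0 := fun t ht =>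
    hB.σ_le (p := (0, t)) ⟨⟨le_rfl, pi_pos.le⟩, ht⟩
  have hsl : ∀ t ∈ Icc 0 t1, Slice K S J t := fun t ht =>
    ⟨hK, hB.q_eq, hS, hJ t ht, hσ t ht, hmono t ht⟩
  have hode := fun t (ht : t ∈ Ioc 0 t1) =>
    odes H (hsl t ⟨ht.1.le, ht.2⟩) ht.1 hpair (η := C * S.sg t ^ (4 / 5 : ℝ))
      (mul_nonneg hC.le (rpow_nonneg (hσ t ⟨ht.1.le, ht.2⟩).le _)) fun θ hθ hφ =>
        he (θ, t) ⟨⟨hθ.1, by linarith [hθ.2, pi_pos]⟩, ht.1.le, ht.2⟩ ht.1 hθ.2.le hφ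
  have hb : ∀ t ∈ Icc 0 t1, 0 ≤ Cw * (C * S.sg t ^ (4 / 5 : ℝ)) ∧
      Cw * (C * S.sg t ^ (4 / 5 : ℝ)) ≤ K.ε * K.am / 10 := fun t ht => by
    have h1 : S.sg t ^ (4 / 5 : ℝ) ≤ S.sg 0 ^ (4 / 5 : ℝ) :=
      rpow_le_rpow (hσ t ht).le (hσ' t ht) (by norm_num)
    have h2 : 0 ≤ S.sg t ^ (4 / 5 : ℝ) := rpow_nonneg (hσ t ht).le _
    have h3 := mul_le_mul_of_nonneg_left h1 (mul_pos hCw hC).le
    have h4 : 0 ≤ Cw * C * S.sg 0 ^ (4 / 5 : ℝ) := mul_nonneg (mul_pos hCw hC).le (h2.trans h1)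
    have h5 : 5 / 4 * (Cw * C) * S.sg 0 ^ (4 / 5 : ℝ) ≤ K.ε * K.am / 10 := hs
    exact ⟨by positivity, by linarith⟩
  obtain ⟨cmd, cEn⟩ := modes_cont hK hB.q_eq hS hB.mem hB.sg_pos
  have csg : ContinuousOn S.sg (Icc 0 t1) := hS.sm_sg.continuousOn.mono hJ
  have hl : ∀ t ∈ Icc 0 t1, 0 < S.l t ^ 2 / S.sg t := fun t ht =>
    div_pos (pow_pos (hS.l_pos t (hJ t ht)) 2) (hσ t ht)
  have hmd3 : ∀ t ∈ Icc 0 t1, |S.md K 3 t - K.am * √(K.hL 3)| ≤ K.ε * K.am / 5 := by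
    intro t ht
    have key : ∀ s : ℝ, |s| = 1 → s * S.md K 3 t + 5 / 4 * (Cw * C) * S.sg t ^ (4 / 5 : ℝ) ≤
        s * S.md K 3 0 + 5 / 4 * (Cw * C) * S.sg 0 ^ (4 / 5 : ℝ) := fun s hs1 => by
      refine le_start (f := fun t => s * S.md K 3 t + 5 / 4 * (Cw * C) * S.sg t ^ (4 / 5 : ℝ))
        ((continuousOn_const.mul (cmd 3)).add
          (continuousOn_const.mul (csg.rpow_const fun _ _ => Or.inr (by norm_num))))
        (fun u hu => ?_) ht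
      have hu' : u ∈ Icc 0 t1 := Ioo_subset_Icc_self hu
      obtain ⟨r, hr, -⟩ := hode u ⟨hu.1, hu.2.le⟩
      obtain ⟨r1, r2⟩ := hr 3 (by norm_num)
      have d2 := (hasDerivAt_sg hS (hJ u hu') hu.1).rpow_const (p := 4 / 5) (Or.inl (hσ u hu').ne')
      refine ⟨_, ?_, (r2.const_mul s).fun_add (d2.const_mul (5 / 4 * (Cw * C)))⟩
      rw [rpow_sub_one (hσ u hu').ne']
      have h1 : s * r 3 ≤ Cw * (C * S.sg u ^ (4 / 5 : ℝ)) := by
        refine (le_abs_self _).trans ?_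
        rwa [abs_mul, hs1, one_mul]
      have h2 := mul_le_mul_of_nonneg_left h1 (hl u hu').le
      refine le_trans (le_of_eq ?_) (sub_nonpos.2 h2)
      push_cast
      ring
    have k1 := key 1 (by simp)
    have k2 := key (-1) (by simp)
    have k3 := abs_le.1 hc.init.md3
    have k4 : 0 ≤ 5 / 4 * (Cw * C) * S.sg t ^ (4 / 5 : ℝ) := by
      have := rpow_nonneg (hσ t ht).le (4 / 5 : ℝ)
      positivity
    have k5 : 5 / 4 * (Cw * C) * S.sg 0 ^ (4 / 5 : ℝ) ≤ K.ε * K.am / 10 := hs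
    rw [abs_le]
    constructor <;> linarith [k3.1, k3.2]
  have hEp : ∀ t ∈ Icc 0 t1, S.Ep K t ≤ (K.ε * K.am / 10) ^ 2 := by
    intro t ht
    have cEp : ContinuousOn (S.Ep K) (Icc 0 t1) :=
      cEn.sub (continuousOn_finsetSum _ fun j _ => (cmd j).pow 2)
    have key := le_start (f := fun t => (S.Ep K t - (K.ε * K.am / 10) ^ 2) / S.sg t)
      ((cEp.sub continuousOn_const).div csg fun u hu => (hσ u hu).ne') (fun u hu => ?_) ht
    · have h0 : (0 : ℝ) ∈ Icc 0 t1 := ⟨le_rfl, ht.1.trans ht.2⟩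
      have h1 := key.trans (div_nonpos_of_nonpos_of_nonneg (sub_nonpos.2 hc.init.Ep) (hσ 0 h0).le)
      rwa [div_le_iff₀ (hσ t ht), zero_mul, sub_nonpos] at h1
    · have hu' : u ∈ Icc 0 t1 := Ioo_subset_Icc_self hu
      obtain ⟨r, -, D, hD, d1⟩ := hode u ⟨hu.1, hu.2.le⟩
      refine ⟨_, ?_, (d1.sub_const _).fun_div (hasDerivAt_sg hS (hJ u hu') hu.1) (hσ u hu').ne'⟩
      refine div_nonpos_of_nonpos_of_nonneg ?_ (sq_nonneg _)
      have h1 := pow_le_pow_left₀ (hb u hu').1 (hb u hu').2 2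
      have h2 : D + (S.Ep K u - (K.ε * K.am / 10) ^ 2) ≤ 0 := by linarith
      have h3 := mul_nonpos_of_nonneg_of_nonpos (sq_nonneg (S.l u)) h2
      refine le_trans (le_of_eq ?_) h3
      have := (hσ u hu').ne'
      field_simp
      ring
  have hhalf : ∀ p ∈ strip t1, p.1 ≤ π / 2 → Mid K S p := by
    rintro ⟨θ, t⟩ hp hθ hX1 hX2
    have ht : t ∈ Icc 0 t1 := hp.2
    have h := hsl t ht
    obtain ⟨Θ, hΘ⟩ := H.exists_inv h
    rw [hq] at hX2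
    have hq0 : (0 : ℝ) ≤ q := Nat.cast_nonneg _
    have hφ := (hvX (θ, t) hp hθ (by linarith) (by linarith)).2
    have hδ := hK.δ_pos
    have hφ0 : 0 < S.φ (θ, t) := hS.φ_pos θ hp.1 t (hJ t ht)
    have k := hpt K _ _ _ hK hq hth hε (adm H h hΘ) (fun Y hY => ?_) ?_ ?_ ?_ (S.X (θ, t))
      ⟨hX1, hX2⟩
    · have e1 : pull K S t Θ (S.v K) (S.X (θ, t)) =
          S.φ (θ, t) ^ K.th * S.D (θ, t) / S.σ (θ, t) ^ 3 := by
        unfold pull
        rw [if_pos, hΘ.left θ ⟨hp.1.1, hθ⟩ (by linarith)]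
        · have : cut (4 * S.φ (θ, t) / K.δ) = 0 := by
            refine smoothTransition.zero_of_nonpos ?_
            rw [sub_nonpos, div_le_one hδ]
            linarith
          rw [Data.v, this, sub_zero, one_mul]
          rfl
        · exact div_lt_div_of_pos_right (pow_lt_pow_left₀ (by linarith) hφ0.le (by norm_num))
            (hσ t ht)
      rwa [e1] at k
    · unfold pull
      split_ifs with h1
      · obtain ⟨r1, r2, -⟩ := hΘ.right Y ⟨by linarith [hY.1], h1⟩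
        refine (hvX (Θ Y, t) ⟨⟨r1.1, by linarith [r1.2, pi_pos]⟩, ht⟩ r1.2.le
          (by rw [r2]; exact hY.1) (by rw [r2]; exact hY.2)).1.trans ?_
        exact mul_le_mul_of_nonneg_right (le_abs_self _) hK.am_pos.le
      · rw [abs_zero]
        exact mul_nonneg (abs_nonneg _) hK.am_pos.le
    · have := hB.box t ht
      simpa only [Data.Eu, md_pr H h hΘ] using this
    · rw [← md_pr H h hΘ]
      exact hmd3 t ht
    · rw [← Ep_st H h hΘ]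
      exact (hEp t ht).trans (pow_le_pow_left₀ (by positivity) (by linarith) 2)
  refine ⟨fun p hp => ?_, fun t ht hEu => ?_⟩
  · rcases le_total p.1 (π / 2) with h | h
    · exact hhalf p hp h
    · obtain ⟨θ, t⟩ := p
      have htJ := hJ t hp.2
      have := hhalf (π - θ, t) ⟨⟨by linarith [hp.1.2], by linarith [hp.1.1]⟩, hp.2⟩
        (by simp only at h ⊢; linarith)
      unfold Mid at this ⊢
      rwa [hS.X_sym θ htJ, hS.D_sym θ htJ, hS.φ_sym θ t htJ] at this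
  · have ht' : t ∈ Icc 0 t1 := ⟨ht.1.le, ht.2⟩
    obtain ⟨r, hr, -⟩ := hode t ht
    have d1 := HasDerivAt.fun_sum (u := Finset.range 3)
      fun j hj => (hr j (by have := Finset.mem_range.1 hj; omega)).2.fun_pow 2
    refine ⟨_, ?_, d1⟩
    have hr2 : ∀ j < 4, r j ^ 2 ≤ (K.ε * K.am / 10) ^ 2 := fun j hj => by
      rw [← sq_abs]
      exact pow_le_pow_left₀ (abs_nonneg _) ((hr j hj).1.trans (hb t ht').2) 2
    have r0 := hr2 0 (by norm_num)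
    have r1 := hr2 1 (by norm_num)
    have r2 := hr2 2 (by norm_num)
    simp only [Data.Eu, Finset.sum_range_succ, Finset.sum_range_zero] at hEu ⊢
    have hpos : 0 < 2 * S.md K 0 t * (3 * S.md K 0 t + r 0) + 2 * S.md K 1 t * (2 * S.md K 1 t + r 1)
        + 2 * S.md K 2 t * (S.md K 2 t + r 2) := by
      nlinarith [sq_nonneg (S.md K 0 t + r 0), sq_nonneg (S.md K 1 t + r 1),
        sq_nonneg (S.md K 2 t + r 2), sq_nonneg (S.md K 0 t), sq_nonneg (S.md K 1 t),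
        mul_pos hεa hεa]
    refine lt_of_lt_of_eq (mul_pos (hl t ht') hpos) ?_
    push_cast
    ring

end Vale.Agent.P244Z.Q
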