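import Vale.Agent.P244Z.QExist
import Vale.Agent.P244Z.QData
import Vale.Agent.P244Z.QImprove
import Vale.Agent.P244Z.QMa
import Vale.Agent.P244Z.QMb
import Vale.Agent.P244Z.QMc
import Vale.Agent.P244Z.QMf
import Vale.Agent.P244Z.QMx
import Vale.Agent.P244Z.QErr
import Vale.Agent.P244Z.Flow.Main

/-!
# P244: the blocks DATA, BARR, MODES, FLOW and GEO, in the form used by the assembly
-/

namespace Vale.Agent.P244Z.Q

theorem modesIn : ModesIn where
  ibp_mode := fun hK hV _ hj => ibp_mode hK hV hj
  gap := fun hK hV => gap hK hV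
  pointwise := pointwise
  exists_inv := fun h => h.exists_inv
  vanish := fun h _ hθ hδ => h.vanish hθ hδ
  pull_deriv := fun h _ hΘ _ hY => h.pull_deriv hΘ hY
  pull_meas := fun h h0 _ hΘ => h.pull_meas h0 hΘ
  err_bound := err_bound
  crude := fun h => h.crude
  vX_bound := vX_bound

theorem dataSt : DataSt := data_main

theorem improveSt : ImproveSt := fun q th => improve_of q th (modes_of modesIn q th)

theorem flowSt : FlowSt := fun _ _ hS hq hσ _ hR hu => flow_main hS hq hσ hR hu

theorem counterexample_all {n : ℕ} (hn : 10003 ≤ n) : Geo.Counterexample n := by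
  have h := main_of exist dataSt improveSt flowSt (q := n - 3) (by omega)
  rwa [show n - 3 + 3 = n by omega] at h

end Vale.Agent.P244Z.Q
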