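import Mathlib.Analysis.Calculus.ContDiff.FiniteDimension
import Mathlib.Analysis.Calculus.ContDiff.Operations
import Mathlib.Analysis.Calculus.FDeriv.Symmetric
import Mathlib.Analysis.Calculus.Deriv.Comp
import Mathlib.Analysis.Calculus.Deriv.Mul
import Mathlib.LinearAlgebra.Trace
import Mathlib.LinearAlgebra.Dual.Lemmas

/-!
Christoffel symbols and Ricci curvature of a field of bilinear forms on a normed space, and their
behaviour under local diffeomorphisms.
-/

open scoped ContDiff Topology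
open Set Filter

set_option maxSynthPendingDepth 3

namespace Vale.Agent.P244Z.Geo

/-- Continuous bilinear forms. -/
abbrev Bil (E : Type) [NormedAddCommGroup E] [NormedSpace ℝ E] : Type := E →L[ℝ] E →L[ℝ] ℝ

variable {E : Type} [NormedAddCommGroup E] [NormedSpace ℝ E]
  {E' : Type} [NormedAddCommGroup E'] [NormedSpace ℝ E']
  {F : Type} [NormedAddCommGroup F] [NormedSpace ℝ F]

theorem hasDerivAt_line {f : E → F} {y : E} (hf : DifferentiableAt ℝ f y) (s : E) :
    HasDerivAt (fun t : ℝ => f (y + t • s)) (fderiv ℝ f y s) 0 := by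
  have h1 : HasDerivAt (fun t : ℝ => y + t • s) s 0 := by
    simpa using ((hasDerivAt_id (0 : ℝ)).smul_const s).const_add y
  have h2 : HasFDerivAt f (fderiv ℝ f y) (y + (0 : ℝ) • s) := by
    simpa using hf.hasFDerivAt
  exact h2.comp_hasDerivAt (0 : ℝ) h1

theorem tendsto_line (y s : E) : Tendsto (fun t : ℝ => y + t • s) (𝓝 0) (𝓝 y) := by
  have : Continuous (fun t : ℝ => y + t • s) := by fun_prop
  simpa using this.tendsto 0

/-- The Koszul combination of a trilinear form. -/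
noncomputable def kosz (D : E →L[ℝ] Bil E) : E →L[ℝ] Bil E :=
  (1 / 2 : ℝ) • (D + D.flip -
    ((ContinuousLinearMap.flipₗᵢ ℝ E E ℝ).toContinuousLinearEquiv : Bil E →L[ℝ] Bil E).comp D.flip)

theorem kosz_apply (D : E →L[ℝ] Bil E) (u v w : E) :
    kosz D u v w = 1 / 2 * (D u v w + D v u w - D w u v) := rfl

theorem contDiff_kosz : ContDiff ℝ ∞ (kosz : (E →L[ℝ] Bil E) → E →L[ℝ] Bil E) := by
  have h1 : ContDiff ℝ ∞ fun D : E →L[ℝ] Bil E => D.flip :=
    (ContinuousLinearMap.flipₗᵢ ℝ E E (E →L[ℝ] ℝ)).contDiff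
  unfold kosz
  exact ((contDiff_id.add h1).sub (contDiff_const.clm_comp h1)).const_smul _

/-- The Christoffel map. -/
noncomputable def chr (G : E → Bil E) (z : E) : E →L[ℝ] E →L[ℝ] E :=
  (ContinuousLinearMap.compL ℝ E (E →L[ℝ] ℝ) E (G z).inverse).comp (kosz (fderiv ℝ G z))

theorem chr_apply (G : E → Bil E) (z u v : E) :
    chr G z u v = (G z).inverse (kosz (fderiv ℝ G z) u v) := rfl

/-- The curvature endomorphism `u ↦ R(u, v) w` of a Christoffel map. -/
noncomputable def curvL (Γ : E → E →L[ℝ] E →L[ℝ] E) (z v w : E) : E →ₗ[ℝ] E where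
  toFun u := fderiv ℝ Γ z u v w - fderiv ℝ Γ z v u w + Γ z u (Γ z v w) - Γ z v (Γ z u w)
  map_add' a b := by simp only [map_add, add_apply]; abel
  map_smul' c a := by
    simp only [map_smul, smul_apply, RingHom.id_apply, smul_sub, smul_add]

theorem curvL_apply (Γ : E → E →L[ℝ] E →L[ℝ] E) (z v w u : E) : curvL Γ z v w u =
    fderiv ℝ Γ z u v w - fderiv ℝ Γ z v u w + Γ z u (Γ z v w) - Γ z v (Γ z u w) := rfl

/-- The Ricci form. -/
noncomputable def ricA (G : E → Bil E) (z v w : E) : ℝ :=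
  LinearMap.trace ℝ E (curvL (chr G) z v w)

/-- A Riemannian metric on an open set. -/
structure RiemOn (G : E → Bil E) (U : Set E) : Prop where
  isOpen : IsOpen U
  smooth : ContDiffOn ℝ ∞ G U
  symm : ∀ z ∈ U, ∀ u v, G z u v = G z v u
  pos : ∀ z ∈ U, ∀ v, v ≠ 0 → 0 < G z v v

theorem inj_of_pos {B : Bil E} (hpos : ∀ v, v ≠ 0 → 0 < B v v) {a b : E}
    (h : ∀ w, B a w = B b w) : a = b := by
  by_contra hne
  have h1 := hpos (a - b) (sub_ne_zero.2 hne)
  have h2 : B (a - b) (a - b) = 0 := by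
    rw [map_sub B a b, sub_apply, h, sub_self]
  exact h1.ne' h2

theorem two_le_inf : minSmoothness ℝ 2 ≤ ∞ := by
  rw [minSmoothness_of_isRCLikeNormedField]
  show ((2 : ℕ∞) : WithTop ℕ∞) ≤ ((⊤ : ℕ∞) : WithTop ℕ∞)
  exact WithTop.coe_le_coe.mpr le_top

theorem RiemOn.mono {G : E → Bil E} {U V : Set E} (h : RiemOn G U) (hV : IsOpen V)
    (hVU : V ⊆ U) : RiemOn G V :=
  ⟨hV, h.smooth.mono hVU, fun z hz => h.symm z (hVU hz), fun z hz => h.pos z (hVU hz)⟩

theorem RiemOn.at {G : E → Bil E} {U : Set E} (h : RiemOn G U) {z : E} (hz : z ∈ U) :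
    ContDiffAt ℝ ∞ G z := h.smooth.contDiffAt (h.isOpen.mem_nhds hz)

variable [FiniteDimensional ℝ E] [FiniteDimensional ℝ E']

theorem isInvertible_of_pos {B : Bil E} (hpos : ∀ v, v ≠ 0 → 0 < B v v) : B.IsInvertible := by
  have hinj : Function.Injective (B : E →ₗ[ℝ] (E →L[ℝ] ℝ)) := fun a b hab =>
    inj_of_pos hpos fun w => by
      have : B a = B b := hab
      rw [this]
  have hdim : Module.finrank ℝ E = Module.finrank ℝ (E →L[ℝ] ℝ) := by
    rw [← (LinearMap.toContinuousLinearMap (𝕜 := ℝ) (E := E) (F' := ℝ)).finrank_eq]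
    exact (Subspace.dual_finrank_eq).symm
  have hsurj := (LinearMap.injective_iff_surjective_of_finrank_eq_finrank hdim).1 hinj
  exact ⟨(LinearEquiv.ofBijective _ ⟨hinj, hsurj⟩).toContinuousLinearEquiv, by ext; rfl⟩

theorem chr_spec {G : E → Bil E} {z : E} (hpos : ∀ v, v ≠ 0 → 0 < G z v v) (u v w : E) :
    G z (chr G z u v) w =
      1 / 2 * (fderiv ℝ G z u v w + fderiv ℝ G z v u w - fderiv ℝ G z w u v) := by
  rw [chr_apply, (isInvertible_of_pos hpos).self_apply_inverse, kosz_apply]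

theorem chr_unique {G : E → Bil E} {z : E} (hpos : ∀ v, v ≠ 0 → 0 < G z v v) {u v a : E}
    (h : ∀ w, G z a w =
      1 / 2 * (fderiv ℝ G z u v w + fderiv ℝ G z v u w - fderiv ℝ G z w u v)) :
    chr G z u v = a :=
  inj_of_pos hpos fun w => by rw [chr_spec hpos, h]

theorem contDiffAt_chr {G : E → Bil E} {z : E} (hG : ContDiffAt ℝ ∞ G z)
    (hpos : ∀ v, v ≠ 0 → 0 < G z v v) : ContDiffAt ℝ ∞ (chr G) z := by
  have := FiniteDimensional.complete ℝ E
  have h1 : ContDiffAt ℝ ∞ (fun y => (G y).inverse) z :=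
    ((isInvertible_of_pos hpos).contDiffAt_map_inverse).comp z hG
  have h2 : ContDiffAt ℝ ∞ (fun y => kosz (fderiv ℝ G y)) z :=
    contDiff_kosz.contDiffAt.comp z (hG.fderiv_right (m := ∞) (by simp))
  unfold chr
  exact ((ContinuousLinearMap.compL ℝ E (E →L[ℝ] ℝ) E).contDiff.contDiffAt.comp z h1).clm_comp h2

theorem RiemOn.chr_at {G : E → Bil E} {U : Set E} (h : RiemOn G U) {z : E} (hz : z ∈ U) :
    ContDiffAt ℝ ∞ (chr G) z := contDiffAt_chr (h.at hz) (h.pos z hz)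

omit [FiniteDimensional ℝ E] in
theorem trace_eq_sum_repr {ι : Type} [Fintype ι] (b : Module.Basis ι ℝ E) (f : E →ₗ[ℝ] E) :
    LinearMap.trace ℝ E f = ∑ i, b.repr (f (b i)) i := by
  classical
  rw [LinearMap.trace_eq_matrix_trace ℝ b, Matrix.trace]
  simp [LinearMap.toMatrix_apply]

theorem RiemOn.continuousAt_ricA {G : E → Bil E} {U : Set E} (h : RiemOn G U) {z : E}
    (hz : z ∈ U) (v w : E) : ContinuousAt (fun y => ricA G y v w) z := by
  have h1 := (h.chr_at hz).continuousAt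
  have h2 := ((h.chr_at hz).fderiv_right (m := ∞) (by simp)).continuousAt
  let b := Module.finBasis ℝ E
  simp only [ricA, trace_eq_sum_repr b, curvL_apply]
  refine tendsto_finsetSum _ fun i _ => ?_
  have hc : Continuous fun x : E => b.repr x i := (b.coord i).continuous_of_finiteDimensional
  refine hc.continuousAt.comp (f := fun y => fderiv ℝ (chr G) y (b i) v w -
    fderiv ℝ (chr G) y v (b i) w + chr G y (b i) (chr G y v w) - chr G y v (chr G y (b i) w)) ?_
  have c0 : ∀ a : E, ContinuousAt (fun _ : E => a) z := fun a => continuousAt_const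
  exact (((((h2.clm_apply (c0 _)).clm_apply (c0 _)).clm_apply (c0 _)).sub
    (((h2.clm_apply (c0 _)).clm_apply (c0 _)).clm_apply (c0 _))).add
    ((h1.clm_apply (c0 _)).clm_apply ((h1.clm_apply (c0 _)).clm_apply (c0 _)))).sub
    ((h1.clm_apply (c0 _)).clm_apply ((h1.clm_apply (c0 _)).clm_apply (c0 _)))

section Pull

variable {G : E → Bil E} {G' : E' → Bil E'} {τ : E' → E} {U : Set E} {U' : Set E'}

omit [FiniteDimensional ℝ E] [FiniteDimensional ℝ E'] in
theorem pull_fderiv (hG : RiemOn G U) (hG' : RiemOn G' U') (hτ : ContDiffOn ℝ ∞ τ U')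
    (hm : MapsTo τ U' U)
    (he : ∀ y ∈ U', ∀ u v, G' y u v = G (τ y) (fderiv ℝ τ y u) (fderiv ℝ τ y v))
    {y : E'} (hy : y ∈ U') (x u v : E') :
    fderiv ℝ G' y x u v = fderiv ℝ G (τ y) (fderiv ℝ τ y x) (fderiv ℝ τ y u) (fderiv ℝ τ y v)
      + G (τ y) (fderiv ℝ (fderiv ℝ τ) y x u) (fderiv ℝ τ y v)
      + G (τ y) (fderiv ℝ τ y u) (fderiv ℝ (fderiv ℝ τ) y x v) := by
  have hτy : ContDiffAt ℝ ∞ τ y := hτ.contDiffAt (hG'.isOpen.mem_nhds hy)
  have d1 : DifferentiableAt ℝ τ y := hτy.differentiableAt (by simp)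
  have d2 : DifferentiableAt ℝ (fderiv ℝ τ) y :=
    (hτy.fderiv_right (m := ∞) (by simp)).differentiableAt (by simp)
  have h1 : HasDerivAt (fun t : ℝ => G' (y + t • x) u v) (fderiv ℝ G' y x u v) 0 := by
    have := ((hasDerivAt_line ((hG'.at hy).differentiableAt (by simp)) x).clm_apply
      (hasDerivAt_const (0 : ℝ) u)).clm_apply (hasDerivAt_const (0 : ℝ) v)
    simpa using this
  have hGt : HasDerivAt (fun t : ℝ => G (τ (y + t • x)))
      (fderiv ℝ G (τ y) (fderiv ℝ τ y x)) 0 := by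
    have h2 : HasFDerivAt G (fderiv ℝ G (τ y)) (τ (y + (0 : ℝ) • x)) := by
      simpa using ((hG.at (hm hy)).differentiableAt (by simp)).hasFDerivAt
    exact h2.comp_hasDerivAt (0 : ℝ) (hasDerivAt_line d1 x)
  have hA : ∀ v, HasDerivAt (fun t : ℝ => fderiv ℝ τ (y + t • x) v)
      (fderiv ℝ (fderiv ℝ τ) y x v) 0 := by
    intro v
    simpa using (hasDerivAt_line d2 x).clm_apply (hasDerivAt_const (0 : ℝ) v)
  have h3 := (hGt.clm_apply (hA u)).clm_apply (hA v)
  have h4 : (fun t : ℝ => G' (y + t • x) u v) =ᶠ[𝓝 0] fun t : ℝ =>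
      G (τ (y + t • x)) (fderiv ℝ τ (y + t • x) u) (fderiv ℝ τ (y + t • x) v) := by
    filter_upwards [(tendsto_line y x).eventually (hG'.isOpen.mem_nhds hy)] with t ht
    exact he _ ht u v
  have h5 := h1.unique (h3.congr_of_eventuallyEq h4)
  simpa using h5

omit [FiniteDimensional ℝ E'] in
theorem pull_surj [FiniteDimensional ℝ E'] (hG' : RiemOn G' U')
    (he : ∀ y ∈ U', ∀ u v, G' y u v = G (τ y) (fderiv ℝ τ y u) (fderiv ℝ τ y v))
    (hdim : Module.finrank ℝ E' = Module.finrank ℝ E) {y : E'} (hy : y ∈ U') :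
    Function.Bijective (fderiv ℝ τ y) := by
  have hinj : Function.Injective (fderiv ℝ τ y : E' →ₗ[ℝ] E) := by
    rw [injective_iff_map_eq_zero]
    intro v hv
    by_contra hne
    have h1 := hG'.pos y hy v hne
    have h2 : fderiv ℝ τ y v = 0 := hv
    rw [he y hy, h2, map_zero] at h1
    exact lt_irrefl _ h1
  exact ⟨hinj, (LinearMap.injective_iff_surjective_of_finrank_eq_finrank hdim).1 hinj⟩

theorem pull_chr (hG : RiemOn G U) (hG' : RiemOn G' U') (hτ : ContDiffOn ℝ ∞ τ U')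
    (hm : MapsTo τ U' U)
    (he : ∀ y ∈ U', ∀ u v, G' y u v = G (τ y) (fderiv ℝ τ y u) (fderiv ℝ τ y v))
    (hdim : Module.finrank ℝ E' = Module.finrank ℝ E) {y : E'} (hy : y ∈ U') (u v : E') :
    fderiv ℝ τ y (chr G' y u v) =
      chr G (τ y) (fderiv ℝ τ y u) (fderiv ℝ τ y v) + fderiv ℝ (fderiv ℝ τ) y u v := by
  have hτy : ContDiffAt ℝ ∞ τ y := hτ.contDiffAt (hG'.isOpen.mem_nhds hy)
  have hs : ∀ a b, fderiv ℝ (fderiv ℝ τ) y a b = fderiv ℝ (fderiv ℝ τ) y b a :=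
    hτy.isSymmSndFDerivAt two_le_inf
  refine inj_of_pos (hG.pos _ (hm hy)) fun w' => ?_
  obtain ⟨w, rfl⟩ := (pull_surj hG' he hdim hy).2 w'
  rw [← he y hy, chr_spec (hG'.pos y hy), map_add, add_apply,
    chr_spec (hG.pos _ (hm hy)), pull_fderiv hG hG' hτ hm he hy, pull_fderiv hG hG' hτ hm he hy,
    pull_fderiv hG hG' hτ hm he hy, hs v u, hs w u, hs w v,
    hG.symm _ (hm hy) (fderiv ℝ τ y v) (fderiv ℝ (fderiv ℝ τ) y u w)]
  ring

theorem pull_curv (hG : RiemOn G U) (hG' : RiemOn G' U') (hτ : ContDiffOn ℝ ∞ τ U')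
    (hm : MapsTo τ U' U)
    (he : ∀ y ∈ U', ∀ u v, G' y u v = G (τ y) (fderiv ℝ τ y u) (fderiv ℝ τ y v))
    (hdim : Module.finrank ℝ E' = Module.finrank ℝ E) {y : E'} (hy : y ∈ U') (x v w : E') :
    fderiv ℝ τ y (curvL (chr G') y v w x) =
      curvL (chr G) (τ y) (fderiv ℝ τ y v) (fderiv ℝ τ y w) (fderiv ℝ τ y x) := by
  have hτy : ContDiffAt ℝ ∞ τ y := hτ.contDiffAt (hG'.isOpen.mem_nhds hy)
  have hτ1 := hτy.fderiv_right (m := ∞) (by simp)
  have hτ2 := hτ1.fderiv_right (m := ∞) (by simp)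
  have d1 : DifferentiableAt ℝ τ y := hτy.differentiableAt (by simp)
  have d2 : DifferentiableAt ℝ (fderiv ℝ τ) y := hτ1.differentiableAt (by simp)
  have d3 : DifferentiableAt ℝ (fderiv ℝ (fderiv ℝ τ)) y := hτ2.differentiableAt (by simp)
  have hs : ∀ a b, fderiv ℝ (fderiv ℝ τ) y a b = fderiv ℝ (fderiv ℝ τ) y b a :=
    hτy.isSymmSndFDerivAt two_le_inf
  have hs3 : ∀ a b, fderiv ℝ (fderiv ℝ (fderiv ℝ τ)) y a b =
      fderiv ℝ (fderiv ℝ (fderiv ℝ τ)) y b a := hτ1.isSymmSndFDerivAt two_le_inf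
  have key : ∀ x u v, fderiv ℝ τ y (fderiv ℝ (chr G') y x u v) =
      fderiv ℝ (chr G) (τ y) (fderiv ℝ τ y x) (fderiv ℝ τ y u) (fderiv ℝ τ y v)
      + chr G (τ y) (fderiv ℝ (fderiv ℝ τ) y x u) (fderiv ℝ τ y v)
      + chr G (τ y) (fderiv ℝ τ y u) (fderiv ℝ (fderiv ℝ τ) y x v)
      + fderiv ℝ (fderiv ℝ (fderiv ℝ τ)) y x u v
      - fderiv ℝ (fderiv ℝ τ) y x (chr G' y u v) := by
    intro x u v
    have hA0 := hasDerivAt_line d2 x
    have hA : ∀ v, HasDerivAt (fun t : ℝ => fderiv ℝ τ (y + t • x) v)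
        (fderiv ℝ (fderiv ℝ τ) y x v) 0 := by
      intro v
      simpa using hA0.clm_apply (hasDerivAt_const (0 : ℝ) v)
    have h1 : HasDerivAt (fun t : ℝ => chr G' (y + t • x) u v) (fderiv ℝ (chr G') y x u v) 0 := by
      have := ((hasDerivAt_line ((hG'.chr_at hy).differentiableAt (by simp)) x).clm_apply
        (hasDerivAt_const (0 : ℝ) u)).clm_apply (hasDerivAt_const (0 : ℝ) v)
      simpa using this
    have h2 := hA0.clm_apply h1
    have hGt : HasDerivAt (fun t : ℝ => chr G (τ (y + t • x)))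
        (fderiv ℝ (chr G) (τ y) (fderiv ℝ τ y x)) 0 := by
      have h2 : HasFDerivAt (chr G) (fderiv ℝ (chr G) (τ y)) (τ (y + (0 : ℝ) • x)) := by
        simpa using ((hG.chr_at (hm hy)).differentiableAt (by simp)).hasFDerivAt
      exact h2.comp_hasDerivAt (0 : ℝ) (hasDerivAt_line d1 x)
    have hC : HasDerivAt (fun t : ℝ => fderiv ℝ (fderiv ℝ τ) (y + t • x) u v)
        (fderiv ℝ (fderiv ℝ (fderiv ℝ τ)) y x u v) 0 := by
      have := ((hasDerivAt_line d3 x).clm_apply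
        (hasDerivAt_const (0 : ℝ) u)).clm_apply (hasDerivAt_const (0 : ℝ) v)
      simpa using this
    have h3 := ((hGt.clm_apply (hA u)).clm_apply (hA v)).add hC
    have h4 : (fun t : ℝ => fderiv ℝ τ (y + t • x) (chr G' (y + t • x) u v)) =ᶠ[𝓝 0]
        ((fun t : ℝ => chr G (τ (y + t • x)) (fderiv ℝ τ (y + t • x) u)
          (fderiv ℝ τ (y + t • x) v)) + fun t : ℝ => fderiv ℝ (fderiv ℝ τ) (y + t • x) u v) := by
      filter_upwards [(tendsto_line y x).eventually (hG'.isOpen.mem_nhds hy)] with t ht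
      exact pull_chr hG hG' hτ hm he hdim ht u v
    have h5 := h2.unique (h3.congr_of_eventuallyEq h4)
    simp only [zero_smul, add_zero, add_apply] at h5
    rw [← h5]
    abel
  have hc := fun u v => pull_chr hG hG' hτ hm he hdim hy u v
  simp only [curvL_apply, map_sub, map_add, key, hc]
  rw [hs v x, hs3 v x]
  abel

theorem pull_ricA (hG : RiemOn G U) (hG' : RiemOn G' U') (hτ : ContDiffOn ℝ ∞ τ U')
    (hm : MapsTo τ U' U)
    (he : ∀ y ∈ U', ∀ u v, G' y u v = G (τ y) (fderiv ℝ τ y u) (fderiv ℝ τ y v))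
    (hdim : Module.finrank ℝ E' = Module.finrank ℝ E) {y : E'} (hy : y ∈ U') (v w : E') :
    ricA G' y v w = ricA G (τ y) (fderiv ℝ τ y v) (fderiv ℝ τ y w) := by
  let T : E' ≃ₗ[ℝ] E :=
    LinearEquiv.ofBijective (fderiv ℝ τ y : E' →ₗ[ℝ] E) (pull_surj hG' he hdim hy)
  unfold ricA
  rw [← LinearMap.trace_conj' _ T]
  congr 1
  ext x'
  obtain ⟨x, rfl⟩ := T.surjective x'
  rw [LinearEquiv.conj_apply_apply, T.symm_apply_apply]
  exact pull_curv hG hG' hτ hm he hdim hy x v w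

end Pull

end Vale.Agent.P244Z.Geo
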