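import Vale.Agent.P244Z.GeoSph
import Mathlib.Analysis.SpecialFunctions.Trigonometric.InverseDeriv

/-!
The doubly warped product metric on `S^(q+1) × S^p` as the pull back of an ambient form.
-/

open scoped Manifold ContDiff Topology RealInnerProductSpace
open Set Filter Module Metric Real

set_option maxSynthPendingDepth 3

namespace Vale.Agent.P244Z.Geo

section Amb

variable {A₁ A₂ : Type} [NormedAddCommGroup A₁] [InnerProductSpace ℝ A₁]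
  [NormedAddCommGroup A₂] [InnerProductSpace ℝ A₂]

/-- The ambient form. -/
noncomputable def ambB (a b c : ℝ → ℝ) (N : A₁) (x : A₁ × A₂) : Bil (A₁ × A₂) :=
  a (arccos ⟪N, x.1⟫) • (ipB A₁).bilinearComp (ContinuousLinearMap.fst ℝ A₁ A₂)
      (ContinuousLinearMap.fst ℝ A₁ A₂) +
    b (arccos ⟪N, x.1⟫) • (ContinuousLinearMap.mul ℝ ℝ).bilinearComp
      ((ipB A₁ N).comp (ContinuousLinearMap.fst ℝ A₁ A₂))
      ((ipB A₁ N).comp (ContinuousLinearMap.fst ℝ A₁ A₂)) +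
    c (arccos ⟪N, x.1⟫) • (ipB A₂).bilinearComp (ContinuousLinearMap.snd ℝ A₁ A₂)
      (ContinuousLinearMap.snd ℝ A₁ A₂)

theorem ambB_apply (a b c : ℝ → ℝ) (N : A₁) (x u v : A₁ × A₂) : ambB a b c N x u v =
    a (arccos ⟪N, x.1⟫) * ⟪u.1, v.1⟫ + b (arccos ⟪N, x.1⟫) * (⟪N, u.1⟫ * ⟪N, v.1⟫) +
      c (arccos ⟪N, x.1⟫) * ⟪u.2, v.2⟫ := rfl

theorem ambB_pos {a b c : ℝ → ℝ} {N : A₁} {x u : A₁ × A₂} (hN : ⟪N, N⟫ = 1)
    (hx : ⟪x.1, x.1⟫ = 1) (hu : ⟪x.1, u.1⟫ = 0) (hu0 : u ≠ 0)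
    (ha : 0 < a (arccos ⟪N, x.1⟫))
    (hb : 0 < a (arccos ⟪N, x.1⟫) + b (arccos ⟪N, x.1⟫) * (1 - ⟪N, x.1⟫ ^ 2))
    (hc : 0 < c (arccos ⟪N, x.1⟫)) : 0 < ambB a b c N x u u := by
  rw [ambB_apply]
  have h1 : ⟪N, u.1⟫ * ⟪N, u.1⟫ ≤ (1 - ⟪N, x.1⟫ ^ 2) * ⟪u.1, u.1⟫ := by
    have h2 := real_inner_mul_inner_self_le (N - ⟪N, x.1⟫ • x.1) u.1
    simp only [inner_sub_left, inner_sub_right, real_inner_smul_left, real_inner_smul_right, hN,
      hx, hu, real_inner_comm N x.1] at h2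
    nlinarith [h2]
  have h3 : 0 ≤ ⟪N, u.1⟫ * ⟪N, u.1⟫ := mul_self_nonneg _
  have h4 : 0 ≤ ⟪u.1, u.1⟫ := real_inner_self_nonneg
  have h5 : 0 ≤ ⟪u.2, u.2⟫ := real_inner_self_nonneg
  have h6 : ∃ k, 0 < k ∧ k * ⟪u.1, u.1⟫ ≤ a (arccos ⟪N, x.1⟫) * ⟪u.1, u.1⟫ +
      b (arccos ⟪N, x.1⟫) * (⟪N, u.1⟫ * ⟪N, u.1⟫) := by
    rcases le_total 0 (b (arccos ⟪N, x.1⟫)) with h | h
    · exact ⟨_, ha, le_add_of_nonneg_right (mul_nonneg h h3)⟩
    · exact ⟨_, hb, by nlinarith [mul_le_mul_of_nonpos_left h1 h]⟩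
  obtain ⟨k, hk, h6⟩ := h6
  by_cases h7 : u.1 = 0
  · have h8 : u.2 ≠ 0 := fun h8 => hu0 (Prod.ext h7 h8)
    have := mul_pos hc (real_inner_self_pos.2 h8)
    nlinarith [mul_nonneg hk.le h4]
  · have := mul_pos hk (real_inner_self_pos.2 h7)
    nlinarith [mul_nonneg hc.le h5]

end Amb

theorem inner_sph {k : ℕ} (x : Sph k) : ⟪x.1, x.1⟫ = 1 := by
  rw [real_inner_self_eq_norm_sq, norm_eq_of_mem_sphere x, one_pow]

theorem mem_sph {k : ℕ} {x : Euc (k + 1)} (h : ⟪x, x⟫ = 1) : x ∈ sphere (0 : Euc (k + 1)) 1 := by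
  rw [real_inner_self_eq_norm_sq] at h
  rw [mem_sphere_zero_iff_norm]
  nlinarith [norm_nonneg x]

theorem inner_mem_Icc {k : ℕ} (N x : Sph k) : ⟪N.1, x.1⟫ ∈ Icc (-1 : ℝ) 1 := by
  have := abs_real_inner_le_norm N.1 x.1
  rw [norm_eq_of_mem_sphere, norm_eq_of_mem_sphere, mul_one] at this
  exact abs_le.1 this

variable {p q n : ℕ}

theorem tangent_emb {m : ℕ} {e : OpenPartialHomeomorph (Sph m × Sph p) (Euc n)}
    (he : EmbChart emb e) (y u : Euc n) :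
    ⟪(emb (e.symm y)).1, (fderiv ℝ (emb ∘ e.symm) y u).1⟫ = 0 := by
  have h1 : HasDerivAt (fun t : ℝ => ((emb ∘ e.symm) (y + t • u)).1)
      (fderiv ℝ (emb ∘ e.symm) y u).1 0 :=
    (ContinuousLinearMap.fst ℝ (Euc (m + 1)) (Euc (p + 1))).hasFDerivAt.comp_hasDerivAt (0 : ℝ)
      (hasDerivAt_line (he.smooth.differentiable (by simp) y) u)
  have h2 := h1.inner ℝ h1
  have h3 : (fun t : ℝ => ⟪((emb ∘ e.symm) (y + t • u)).1, ((emb ∘ e.symm) (y + t • u)).1⟫) =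
      fun _ => 1 := funext fun t => inner_sph _
  rw [h3] at h2
  have h4 := h2.unique (hasDerivAt_const _ _)
  simp only [zero_smul, add_zero, Function.comp_apply] at h4
  rw [real_inner_comm (emb (e.symm y)).1] at h4
  linarith

/-- Polar coordinates around a point which is not over a pole. -/
theorem exists_polar (N : Sph (q + 1)) (x : Sph (q + 1) × Sph p)
    (hx : ⟪N.1, x.1.1⟫ ∈ Ioo (-1 : ℝ) 1) :
    ∃ Ψ : ℝ × Euc q × Euc p → Sph (q + 1) × Sph p, Continuous Ψ ∧ ContDiff ℝ ∞ (emb ∘ Ψ) ∧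
      Ψ (arccos ⟪N.1, x.1.1⟫, 0, 0) = x ∧
      ∀ z : ℝ × Euc q × Euc p, z.1 ∈ Ioo 0 π → ∀ a b c u v,
        ambB a b c N.1 (emb (Ψ z)) (fderiv ℝ (emb ∘ Ψ) z u) (fderiv ℝ (emb ∘ Ψ) z v) =
          (a z.1 + b z.1 * sin z.1 ^ 2) * (u.1 * v.1) +
          a z.1 * sin z.1 ^ 2 * lam z.2.1 ^ 2 * ⟪u.2.1, v.2.1⟫ +
          c z.1 * lam z.2.2 ^ 2 * ⟪u.2.2, v.2.2⟫ := by
  set h := ⟪N.1, x.1.1⟫ with hh
  have hN := inner_sph N
  have s0 : 0 < 1 - h ^ 2 := by nlinarith [hx.1, hx.2]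
  have s1 : 0 < √(1 - h ^ 2) := sqrt_pos.2 s0
  have s2 : √(1 - h ^ 2) ^ 2 = 1 - h ^ 2 := sq_sqrt s0.le
  set e : Euc (q + 1 + 1) := (√(1 - h ^ 2))⁻¹ • (x.1.1 - h • N.1) with hedef
  have hNe : ⟪N.1, e⟫ = 0 := by
    simp only [hedef, inner_sub_right, real_inner_smul_right, hN, ← hh]
    ring
  have hee : ⟪e, e⟫ = 1 := by
    simp only [hedef, inner_sub_left, inner_sub_right, real_inner_smul_left, real_inner_smul_right,
      hN, inner_sph x.1, real_inner_comm N.1 x.1.1, ← hh]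
    field_simp
    rw [s2]
    ring
  have he0 : e ≠ 0 := by
    intro h0
    rw [h0, inner_zero_left] at hee
    exact zero_ne_one hee
  obtain ⟨j₁, hj₁⟩ := exists_iso₂ (k := q) finrank_euclideanSpace_fin
    (ne_zero_of_mem_unit_sphere N) he0 hNe
  obtain ⟨j₂, hj₂⟩ := exists_iso (k := p) finrank_euclideanSpace_fin
    (ne_zero_of_mem_unit_sphere x.2)
  have hw := inner_sph x.2
  have n1 : ∀ θ, ⟪N.1, sig j₁ e θ⟫ = 0 := fun θ => by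
    simp [sig, inner_add_right, real_inner_smul_right, (hj₁ _).1, hNe]
  have n2 : ∀ θ u, ⟪N.1, dsig j₁ e θ u⟫ = 0 := fun θ u => by
    simp [dsig, inner_add_right, real_inner_smul_right, (hj₁ _).1, hNe]
  have n3 : ∀ θ, ⟪sig j₁ e θ, N.1⟫ = 0 := fun θ => by rw [real_inner_comm, n1]
  have n4 : ∀ θ u, ⟪dsig j₁ e θ u, N.1⟫ = 0 := fun θ u => by rw [real_inner_comm, n2]
  have n5 := inner_sig hee fun θ => (hj₁ θ).2
  have n6 := inner_sig_dsig hee fun θ => (hj₁ θ).2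
  have n7 : ∀ θ u, ⟪dsig j₁ e θ u, sig j₁ e θ⟫ = 0 := fun θ u => by rw [real_inner_comm, n6]
  have n8 := inner_dsig hee fun θ => (hj₁ θ).2
  let Φ : ℝ × Euc q × Euc p → Euc (q + 1 + 1) × Euc (p + 1) := fun z =>
    (cos z.1 • N.1 + sin z.1 • sig j₁ e z.2.1, sig j₂ x.2.1 z.2.2)
  have hΦ : ContDiff ℝ ∞ Φ :=
    (((contDiff_cos.comp contDiff_fst).smul contDiff_const).add
      ((contDiff_sin.comp contDiff_fst).smul (contDiff_sig.comp contDiff_snd.fst))).prodMk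
      (contDiff_sig.comp contDiff_snd.snd)
  have m1 : ∀ z, (Φ z).1 ∈ sphere (0 : Euc (q + 1 + 1)) 1 := fun z => mem_sph (by
    simp only [Φ, inner_add_left, inner_add_right, real_inner_smul_left, real_inner_smul_right,
      hN, n1, n3, n5]
    nlinarith [sin_sq_add_cos_sq z.1])
  have m2 : ∀ z, (Φ z).2 ∈ sphere (0 : Euc (p + 1)) 1 := fun z => mem_sph (inner_sig hw hj₂ _)
  refine ⟨fun z => (⟨(Φ z).1, m1 z⟩, ⟨(Φ z).2, m2 z⟩),
    (hΦ.continuous.fst.subtype_mk _).prodMk (hΦ.continuous.snd.subtype_mk _), hΦ, ?_, ?_⟩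
  · refine Prod.ext (Subtype.ext ?_) (Subtype.ext sig_zero)
    simp only [Φ, sig_zero, cos_arccos hx.1.le hx.2.le, sin_arccos, hedef, smul_smul,
      mul_inv_cancel₀ s1.ne', one_smul]
    abel
  · intro z hz a b c u v
    have hD : ∀ u, fderiv ℝ Φ z u =
        (u.1 • ((-sin z.1) • N.1 + cos z.1 • sig j₁ e z.2.1) + sin z.1 • dsig j₁ e z.2.1 u.2.1,
          dsig j₂ x.2.1 z.2.2 u.2.2) := by
      intro u
      have k1 := ((((hasDerivAt_aff (hasDerivAt_cos z.1) u.1).smul_const N.1).add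
        ((hasDerivAt_aff (hasDerivAt_sin z.1) u.1).smul
          (hasDerivAt_sig (j := j₁) (e := e) z.2.1 u.2.1))).prodMk
        (hasDerivAt_sig (j := j₂) (e := x.2.1) z.2.2 u.2.2))
      rw [(hasDerivAt_line (hΦ.differentiable (by simp) z) u).unique k1]
      refine Prod.ext ?_ rfl
      simp only [zero_smul, add_zero]
      module
    have hr : arccos ⟪N.1, (Φ z).1⟫ = z.1 := by
      simp only [Φ, inner_add_right, real_inner_smul_right, hN, n1, mul_one, mul_zero, add_zero]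
      exact arccos_cos hz.1.le hz.2.le
    show ambB a b c N.1 (Φ z) (fderiv ℝ Φ z u) (fderiv ℝ Φ z v) = _
    rw [ambB_apply, hr, hD, hD]
    simp only [inner_add_left, inner_add_right, real_inner_smul_left, real_inner_smul_right,
      hN, n1, n2, n3, n4, n5, n6, n7, n8, inner_dsig hw hj₂]
    linear_combination (a z.1 * u.1 * v.1) * sin_sq_add_cos_sq z.1

/-- The profile functions at a fixed time. -/
structure Slice (a b c χ φ ψ : ℝ → ℝ) : Prop where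
  smχ : ContDiffOn ℝ ∞ χ (Ioo 0 π)
  smφ : ContDiffOn ℝ ∞ φ (Ioo 0 π)
  smψ : ContDiffOn ℝ ∞ ψ (Ioo 0 π)
  neχ : ∀ r ∈ Ioo 0 π, χ r ≠ 0
  neφ : ∀ r ∈ Ioo 0 π, φ r ≠ 0
  neψ : ∀ r ∈ Ioo 0 π, ψ r ≠ 0
  eqχ : ∀ r ∈ Ioo 0 π, χ r ^ 2 = a r + b r * sin r ^ 2
  eqφ : ∀ r ∈ Ioo 0 π, φ r ^ 2 = a r * sin r ^ 2
  eqψ : ∀ r ∈ Ioo 0 π, ψ r ^ 2 = c r

theorem chart_polar (N : Sph (q + 1))
    {e : OpenPartialHomeomorph (Sph (q + 1) × Sph p) (Euc (q + 1 + p))} (he : EmbChart emb e)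
    (y : Euc (q + 1 + p)) (hy : ⟪N.1, (e.symm y).1.1⟫ ∈ Ioo (-1 : ℝ) 1) :
    ∃ r ∈ Ioo 0 π, ∃ L : (ℝ × Euc q × Euc p) →L[ℝ] Euc (q + 1 + p),
      ∀ a b c χ φ ψ, Slice a b c χ φ ψ → RiemOn (Gc (ambB a b c N.1) emb e) univ →
        Function.Bijective L ∧
        (∀ u v, Gc (ambB a b c N.1) emb e y (L u) (L v) =
          χ r ^ 2 * (u.1 * v.1) + φ r ^ 2 * ⟪u.2.1, v.2.1⟫ + ψ r ^ 2 * ⟪u.2.2, v.2.2⟫) ∧
        ∀ u v, ricA (Gc (ambB a b c N.1) emb e) y (L u) (L v) =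
          rho0 p q χ φ ψ r * (χ r ^ 2 * (u.1 * v.1)) +
          rho1 p q χ φ ψ r * (φ r ^ 2 * ⟪u.2.1, v.2.1⟫) +
          rho2 p q χ φ ψ r * (ψ r ^ 2 * ⟪u.2.2, v.2.2⟫) := by
  obtain ⟨Ψ, c1, c2, c3, c4⟩ := exists_polar N (e.symm y) hy
  set r := arccos ⟪N.1, (e.symm y).1.1⟫
  have hr : r ∈ Ioo 0 π := ⟨arccos_pos.2 hy.2, arccos_lt_pi.2 hy.1⟩
  have hyt : y ∈ e.target := by rw [he.target]; trivial
  let U : Set (ℝ × Euc q × Euc p) := (Ioo 0 π ×ˢ univ) ∩ Ψ ⁻¹' e.source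
  have hU : IsOpen U := (isOpen_Ioo.prod isOpen_univ).inter (e.open_source.preimage c1)
  have hz : ((r, 0, 0) : ℝ × Euc q × Euc p) ∈ U :=
    ⟨⟨hr, trivial⟩, by rw [mem_preimage, c3]; exact e.map_target hyt⟩
  have hτ := he.comp (U := U) c2.contDiffOn fun z hz => hz.2
  have hτz : (e ∘ Ψ) (r, 0, 0) = y := by rw [Function.comp_apply, c3, e.right_inv hyt]
  refine ⟨r, hr, fderiv ℝ (e ∘ Ψ) (r, 0, 0), fun a b c χ φ ψ hS hG => ?_⟩
  have hG' := (riemOn_polG (V := Euc q) (W := Euc p) isOpen_Ioo hS.smχ hS.smφ hS.smψ hS.neχ hS.neφ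
    hS.neψ).mono hU inter_subset_left
  have hpull : ∀ z ∈ U, ∀ u v, polG χ φ ψ z u v = Gc (ambB a b c N.1) emb e ((e ∘ Ψ) z)
      (fderiv ℝ (e ∘ Ψ) z u) (fderiv ℝ (e ∘ Ψ) z v) := by
    intro z hz u v
    have k := he.chain hU c2.contDiffOn (fun z hz => hz.2) hz
    rw [Gc_apply, Function.comp_apply, k, k, e.left_inv hz.2, c4 z hz.1.1, polG_apply,
      hS.eqχ _ hz.1.1, hS.eqφ _ hz.1.1, hS.eqψ _ hz.1.1]
  have hdim : finrank ℝ (ℝ × Euc q × Euc p) = finrank ℝ (Euc (q + 1 + p)) := by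
    simp only [finrank_prod, finrank_self, finrank_euclideanSpace_fin]
    ring
  refine ⟨pull_surj hG' hpull hdim hz, fun u v => ?_, fun u v => ?_⟩
  · rw [← hτz, ← hpull _ hz, polG_apply]
    simp [lam_zero]
  · rw [← hτz, ← pull_ricA hG hG' hτ (fun _ _ => trivial) hpull hdim hz,
      ricA_polG isOpen_Ioo hS.smχ hS.smφ hS.smψ hS.neχ hS.neφ hS.neψ hr]
    simp only [finrank_euclideanSpace_fin]

end Vale.Agent.P244Z.Geo
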