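import Vale.Agent.P244Z.GeoDefs
import Vale.Agent.P244Z.GeoAbs
import Mathlib.Topology.Instances.Matrix
import Mathlib.LinearAlgebra.Matrix.ToLinearEquiv

/-!
The coordinate formulas for the Ricci and scalar curvature agree with the invariant ones.
-/

open scoped ContDiff Topology
open Set Filter

set_option maxSynthPendingDepth 3

namespace Vale.Agent.P244Z.Geo

variable {n : ℕ}

/-- The coordinate vectors. -/
noncomputable abbrev ev (i : Fin n) : Euc n := EuclideanSpace.single i 1

theorem sum_ev (v : Euc n) : ∑ i, v i • ev i = v := by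
  simpa using (EuclideanSpace.basisFun (Fin n) ℝ).sum_repr v

theorem map_eq_sum {F : Type} [NormedAddCommGroup F] [NormedSpace ℝ F] (L : Euc n →L[ℝ] F)
    (v : Euc n) : L v = ∑ i, v i • L (ev i) := by
  conv_lhs => rw [← sum_ev v]
  simp only [map_sum, map_smul]

theorem bil_eq_sum (B : Bil (Euc n)) (u v : Euc n) :
    B u v = ∑ i, ∑ j, u i * v j * B (ev i) (ev j) := by
  rw [map_eq_sum B u, sum_apply]
  refine Finset.sum_congr rfl fun i _ => ?_
  rw [smul_apply, map_eq_sum (B (ev i)) v, smul_eq_mul, Finset.mul_sum]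
  refine Finset.sum_congr rfl fun j _ => ?_
  rw [smul_eq_mul, mul_assoc]

theorem trace_euc (f : Euc n →ₗ[ℝ] Euc n) : LinearMap.trace ℝ _ f = ∑ i, f (ev i) i := by
  rw [trace_eq_sum_repr (EuclideanSpace.basisFun (Fin n) ℝ).toBasis]
  simp

/-- The matrix of a field of bilinear forms. -/
noncomputable def mat (G : Euc n → Bil (Euc n)) (y : Euc n) : Matrix (Fin n) (Fin n) ℝ :=
  Matrix.of fun i j => G y (ev i) (ev j)

variable {G : Euc n → Bil (Euc n)}

theorem det_mat_ne {y : Euc n} (hpos : ∀ v, v ≠ 0 → 0 < G y v v) : (mat G y).det ≠ 0 := by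
  intro h
  obtain ⟨v, hv, h1⟩ := Matrix.exists_mulVec_eq_zero_iff.2 h
  have h2 := hpos (WithLp.toLp 2 v) (by simpa using hv)
  rw [bil_eq_sum] at h2
  have h3 : ∀ i, ∑ j, G y (ev i) (ev j) * v j = 0 := fun i => congrFun h1 i
  have h4 : ∀ i, ∑ j, v i * v j * G y (ev i) (ev j) = 0 := by
    intro i
    have : ∑ j, v i * v j * G y (ev i) (ev j) = v i * ∑ j, G y (ev i) (ev j) * v j := by
      rw [Finset.mul_sum]
      exact Finset.sum_congr rfl fun j _ => by ring
    rw [this, h3, mul_zero]
  simp [h4] at h2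

theorem inv_contract (hG : RiemOn G univ) (y a : Euc n) (k : Fin n) :
    ∑ l, (mat G y)⁻¹ k l * G y a (ev l) = a k := by
  have h1 : (mat G y)⁻¹ * mat G y = 1 :=
    Matrix.nonsing_inv_mul _ (isUnit_iff_ne_zero.2 (det_mat_ne (hG.pos y trivial)))
  have h2 : ∀ l, G y a (ev l) = ∑ m, a m * mat G y l m := by
    intro l
    rw [hG.symm y trivial, map_eq_sum]
    rfl
  simp only [h2, Finset.mul_sum]
  rw [Finset.sum_comm]
  have h3 : ∀ m, ∑ l, (mat G y)⁻¹ k l * (a m * mat G y l m) =
      a m * (1 : Matrix (Fin n) (Fin n) ℝ) k m := by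
    intro m
    rw [← h1, Matrix.mul_apply, Finset.mul_sum]
    exact Finset.sum_congr rfl fun l _ => by ring
  simp [h3, Matrix.one_apply]

theorem pd_eq {F : Type} [NormedAddCommGroup F] [NormedSpace ℝ F] {f : Euc n → F} {y : Euc n}
    (hf : DifferentiableAt ℝ f y) (L : F →L[ℝ] ℝ) (i : Fin n) :
    pd i (fun z => L (f z)) y = L (fderiv ℝ f y (ev i)) := by
  have h : HasFDerivAt (fun z => L (f z)) (L.comp (fderiv ℝ f y)) y :=
    L.hasFDerivAt.comp y hf.hasFDerivAt
  unfold pd
  rw [h.fderiv]
  rfl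

theorem christoffel_mat (hG : RiemOn G univ) (y : Euc n) (k i j : Fin n) :
    christoffel (mat G) y k i j = chr G y (ev i) (ev j) k := by
  have hd : DifferentiableAt ℝ G y := (hG.at trivial).differentiableAt (by simp)
  have h1 : ∀ a b c, pd a (fun z => mat G z b c) y = fderiv ℝ G y (ev a) (ev b) (ev c) :=
    fun a b c => pd_eq hd ((ContinuousLinearMap.apply ℝ ℝ (ev c)).comp
      (ContinuousLinearMap.apply ℝ (Euc n →L[ℝ] ℝ) (ev b))) a
  rw [← inv_contract hG y _ k]
  unfold christoffel
  rw [Finset.mul_sum]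
  refine Finset.sum_congr rfl fun l _ => ?_
  rw [chr_spec (hG.pos y trivial), h1, h1, h1]
  ring

theorem ricci_mat (hG : RiemOn G univ) (y : Euc n) (i j : Fin n) :
    ricci (mat G) y i j = ricA G y (ev i) (ev j) := by
  have hd : DifferentiableAt ℝ (chr G) y := (hG.chr_at trivial).differentiableAt (by simp)
  have h1 : ∀ a k b c, pd a (fun z => chr G z (ev b) (ev c) k) y =
      fderiv ℝ (chr G) y (ev a) (ev b) (ev c) k :=
    fun a k b c => pd_eq hd ((EuclideanSpace.proj k).comp
      ((ContinuousLinearMap.apply ℝ (Euc n) (ev c)).comp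
      (ContinuousLinearMap.apply ℝ (Euc n →L[ℝ] Euc n) (ev b)))) a
  unfold ricci ricA
  simp only [christoffel_mat hG, h1, trace_euc, curvL_apply]
  rw [← Finset.sum_add_distrib]
  refine Finset.sum_congr rfl fun k _ => ?_
  rw [map_eq_sum (chr G y (ev k)) (chr G y (ev i) (ev j)),
    map_eq_sum (chr G y (ev i)) (chr G y (ev k) (ev j)), Finset.sum_sub_distrib]
  simp only [PiLp.sub_apply, PiLp.add_apply, WithLp.ofLp_sum, Finset.sum_apply, PiLp.smul_apply,
    smul_eq_mul, mul_comm]
  ring

theorem scalar_mat (hG : RiemOn G univ) (y : Euc n) (S : Euc n →ₗ[ℝ] Euc n)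
    (h : ∀ a b, ricA G y a b = G y (S a) b) : scalar (mat G) y = LinearMap.trace ℝ _ S := by
  unfold scalar
  simp only [ricci_mat hG, h, inv_contract hG, trace_euc]

theorem continuous_scalar_mat (hG : RiemOn G univ) : Continuous (scalar (mat G)) := by
  have hc : Continuous G := continuousOn_univ.1 hG.smooth.continuousOn
  have h1 : Continuous (mat G) :=
    continuous_matrix fun i j => (hc.clm_apply continuous_const).clm_apply continuous_const
  have h2 : Continuous fun y => (mat G y)⁻¹ := by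
    rw [continuous_iff_continuousAt]
    intro y
    refine (continuousAt_matrix_inv _ ?_).comp h1.continuousAt
    rw [Ring.inverse_eq_inv']
    exact continuousAt_inv₀ (det_mat_ne (hG.pos y trivial))
  unfold scalar
  simp only [ricci_mat hG]
  refine continuous_finsetSum _ fun i _ => continuous_finsetSum _ fun j _ => ?_
  exact (h2.matrix_elem i j).mul
    (continuous_iff_continuousAt.2 fun y => hG.continuousAt_ricA trivial _ _)

end Vale.Agent.P244Z.Geo
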