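import Vale.Agent.P244Z.GeoBridge
import Mathlib.Geometry.Manifold.MFDeriv.FDeriv

/-!
Manifolds whose charts come from an embedding in a vector space, and metrics pulled back from the
ambient space.
-/

open scoped Manifold ContDiff Topology
open Set Filter

set_option maxSynthPendingDepth 3

namespace Vale.Agent.P244Z.Geo

variable {n : ℕ} {M : Type} [TopologicalSpace M]
  {A : Type} [NormedAddCommGroup A] [NormedSpace ℝ A]

/-- The chart `e` is onto, its inverse is smooth as a map to `A`, and it is the restriction of a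
smooth map on an open subset of `A`. -/
structure EmbChart (ι : M → A) (e : OpenPartialHomeomorph M (Euc n)) : Prop where
  target : e.target = univ
  smooth : ContDiff ℝ ∞ (ι ∘ e.symm)
  ext : ∃ (Q : A → Euc n) (O : Set A), IsOpen O ∧ ContDiffOn ℝ ∞ Q O ∧
    ∀ x ∈ e.source, ι x ∈ O ∧ Q (ι x) = e x

/-- The pull back of `B` in the chart `e`. -/
noncomputable def Gc (B : A → Bil A) (ι : M → A) (e : OpenPartialHomeomorph M (Euc n))
    (y : Euc n) : Bil (Euc n) :=
  (B (ι (e.symm y))).bilinearComp (fderiv ℝ (ι ∘ e.symm) y) (fderiv ℝ (ι ∘ e.symm) y)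

theorem Gc_apply (B : A → Bil A) (ι : M → A) (e : OpenPartialHomeomorph M (Euc n))
    (y u v : Euc n) : Gc B ι e y u v =
      B (ι (e.symm y)) (fderiv ℝ (ι ∘ e.symm) y u) (fderiv ℝ (ι ∘ e.symm) y v) := rfl

theorem IsInner.eq_sum {V : Type} [NormedAddCommGroup V] [NormedSpace ℝ V] {b : V → V → ℝ}
    (hb : IsInner b) (D : Euc n →L[ℝ] V) (ξ : Euc n) :
    b (D ξ) (D ξ) = ∑ i, ∑ j, ξ i * ξ j * b (D (ev i)) (D (ev j)) := by
  have h1 : ∀ u, b u (D ξ) = ∑ j, ξ j * b u (D (ev j)) := by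
    intro u
    have h2 := map_sum ((hb.lin u).mk' _) (fun j => ξ j • D (ev j)) Finset.univ
    simp only [map_smul, IsLinearMap.mk'_apply, smul_eq_mul] at h2
    rw [map_eq_sum D ξ, h2]
  rw [h1]
  refine Finset.sum_congr rfl fun i _ => ?_
  rw [hb.symm, h1, Finset.mul_sum]
  exact Finset.sum_congr rfl fun j _ => (mul_assoc _ _ _).symm

variable {ι : M → A}

theorem EmbChart.comp {e : OpenPartialHomeomorph M (Euc n)} (h : EmbChart ι e) {E : Type}
    [NormedAddCommGroup E] [NormedSpace ℝ E] {Ψ : E → M} {U : Set E}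
    (hΨ : ContDiffOn ℝ ∞ (ι ∘ Ψ) U) (hU : ∀ z ∈ U, Ψ z ∈ e.source) :
    ContDiffOn ℝ ∞ (e ∘ Ψ) U := by
  obtain ⟨Q, O, _, hQ, hx⟩ := h.ext
  exact (hQ.comp hΨ fun z hz => (hx _ (hU z hz)).1).congr fun z hz => (hx _ (hU z hz)).2.symm

theorem EmbChart.chain {e : OpenPartialHomeomorph M (Euc n)} (h : EmbChart ι e) {E : Type}
    [NormedAddCommGroup E] [NormedSpace ℝ E] {Ψ : E → M} {U : Set E} (hO : IsOpen U)
    (hΨ : ContDiffOn ℝ ∞ (ι ∘ Ψ) U) (hU : ∀ z ∈ U, Ψ z ∈ e.source) {z : E} (hz : z ∈ U) (u : E) :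
    fderiv ℝ (ι ∘ e.symm) (e (Ψ z)) (fderiv ℝ (e ∘ Ψ) z u) = fderiv ℝ (ι ∘ Ψ) z u := by
  have d1 : DifferentiableAt ℝ (e ∘ Ψ) z :=
    ((h.comp hΨ hU).contDiffAt (hO.mem_nhds hz)).differentiableAt (by simp)
  have d2 : DifferentiableAt ℝ (ι ∘ e.symm) ((e ∘ Ψ) z) :=
    h.smooth.differentiable (by simp) _
  have d3 : ι ∘ Ψ =ᶠ[𝓝 z] (ι ∘ e.symm) ∘ (e ∘ Ψ) := by
    filter_upwards [hO.mem_nhds hz] with w hw
    simp only [Function.comp_apply, e.left_inv (hU w hw)]
  rw [d3.fderiv_eq, fderiv_comp z d2 d1]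
  rfl

theorem EmbChart.inj {e : OpenPartialHomeomorph M (Euc n)} (h : EmbChart ι e) (y : Euc n)
    {u : Euc n} (hu : u ≠ 0) : fderiv ℝ (ι ∘ e.symm) y u ≠ 0 := by
  obtain ⟨Q, O, hO, hQ, hx⟩ := h.ext
  have hs : ∀ y, e.symm y ∈ e.source := fun y => e.map_target (by rw [h.target]; trivial)
  have d2 : DifferentiableAt ℝ (ι ∘ e.symm) y := h.smooth.differentiable (by simp) _
  have d1 : DifferentiableAt ℝ Q ((ι ∘ e.symm) y) :=
    (hQ.contDiffAt (hO.mem_nhds (hx _ (hs y)).1)).differentiableAt (by simp)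
  have d3 : Q ∘ (ι ∘ e.symm) = id := by
    funext w
    simp only [Function.comp_apply, (hx _ (hs w)).2, id]
    exact e.right_inv (by rw [h.target]; trivial)
  have d4 := fderiv_comp y d1 d2
  rw [d3, fderiv_id] at d4
  intro h0
  apply hu
  have : u = fderiv ℝ Q ((ι ∘ e.symm) y) (fderiv ℝ (ι ∘ e.symm) y u) :=
    congrArg (fun L : Euc n →L[ℝ] Euc n => L u) d4
  rw [this, h0, map_zero]

variable [ChartedSpace (Euc n) M]

theorem isManifold_of_emb (h : ∀ e ∈ atlas (Euc n) M, EmbChart ι e) : IsManifold (𝓡 n) ∞ M := by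
  refine isManifold_of_contDiffOn (𝓡 n) ∞ M fun e e' he he' => ?_
  simp only [modelWithCornersSelf_coe, modelWithCornersSelf_coe_symm, preimage_id_eq, id_eq,
    range_id, inter_univ, Function.id_comp, Function.comp_id]
  exact (h e' he').comp (Ψ := e.symm) (h e he).smooth.contDiffOn fun z hz => hz.2

theorem mdiff_emb [IsManifold (𝓡 n) ∞ M] (h : ∀ e ∈ atlas (Euc n) M, EmbChart ι e) (x : M) :
    MDifferentiableAt (𝓡 n) 𝓘(ℝ, A) ι x := by
  have he := chart_mem_atlas (Euc n) x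
  have hx := mem_chart_source (Euc n) x
  have d1 : MDifferentiableAt (𝓡 n) 𝓘(ℝ, A) (ι ∘ (chartAt (Euc n) x).symm)
      (chartAt (Euc n) x x) :=
    mdifferentiableAt_iff_differentiableAt.2 ((h _ he).smooth.differentiable (by simp) _)
  refine (d1.comp x (mdifferentiableAt_atlas (I := 𝓡 n) he hx)).congr_of_eventuallyEq ?_
  filter_upwards [(chartAt (Euc n) x).open_source.mem_nhds hx] with w hw
  simp only [Function.comp_apply, (chartAt (Euc n) x).left_inv hw]

/-- The differential of the embedding. -/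
noncomputable def dι (n : ℕ) [ChartedSpace (Euc n) M] (ι : M → A) (x : M) : Euc n →L[ℝ] A :=
  mfderiv (𝓡 n) 𝓘(ℝ, A) ι x

/-- The pull back of `B` to `M`. -/
noncomputable def pullT (n : ℕ) [ChartedSpace (Euc n) M] (B : A → Bil A) (ι : M → A) :
    Tensor n M := fun x u v => B (ι x) (dι n ι x u) (dι n ι x v)

/-- The differential of the inverse of a chart. -/
noncomputable def dsymm (e : OpenPartialHomeomorph M (Euc n)) (y : Euc n) : Euc n →L[ℝ] Euc n :=
  mfderiv (𝓡 n) (𝓡 n) e.symm y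

theorem pullT_chart [IsManifold (𝓡 n) ∞ M] (h : ∀ e ∈ atlas (Euc n) M, EmbChart ι e)
    (B : A → Bil A) {e : OpenPartialHomeomorph M (Euc n)} (he : e ∈ atlas (Euc n) M)
    (y u v : Euc n) : pullT n B ι (e.symm y) (dsymm e y u) (dsymm e y v) = Gc B ι e y u v := by
  have h1 := mfderiv_comp y (mdiff_emb h (e.symm y)) (mdifferentiableAt_atlas_symm (I := 𝓡 n) he
    (by rw [(h e he).target]; trivial : y ∈ e.target))
  rw [mfderiv_eq_fderiv] at h1
  have h2 : ∀ u, fderiv ℝ (ι ∘ e.symm) y u = dι n ι (e.symm y) (dsymm e y u) := fun u =>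
    congrArg (fun L : Euc n →L[ℝ] A => L u) h1
  rw [Gc_apply, h2, h2]
  rfl

theorem inChart_pullT [IsManifold (𝓡 n) ∞ M] (h : ∀ e ∈ atlas (Euc n) M, EmbChart ι e)
    (B : A → Bil A) {e : OpenPartialHomeomorph M (Euc n)} (he : e ∈ atlas (Euc n) M) :
    inChart (pullT n B ι) e = mat (Gc B ι e) := by
  funext y
  ext i j
  exact pullT_chart h B he y (ev i) (ev j)

theorem counter_of_charts [T2Space M] [CompactSpace M] [ConnectedSpace M]
    (h : ∀ e ∈ atlas (Euc n) M, EmbChart ι e) (B : ℝ → A → Bil A) {T : ℝ} (hT : 0 < T)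
    (h1 : ∀ e ∈ atlas (Euc n) M, ∀ t ∈ Ico 0 T, RiemOn (Gc (B t) ι e) univ)
    (h2 : ∀ e ∈ atlas (Euc n) M, ∀ u v,
      ContDiffOn ℝ ∞ (fun z : ℝ × Euc n => Gc (B z.1) ι e z.2 u v) (Ico 0 T ×ˢ univ))
    (h3 : ∀ e ∈ atlas (Euc n) M, ∀ t ∈ Ico 0 T, ∀ y u v,
      HasDerivAt (fun s => Gc (B s) ι e y u v) (-2 * ricA (Gc (B t) ι e) y u v) t)
    (h4 : ∃ C, ∀ e ∈ atlas (Euc n) M, ∀ t ∈ Ico 0 T, ∀ y, |scalar (mat (Gc (B t) ι e)) y| ≤ C)
    (h5 : ∃ e ∈ atlas (Euc n) M, ∃ y ξ, ξ ≠ 0 ∧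
      ∀ ε > 0, ∃ᶠ t in 𝓝[<] T, Gc (B t) ι e y ξ ξ < ε) : Counterexample n := by
  have hM := isManifold_of_emb h
  have hpt : ∀ x : M, ∃ e ∈ atlas (Euc n) M, ∃ y, x = e.symm y ∧
      Function.Surjective (dsymm e y) := by
    intro x
    have he := chart_mem_atlas (Euc n) x
    have hx := mem_chart_source (Euc n) x
    exact ⟨_, he, chartAt (Euc n) x x, ((chartAt (Euc n) x).left_inv hx).symm,
      (mdifferentiable_of_mem_atlas (I := 𝓡 n) he).symm.mfderiv_surjective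
        ((chartAt (Euc n) x).map_source hx)⟩
  refine ⟨M, inferInstance, inferInstance, inferInstance, inferInstance, inferInstance, hM, T,
    fun t => pullT n (B t) ι, hT, ⟨fun t ht x => ⟨fun u => ?_, ?_, ?_⟩, ?_, ?_⟩, ?_, ?_⟩
  · exact ((B t (ι x) (dι n ι x u)).comp (dι n ι x)).toLinearMap.isLinear
  · intro u v
    obtain ⟨e, he, y, rfl, hs⟩ := hpt x
    obtain ⟨a, rfl⟩ := hs u
    obtain ⟨b, rfl⟩ := hs v
    rw [pullT_chart h _ he, pullT_chart h _ he]
    exact (h1 e he t ht).symm y trivial a b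
  · intro v hv
    obtain ⟨e, he, y, rfl, hs⟩ := hpt x
    obtain ⟨a, rfl⟩ := hs v
    rw [pullT_chart h _ he]
    refine (h1 e he t ht).pos y trivial a ?_
    rintro rfl
    exact hv (map_zero _)
  · intro e he i j
    simp only [inChart_pullT h _ he, (h e he).target]
    exact h2 e he _ _
  · intro e he t ht y _ i j
    simp only [inChart_pullT h _ he, ricci_mat (h1 e he t ht)]
    exact (h3 e he t ht y _ _).hasDerivWithinAt
  · obtain ⟨C, hC⟩ := h4
    refine ⟨C, fun t ht x => ?_⟩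
    have he := chart_mem_atlas (Euc n) x
    rw [scalarCurv, inChart_pullT h _ he]
    exact hC _ he t ht _
  · rintro ⟨ε, hε, g, hg, hgg⟩
    obtain ⟨e, he, y, ξ, hξ, hfr⟩ := h5
    have hy : y ∈ e.target := by rw [(h e he).target]; trivial
    have hTm : T ∈ Ico 0 (T + ε) := ⟨hT.le, by linarith⟩
    have k1 : ∀ t ∈ Ico 0 (T + ε), g t (e.symm y) (dsymm e y ξ) (dsymm e y ξ) =
        ∑ i, ∑ j, ξ i * ξ j * inChart (g t) e y i j := fun t ht =>
      IsInner.eq_sum (V := Euc n) (hg.metric t ht (e.symm y)) (dsymm e y) ξ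
    have k2 : ContinuousAt (fun t => g t (e.symm y) (dsymm e y ξ) (dsymm e y ξ)) T := by
      have hn : Ico 0 (T + ε) ∈ 𝓝 T := Ico_mem_nhds hT (by linarith)
      refine ContinuousAt.congr (f := fun t => ∑ i, ∑ j, ξ i * ξ j * inChart (g t) e y i j) ?_
        (Eventually.mono hn fun t ht => (k1 t ht).symm)
      refine tendsto_finsetSum _ fun i _ => tendsto_finsetSum _ fun j _ => Tendsto.const_mul _ ?_
      exact (hg.flow e he T hTm y hy i j).continuousWithinAt.continuousAt hn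
    have k3 : 0 < g T (e.symm y) (dsymm e y ξ) (dsymm e y ξ) := by
      refine (hg.metric T hTm _).pos _ fun h0 => hξ ?_
      refine (mdifferentiable_of_mem_atlas (I := 𝓡 n) he).symm.mfderiv_injective hy ?_
      exact h0.trans (map_zero _).symm
    have k4 := (k2.eventually (lt_mem_nhds (half_lt_self k3))).filter_mono
      (nhdsWithin_le_nhds (s := Iio T))
    obtain ⟨t, t1, t2, t3⟩ := ((hfr _ (half_pos k3)).and_eventually
      (k4.and (Ico_mem_nhdsLT hT))).exists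
    rw [hgg t t3] at t2
    exact lt_asymm t1 (t2.trans_eq (pullT_chart h _ he y ξ ξ))

end Vale.Agent.P244Z.Geo
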