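import Vale.Agent.P244Z.GeoAbs
import Mathlib.Analysis.InnerProductSpace.Calculus
import Mathlib.Analysis.Calculus.Deriv.Inv
import Mathlib.Analysis.Calculus.Deriv.Pow
import Mathlib.Analysis.Calculus.Deriv.Prod
import Mathlib.Analysis.Calculus.ContDiff.Deriv

/-!
The Ricci curvature of a doubly warped product in polar coordinates.
-/

open scoped ContDiff Topology RealInnerProductSpace
open Set Filter Module

set_option maxSynthPendingDepth 3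

namespace Vale.Agent.P244Z.Geo

section Trace

variable {M N : Type} [NormedAddCommGroup M] [NormedSpace ℝ M] [FiniteDimensional ℝ M]
  [NormedAddCommGroup N] [NormedSpace ℝ N] [FiniteDimensional ℝ N]

theorem trace_prod (f : M × N →ₗ[ℝ] M × N) : LinearMap.trace ℝ _ f =
    LinearMap.trace ℝ M (LinearMap.fst ℝ M N ∘ₗ f ∘ₗ LinearMap.inl ℝ M N) +
    LinearMap.trace ℝ N (LinearMap.snd ℝ M N ∘ₗ f ∘ₗ LinearMap.inr ℝ M N) := by
  rw [trace_eq_sum_repr ((finBasis ℝ M).prod (finBasis ℝ N)), trace_eq_sum_repr (finBasis ℝ M),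
    trace_eq_sum_repr (finBasis ℝ N), Fintype.sum_sum_type]
  simp [Module.Basis.prod_apply]

theorem trace_real (f : ℝ →ₗ[ℝ] ℝ) : LinearMap.trace ℝ ℝ f = f 1 := by
  rw [trace_eq_sum_repr (Module.Basis.singleton Unit ℝ)]
  simp

end Trace

variable {V W : Type} [NormedAddCommGroup V] [InnerProductSpace ℝ V]
  [NormedAddCommGroup W] [InnerProductSpace ℝ W]

theorem trace_block [FiniteDimensional ℝ V] (f : V →ₗ[ℝ] V) (k m : ℝ) (v w : V)
    (h : ∀ u, f u = k • u + (m * ⟪w, u⟫) • v) :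
    LinearMap.trace ℝ V f = k * finrank ℝ V + m * ⟪v, w⟫ := by
  have h1 : f = k • LinearMap.id + m • ((innerSL ℝ w : V →L[ℝ] ℝ) : V →ₗ[ℝ] ℝ).smulRight v := by
    ext u
    simp [h, mul_smul]
  rw [h1, map_add, map_smul, map_smul, LinearMap.trace_id, LinearMap.trace_smulRight]
  simp [real_inner_comm]

/-- The conformal factor of stereographic coordinates. -/
noncomputable def lam (θ : V) : ℝ := 4 / (4 + ‖θ‖ ^ 2)

omit [InnerProductSpace ℝ V] in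
theorem lam_pos (θ : V) : 0 < lam θ := by unfold lam; positivity

omit [InnerProductSpace ℝ V] in
theorem lam_zero : lam (0 : V) = 1 := by simp [lam]

theorem contDiff_lam : ContDiff ℝ ∞ (lam : V → ℝ) :=
  contDiff_const.div (contDiff_const.add (contDiff_norm_sq ℝ)) fun θ => by positivity

theorem hasFDerivAt_lam (θ : V) :
    HasFDerivAt (lam : V → ℝ) ((-(lam θ ^ 2 / 2)) • innerSL ℝ θ) θ := by
  have h1 : HasFDerivAt (fun θ : V => 4 + ‖θ‖ ^ 2) (2 • innerSL ℝ θ) θ :=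
    (hasStrictFDerivAt_norm_sq θ).hasFDerivAt.const_add 4
  have h0 : (4 + ‖θ‖ ^ 2) ≠ 0 := by positivity
  have h2 := ((hasDerivAt_inv h0).const_mul 4).comp_hasFDerivAt θ h1
  refine HasFDerivAt.congr_fderiv h2 ?_
  ext x
  simp only [lam, smul_apply, smul_eq_mul, nsmul_eq_mul]
  field_simp
  ring

theorem hasDerivAt_lam_line (θ x : V) :
    HasDerivAt (fun t : ℝ => lam (θ + t • x)) (-(lam θ ^ 2 / 2) * ⟪θ, x⟫) 0 := by
  have := hasDerivAt_line (hasFDerivAt_lam θ).differentiableAt x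
  rwa [(hasFDerivAt_lam θ).fderiv] at this

theorem hasDerivAt_aff {f : ℝ → ℝ} {f' r : ℝ} (h : HasDerivAt f f' r) (x : ℝ) :
    HasDerivAt (fun t : ℝ => f (r + t • x)) (f' * x) 0 := by
  have := hasDerivAt_line h.differentiableAt x
  rw [h.hasFDerivAt.fderiv] at this
  simpa [mul_comm] using this

/-- The inner product as a bilinear form. -/
noncomputable def ipB (V : Type) [NormedAddCommGroup V] [InnerProductSpace ℝ V] : Bil V :=
  innerSL ℝ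

theorem ipB_apply (u v : V) : ipB V u v = ⟪u, v⟫ := rfl

/-- The doubly warped product metric in polar coordinates. -/
noncomputable def polG (a b c : ℝ → ℝ) (z : ℝ × V × W) : Bil (ℝ × V × W) :=
  (a z.1 ^ 2) • (ContinuousLinearMap.mul ℝ ℝ).bilinearComp (ContinuousLinearMap.fst ℝ ℝ (V × W))
      (ContinuousLinearMap.fst ℝ ℝ (V × W)) +
    (b z.1 ^ 2 * lam z.2.1 ^ 2) • (ipB V).bilinearComp
      ((ContinuousLinearMap.fst ℝ V W).comp (ContinuousLinearMap.snd ℝ ℝ (V × W)))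
      ((ContinuousLinearMap.fst ℝ V W).comp (ContinuousLinearMap.snd ℝ ℝ (V × W))) +
    (c z.1 ^ 2 * lam z.2.2 ^ 2) • (ipB W).bilinearComp
      ((ContinuousLinearMap.snd ℝ V W).comp (ContinuousLinearMap.snd ℝ ℝ (V × W)))
      ((ContinuousLinearMap.snd ℝ V W).comp (ContinuousLinearMap.snd ℝ ℝ (V × W)))

theorem polG_apply (a b c : ℝ → ℝ) (z u v : ℝ × V × W) : polG a b c z u v =
    a z.1 ^ 2 * (u.1 * v.1) + b z.1 ^ 2 * lam z.2.1 ^ 2 * ⟪u.2.1, v.2.1⟫ +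
      c z.1 ^ 2 * lam z.2.2 ^ 2 * ⟪u.2.2, v.2.2⟫ := rfl

variable {a b c : ℝ → ℝ} {J : Set ℝ}

theorem riemOn_polG (hJ : IsOpen J) (ha : ContDiffOn ℝ ∞ a J) (hb : ContDiffOn ℝ ∞ b J)
    (hc : ContDiffOn ℝ ∞ c J) (ha0 : ∀ r ∈ J, a r ≠ 0) (hb0 : ∀ r ∈ J, b r ≠ 0)
    (hc0 : ∀ r ∈ J, c r ≠ 0) : RiemOn (polG (V := V) (W := W) a b c) (J ×ˢ univ) := by
  have hf : ∀ f : ℝ → ℝ, ContDiffOn ℝ ∞ f J →
      ContDiffOn ℝ ∞ (fun z : ℝ × V × W => f z.1 ^ 2) (J ×ˢ univ) := fun f hf =>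
    (hf.comp contDiff_fst.contDiffOn fun z hz => hz.1).pow 2
  have h1 : ContDiff ℝ ∞ fun z : ℝ × V × W => lam z.2.1 ^ 2 :=
    (contDiff_lam.comp contDiff_snd.fst).pow 2
  have h2 : ContDiff ℝ ∞ fun z : ℝ × V × W => lam z.2.2 ^ 2 :=
    (contDiff_lam.comp contDiff_snd.snd).pow 2
  refine ⟨hJ.prod isOpen_univ, ?_, ?_, ?_⟩
  · exact (((hf a ha).smul contDiffOn_const).add
      (((hf b hb).mul h1.contDiffOn).smul contDiffOn_const)).add
      (((hf c hc).mul h2.contDiffOn).smul contDiffOn_const)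
  · intro z _ u v
    rw [polG_apply, polG_apply, real_inner_comm u.2.1, real_inner_comm u.2.2, mul_comm u.1]
  · rintro z hz ⟨v0, v1, v2⟩ hv
    rw [polG_apply, real_inner_self_eq_norm_sq, real_inner_self_eq_norm_sq, ← sq]
    have p1 := ha0 _ hz.1
    have p2 := hb0 _ hz.1
    have p3 := hc0 _ hz.1
    have p4 := lam_pos z.2.1
    have p5 := lam_pos z.2.2
    dsimp only
    by_cases q0 : v0 = 0
    · by_cases q1 : v1 = 0
      · have q2 : v2 ≠ 0 := by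
          rintro rfl
          exact hv (by rw [q0, q1]; rfl)
        positivity
      · positivity
    · positivity

theorem fderiv_polG {z : ℝ × V × W} (hG : DifferentiableAt ℝ (polG a b c) z) {a' b' c' : ℝ}
    (ha : HasDerivAt a a' z.1) (hb : HasDerivAt b b' z.1) (hc : HasDerivAt c c' z.1)
    (x u v : ℝ × V × W) : fderiv ℝ (polG a b c) z x u v =
      2 * a z.1 * a' * x.1 * (u.1 * v.1) +
      (2 * b z.1 * b' * x.1 * lam z.2.1 ^ 2 - b z.1 ^ 2 * lam z.2.1 ^ 3 * ⟪z.2.1, x.2.1⟫) *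
        ⟪u.2.1, v.2.1⟫ +
      (2 * c z.1 * c' * x.1 * lam z.2.2 ^ 2 - c z.1 ^ 2 * lam z.2.2 ^ 3 * ⟪z.2.2, x.2.2⟫) *
        ⟪u.2.2, v.2.2⟫ := by
  have h1 : HasDerivAt (fun t : ℝ => polG a b c (z + t • x) u v)
      (fderiv ℝ (polG a b c) z x u v) 0 := by
    have := ((hasDerivAt_line hG x).clm_apply
      (hasDerivAt_const (0 : ℝ) u)).clm_apply (hasDerivAt_const (0 : ℝ) v)
    simpa using this
  have h2 := ((((hasDerivAt_aff ha x.1).pow 2).mul_const (u.1 * v.1)).add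
    ((((hasDerivAt_aff hb x.1).pow 2).mul ((hasDerivAt_lam_line z.2.1 x.2.1).pow 2)).mul_const
      ⟪u.2.1, v.2.1⟫)).add
    ((((hasDerivAt_aff hc x.1).pow 2).mul ((hasDerivAt_lam_line z.2.2 x.2.2).pow 2)).mul_const
      ⟪u.2.2, v.2.2⟫)
  rw [h1.unique h2]
  simp only [zero_smul, add_zero, Pi.pow_apply]
  norm_num
  ring

/-- The Christoffel map of the round metric in stereographic coordinates, up to sign. -/
noncomputable def sph (θ u v : V) : V :=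
  (lam θ / 2) • (⟪θ, u⟫ • v + ⟪θ, v⟫ • u - ⟪u, v⟫ • θ)

theorem sph_zero (u v : V) : sph 0 u v = 0 := by simp [sph]

theorem hasDerivAt_sph (x u v : V) : HasDerivAt (fun t : ℝ => sph (0 + t • x) u v)
    ((1 / 2 : ℝ) • (⟪x, u⟫ • v + ⟪x, v⟫ • u - ⟪u, v⟫ • x)) 0 := by
  have h1 : (fun t : ℝ => sph (0 + t • x) u v) = fun t : ℝ =>
      (lam (0 + t • x) / 2 * t) • (⟪x, u⟫ • v + ⟪x, v⟫ • u - ⟪u, v⟫ • x) := by
    funext t
    simp only [sph, zero_add, real_inner_smul_left]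
    module
  rw [h1]
  have h2 := (((hasDerivAt_lam_line (0 : V) x).div_const 2).mul (hasDerivAt_id 0)).smul_const
    (⟪x, u⟫ • v + ⟪x, v⟫ • u - ⟪u, v⟫ • x)
  refine HasDerivAt.congr_deriv h2 ?_
  rw [zero_smul, add_zero, lam_zero]
  simp

/-- The Christoffel map of a doubly warped product. -/
noncomputable def gam (A B C β γ : ℝ → ℝ) (z u v : ℝ × V × W) : ℝ × V × W :=
  (A z.1 * (u.1 * v.1) - B z.1 * lam z.2.1 ^ 2 * ⟪u.2.1, v.2.1⟫ -
      C z.1 * lam z.2.2 ^ 2 * ⟪u.2.2, v.2.2⟫,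
    β z.1 • (u.1 • v.2.1 + v.1 • u.2.1) - sph z.2.1 u.2.1 v.2.1,
    γ z.1 • (u.1 • v.2.2 + v.1 • u.2.2) - sph z.2.2 u.2.2 v.2.2)

variable [FiniteDimensional ℝ V] [FiniteDimensional ℝ W]

theorem chr_polG {z : ℝ × V × W} {U : Set (ℝ × V × W)} (hG : RiemOn (polG a b c) U) (hz : z ∈ U)
    (ha : DifferentiableAt ℝ a z.1) (hb : DifferentiableAt ℝ b z.1)
    (hc : DifferentiableAt ℝ c z.1) (ha0 : a z.1 ≠ 0) (hb0 : b z.1 ≠ 0) (hc0 : c z.1 ≠ 0)
    (u v : ℝ × V × W) :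
    chr (polG a b c) z u v = gam (fun r => deriv a r / a r) (fun r => b r * deriv b r / a r ^ 2)
      (fun r => c r * deriv c r / a r ^ 2) (fun r => deriv b r / b r) (fun r => deriv c r / c r)
      z u v := by
  refine chr_unique (hG.pos z hz) fun w => ?_
  have hd := fderiv_polG ((hG.at hz).differentiableAt (by simp)) ha.hasDerivAt hb.hasDerivAt
    hc.hasDerivAt
  rw [hd, hd, hd, polG_apply]
  simp only [gam, sph, inner_sub_left, inner_add_left, real_inner_smul_left]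
  field_simp
  ring

theorem trace_gam {Γ : ℝ × V × W → (ℝ × V × W) →L[ℝ] (ℝ × V × W) →L[ℝ] ℝ × V × W}
    {A B C β γ : ℝ → ℝ} {r A' B' C' β' γ' : ℝ} (hΓ : DifferentiableAt ℝ Γ (r, 0, 0))
    (he : ∀ᶠ z in 𝓝 ((r, 0, 0) : ℝ × V × W), ∀ u v, Γ z u v = gam A B C β γ z u v)
    (hA : HasDerivAt A A' r) (hB : HasDerivAt B B' r) (hC : HasDerivAt C C' r)
    (hβ : HasDerivAt β β' r) (hγ : HasDerivAt γ γ' r) (v w : ℝ × V × W) :
    LinearMap.trace ℝ _ (curvL Γ (r, 0, 0) v w) =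
      (finrank ℝ V * (-β' + β r * A r - β r ^ 2) + finrank ℝ W * (-γ' + γ r * A r - γ r ^ 2)) *
        (v.1 * w.1) +
      ((finrank ℝ V - 1) * (1 - β r * B r) - finrank ℝ W * γ r * B r - B' - A r * B r +
        β r * B r) * ⟪v.2.1, w.2.1⟫ +
      ((finrank ℝ W - 1) * (1 - γ r * C r) - finrank ℝ V * β r * C r - C' - A r * C r +
        γ r * C r) * ⟪v.2.2, w.2.2⟫ := by
  have h0 : ∀ u v, Γ (r, 0, 0) u v =
      (A r * (u.1 * v.1) - B r * ⟪u.2.1, v.2.1⟫ - C r * ⟪u.2.2, v.2.2⟫,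
        β r • (u.1 • v.2.1 + v.1 • u.2.1), γ r • (u.1 • v.2.2 + v.1 • u.2.2)) := by
    intro u v
    rw [he.self_of_nhds]
    simp [gam, lam_zero, sph_zero]
  have h1 : ∀ x u v, fderiv ℝ Γ (r, 0, 0) x u v =
      (x.1 * (A' * (u.1 * v.1) - B' * ⟪u.2.1, v.2.1⟫ - C' * ⟪u.2.2, v.2.2⟫),
        (β' * x.1) • (u.1 • v.2.1 + v.1 • u.2.1) - (1 / 2 : ℝ) •
          (⟪x.2.1, u.2.1⟫ • v.2.1 + ⟪x.2.1, v.2.1⟫ • u.2.1 - ⟪u.2.1, v.2.1⟫ • x.2.1),
        (γ' * x.1) • (u.1 • v.2.2 + v.1 • u.2.2) - (1 / 2 : ℝ) •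
          (⟪x.2.2, u.2.2⟫ • v.2.2 + ⟪x.2.2, v.2.2⟫ • u.2.2 - ⟪u.2.2, v.2.2⟫ • x.2.2)) := by
    intro x u v
    have k1 : HasDerivAt (fun t : ℝ => Γ ((r, 0, 0) + t • x) u v)
        (fderiv ℝ Γ (r, 0, 0) x u v) 0 := by
      have := ((hasDerivAt_line hΓ x).clm_apply
        (hasDerivAt_const (0 : ℝ) u)).clm_apply (hasDerivAt_const (0 : ℝ) v)
      simpa using this
    have k2 := (((hasDerivAt_aff hA x.1).mul_const (u.1 * v.1)).sub
      (((hasDerivAt_aff hB x.1).mul ((hasDerivAt_lam_line 0 x.2.1).pow 2)).mul_const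
        ⟪u.2.1, v.2.1⟫)).sub
      (((hasDerivAt_aff hC x.1).mul ((hasDerivAt_lam_line 0 x.2.2).pow 2)).mul_const
        ⟪u.2.2, v.2.2⟫)
    have k3 := ((hasDerivAt_aff hβ x.1).smul_const (u.1 • v.2.1 + v.1 • u.2.1)).sub
      (hasDerivAt_sph x.2.1 u.2.1 v.2.1)
    have k4 := ((hasDerivAt_aff hγ x.1).smul_const (u.1 • v.2.2 + v.1 • u.2.2)).sub
      (hasDerivAt_sph x.2.2 u.2.2 v.2.2)
    have k5 := k2.prodMk (k3.prodMk k4)
    have k6 : (fun t : ℝ => Γ ((r, 0, 0) + t • x) u v) =ᶠ[𝓝 0]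
        fun t : ℝ => gam A B C β γ ((r, 0, 0) + t • x) u v := by
      filter_upwards [(tendsto_line _ x).eventually he] with t ht
      exact ht u v
    rw [k1.unique (HasDerivAt.congr_of_eventuallyEq k5 k6)]
    refine Prod.ext ?_ rfl
    simp [lam_zero]
    ring
  rw [trace_prod, trace_prod, trace_real,
    trace_block _ (⟪v.2.1, w.2.1⟫ * (1 - β r * B r) + v.1 * w.1 * (-β' + β r * A r - β r ^ 2)
      - β r * C r * ⟪v.2.2, w.2.2⟫) (β r * B r - 1) v.2.1 w.2.1,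
    trace_block _ (⟪v.2.2, w.2.2⟫ * (1 - γ r * C r) + v.1 * w.1 * (-γ' + γ r * A r - γ r ^ 2)
      - γ r * B r * ⟪v.2.1, w.2.1⟫) (γ r * C r - 1) v.2.2 w.2.2]
  · simp [curvL_apply, h0, h1, real_inner_smul_right]
    ring
  · intro u
    simp [curvL_apply, h0, h1, real_inner_comm u]
    module
  · intro u
    simp [curvL_apply, h0, h1, real_inner_comm u]
    module

/-- The arclength derivative. -/
noncomputable def ds (χ f : ℝ → ℝ) (r : ℝ) : ℝ := deriv f r / χ r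

/-- Ricci curvature of `χ² dr² + φ² g_{S^q} + ψ² g_{S^p}` in the radial direction. -/
noncomputable def rho0 (p q : ℕ) (χ φ ψ : ℝ → ℝ) (r : ℝ) : ℝ :=
  -(q * ds χ (ds χ φ) r / φ r) - p * ds χ (ds χ ψ) r / ψ r

/-- Ricci curvature in the directions of `S^q`. -/
noncomputable def rho1 (p q : ℕ) (χ φ ψ : ℝ → ℝ) (r : ℝ) : ℝ :=
  -(ds χ (ds χ φ) r / φ r) + (q - 1) * (1 - ds χ φ r ^ 2) / φ r ^ 2 -
    p * (ds χ φ r * ds χ ψ r) / (φ r * ψ r)

/-- Ricci curvature in the directions of `S^p`. -/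
noncomputable def rho2 (p q : ℕ) (χ φ ψ : ℝ → ℝ) (r : ℝ) : ℝ :=
  -(ds χ (ds χ ψ) r / ψ r) + (p - 1) * (1 - ds χ ψ r ^ 2) / ψ r ^ 2 -
    q * (ds χ φ r * ds χ ψ r) / (φ r * ψ r)

theorem ricA_polG (hJ : IsOpen J) (ha : ContDiffOn ℝ ∞ a J) (hb : ContDiffOn ℝ ∞ b J)
    (hc : ContDiffOn ℝ ∞ c J) (ha0 : ∀ r ∈ J, a r ≠ 0) (hb0 : ∀ r ∈ J, b r ≠ 0)
    (hc0 : ∀ r ∈ J, c r ≠ 0) {r : ℝ} (hr : r ∈ J) (v w : ℝ × V × W) :
    ricA (polG a b c) (r, 0, 0) v w =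
      rho0 (finrank ℝ W) (finrank ℝ V) a b c r * (a r ^ 2 * (v.1 * w.1)) +
      rho1 (finrank ℝ W) (finrank ℝ V) a b c r * (b r ^ 2 * ⟪v.2.1, w.2.1⟫) +
      rho2 (finrank ℝ W) (finrank ℝ V) a b c r * (c r ^ 2 * ⟪v.2.2, w.2.2⟫) := by
  have hG := riemOn_polG (V := V) (W := W) hJ ha hb hc ha0 hb0 hc0
  have hz : ((r, 0, 0) : ℝ × V × W) ∈ J ×ˢ univ := ⟨hr, trivial⟩
  have d1 : ∀ f : ℝ → ℝ, ContDiffOn ℝ ∞ f J → ∀ r ∈ J, DifferentiableAt ℝ f r :=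
    fun f hf r hr => (hf.contDiffAt (hJ.mem_nhds hr)).differentiableAt (by simp)
  have d2 : ∀ f : ℝ → ℝ, ContDiffOn ℝ ∞ f J → HasDerivAt (deriv f) (deriv (deriv f) r) r :=
    fun f hf => (d1 _ (hf.deriv_of_isOpen hJ (by simp)) r hr).hasDerivAt
  have a0 := ha0 r hr
  have b0 := hb0 r hr
  have c0 := hc0 r hr
  have a1 := (d1 a ha r hr).hasDerivAt
  have b1 := (d1 b hb r hr).hasDerivAt
  have c1 := (d1 c hc r hr).hasDerivAt
  have e1 : ∀ f : ℝ → ℝ, ContDiffOn ℝ ∞ f J → ds a (ds a f) r =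
      (deriv (deriv f) r * a r - deriv f r * deriv a r) / a r ^ 2 / a r := by
    intro f hf
    have : HasDerivAt (ds a f) _ r := (d2 f hf).div a1 a0
    rw [ds, this.deriv]
  unfold ricA
  rw [trace_gam ((hG.chr_at hz).differentiableAt (by simp)) ?_ ((d2 a ha).div a1 a0)
    ((b1.mul (d2 b hb)).div (a1.pow 2) (pow_ne_zero 2 a0))
    ((c1.mul (d2 c hc)).div (a1.pow 2) (pow_ne_zero 2 a0)) ((d2 b hb).div b1 b0)
    ((d2 c hc).div c1 c0)]
  · simp only [rho0, rho1, rho2, e1 b hb, e1 c hc]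
    simp only [ds, Pi.div_apply, Pi.mul_apply, Pi.pow_apply]
    norm_num
    field_simp
    ring
  · filter_upwards [hG.isOpen.mem_nhds hz] with z hz u v
    exact chr_polG hG hz (d1 a ha _ hz.1) (d1 b hb _ hz.1) (d1 c hc _ hz.1) (ha0 _ hz.1)
      (hb0 _ hz.1) (hc0 _ hz.1) u v

end Vale.Agent.P244Z.Geo
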