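import Vale.Agent.P244Z.GeoMfd
import Vale.Agent.P244Z.GeoPolar
import Mathlib.Geometry.Manifold.Instances.Sphere
import Mathlib.Analysis.Normed.Module.Connected

/-!
The product of two spheres with products of stereographic charts, and polar coordinates.
-/

open scoped Manifold ContDiff Topology RealInnerProductSpace
open Set Filter Module Metric

set_option maxSynthPendingDepth 3

namespace Vale.Agent.P244Z.Geo

section Sig

variable {V A : Type} [NormedAddCommGroup V] [InnerProductSpace ℝ V]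
  [NormedAddCommGroup A] [InnerProductSpace ℝ A]

/-- Inverse stereographic projection centred at `e`. -/
noncomputable def sig (j : V →ₗᵢ[ℝ] A) (e : A) (θ : V) : A := lam θ • j θ + (2 * lam θ - 1) • e

/-- The derivative of `sig`. -/
noncomputable def dsig (j : V →ₗᵢ[ℝ] A) (e : A) (θ u : V) : A :=
  lam θ • j u + (-(lam θ ^ 2 / 2) * ⟪θ, u⟫) • (j θ + (2 : ℝ) • e)

variable {j : V →ₗᵢ[ℝ] A} {e : A}

theorem sig_zero : sig j e 0 = e := by
  simp only [sig, lam_zero, map_zero]
  module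

theorem contDiff_sig : ContDiff ℝ ∞ (sig j e) :=
  (contDiff_lam.smul j.contDiff).add
    (((contDiff_const.mul contDiff_lam).sub contDiff_const).smul contDiff_const)

theorem hasDerivAt_sig (θ u : V) :
    HasDerivAt (fun t : ℝ => sig j e (θ + t • u)) (dsig j e θ u) 0 := by
  have h1 := hasDerivAt_lam_line θ u
  have h2 : HasDerivAt (fun t : ℝ => j (θ + t • u)) (j u) 0 := by
    have := hasDerivAt_line (j.toContinuousLinearMap.differentiableAt (x := θ)) u
    rwa [ContinuousLinearMap.fderiv] at this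
  refine HasDerivAt.congr_deriv ((h1.smul h2).add
    (((h1.const_mul 2).sub_const 1).smul_const e)) ?_
  simp only [dsig, zero_smul, add_zero]
  module

theorem inner_self_lam (θ : V) : ⟪θ, θ⟫ = 4 / lam θ - 4 := by
  rw [real_inner_self_eq_norm_sq, lam]
  field_simp
  ring

theorem inner_sig (he : ⟪e, e⟫ = 1) (hj : ∀ θ, ⟪e, j θ⟫ = 0) (θ : V) :
    ⟪sig j e θ, sig j e θ⟫ = 1 := by
  have hj' : ∀ θ, ⟪j θ, e⟫ = 0 := fun θ => by rw [real_inner_comm, hj]
  have h0 := (lam_pos θ).ne'
  simp only [sig, inner_add_left, inner_add_right, real_inner_smul_left, real_inner_smul_right,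
    he, hj, hj', j.inner_map_map, inner_self_lam θ]
  field_simp
  ring

theorem inner_sig_dsig (he : ⟪e, e⟫ = 1) (hj : ∀ θ, ⟪e, j θ⟫ = 0) (θ u : V) :
    ⟪sig j e θ, dsig j e θ u⟫ = 0 := by
  have hj' : ∀ θ, ⟪j θ, e⟫ = 0 := fun θ => by rw [real_inner_comm, hj]
  have h0 := (lam_pos θ).ne'
  simp only [sig, dsig, inner_add_left, inner_add_right, real_inner_smul_left,
    real_inner_smul_right, he, hj, hj', j.inner_map_map, inner_self_lam θ]
  field_simp
  ring

theorem inner_dsig (he : ⟪e, e⟫ = 1) (hj : ∀ θ, ⟪e, j θ⟫ = 0) (θ u v : V) :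
    ⟪dsig j e θ u, dsig j e θ v⟫ = lam θ ^ 2 * ⟪u, v⟫ := by
  have hj' : ∀ θ, ⟪j θ, e⟫ = 0 := fun θ => by rw [real_inner_comm, hj]
  have h0 := (lam_pos θ).ne'
  simp only [dsig, inner_add_left, inner_add_right, real_inner_smul_left,
    real_inner_smul_right, he, hj, hj', j.inner_map_map, inner_self_lam θ, real_inner_comm θ u]
  field_simp
  ring

theorem exists_iso {k : ℕ} (hk : finrank ℝ A = k + 1) {v : A} (hv : v ≠ 0) :
    ∃ j : Euc k →ₗᵢ[ℝ] A, ∀ θ, ⟪v, j θ⟫ = 0 := by
  have := Fact.mk hk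
  refine ⟨(ℝ ∙ v)ᗮ.subtypeₗᵢ.comp
    (OrthonormalBasis.fromOrthogonalSpanSingleton k hv).repr.symm.toLinearIsometry, fun θ => ?_⟩
  exact Submodule.mem_orthogonal_singleton_iff_inner_right.1 (Subtype.property _)

theorem exists_iso₂ {k : ℕ} (hk : finrank ℝ A = k + 1 + 1) {N v : A} (hN : N ≠ 0) (hv : v ≠ 0)
    (h : ⟪N, v⟫ = 0) : ∃ j : Euc k →ₗᵢ[ℝ] A, ∀ θ, ⟪N, j θ⟫ = 0 ∧ ⟪v, j θ⟫ = 0 := by
  have := Fact.mk hk
  obtain ⟨j, hj⟩ := exists_iso (A := (ℝ ∙ N)ᗮ) (k := k)
    (Submodule.finrank_orthogonal_span_singleton (n := k + 1) hN)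
    (v := ⟨v, Submodule.mem_orthogonal_singleton_iff_inner_right.2 h⟩)
    (fun h0 => hv (congrArg Subtype.val h0))
  exact ⟨(ℝ ∙ N)ᗮ.subtypeₗᵢ.comp j, fun θ =>
    ⟨Submodule.mem_orthogonal_singleton_iff_inner_right.1 (j θ).property, hj θ⟩⟩

end Sig

instance factFinrank (k : ℕ) : Fact (finrank ℝ (Euc (k + 1)) = k + 1) :=
  ⟨finrank_euclideanSpace_fin⟩

/-- The unit sphere of dimension `k`. -/
abbrev Sph (k : ℕ) : Type := sphere (0 : Euc (k + 1)) 1

theorem emb_stereo {k : ℕ} (v : Sph k) : EmbChart (Subtype.val : Sph k → Euc (k + 1))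
    (stereographic' k v) := by
  let U := (OrthonormalBasis.fromOrthogonalSpanSingleton (𝕜 := ℝ) k
    (ne_zero_of_mem_unit_sphere v)).repr
  refine ⟨stereographic'_target v, ?_, fun x => U (stereoToFun v.1 x),
    {x | innerSL ℝ v.1 x ≠ (1 : ℝ)}, ?_, ?_, ?_⟩
  · exact (contDiff_stereoInvFunAux (v := v.1)).comp
      ((ℝ ∙ v.1)ᗮ.subtypeL.contDiff.comp U.symm.contDiff)
  · exact isOpen_ne_fun (by fun_prop) continuous_const
  · exact U.contDiff.comp_contDiffOn contDiffOn_stereoToFun
  · intro x hx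
    refine ⟨fun h => ?_, rfl⟩
    rw [stereographic'_source] at hx
    exact hx ((sphere_ext_iff v x).2 h).symm

variable {m p : ℕ}

/-- The splitting of coordinates. -/
noncomputable def spl (m p : ℕ) : Euc (m + p) ≃L[ℝ] Euc m × Euc p :=
  EuclideanSpace.finAddEquivProd

/-- The product of two stereographic charts. -/
noncomputable def pchart (v : Sph m) (w : Sph p) :
    OpenPartialHomeomorph (Sph m × Sph p) (Euc (m + p)) :=
  ((stereographic' m v).prod (stereographic' p w)).transHomeomorph (spl m p).symm.toHomeomorph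

theorem pchart_symm (v : Sph m) (w : Sph p) (y : Euc (m + p)) : (pchart v w).symm y =
    ((stereographic' m v).symm (spl m p y).1, (stereographic' p w).symm (spl m p y).2) := rfl

theorem pchart_source (v : Sph m) (w : Sph p) :
    (pchart v w).source = (stereographic' m v).source ×ˢ (stereographic' p w).source := rfl

/-- The embedding of the product of spheres. -/
def emb (x : Sph m × Sph p) : Euc (m + 1) × Euc (p + 1) := (x.1.1, x.2.1)

theorem emb_pchart (v : Sph m) (w : Sph p) : EmbChart emb (pchart v w) := by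
  obtain ⟨Q₁, O₁, a1, a2, a3⟩ := (emb_stereo v).ext
  obtain ⟨Q₂, O₂, b1, b2, b3⟩ := (emb_stereo w).ext
  refine ⟨?_, ?_, fun x => (spl m p).symm (Q₁ x.1, Q₂ x.2), O₁ ×ˢ O₂, a1.prod b1, ?_, ?_⟩
  · refine eq_univ_of_forall fun y => ?_
    show _ ∈ (stereographic' m v).target ×ˢ (stereographic' p w).target
    simp
  · exact ((emb_stereo v).smooth.comp (spl m p).contDiff.fst).prodMk
      ((emb_stereo w).smooth.comp (spl m p).contDiff.snd)
  · exact (spl m p).symm.contDiff.comp_contDiffOn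
      ((a2.comp contDiff_fst.contDiffOn fun x hx => hx.1).prodMk
        (b2.comp contDiff_snd.contDiffOn fun x hx => hx.2))
  · intro x hx
    refine ⟨⟨(a3 _ hx.1).1, (b3 _ hx.2).1⟩, ?_⟩
    show (spl m p).symm (Q₁ x.1.1, Q₂ x.2.1) = _
    rw [(a3 _ hx.1).2, (b3 _ hx.2).2]
    rfl

/-- The atlas of products of stereographic charts. -/
@[reducible] noncomputable def prodCharts (m p : ℕ) :
    ChartedSpace (Euc (m + p)) (Sph m × Sph p) where
  atlas := range fun x : Sph m × Sph p => pchart x.1 x.2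
  chartAt x := pchart (-x.1) (-x.2)
  mem_chart_source x := by
    rw [pchart_source]
    constructor
    · simpa using ne_neg_of_mem_unit_sphere ℝ x.1
    · simpa using ne_neg_of_mem_unit_sphere ℝ x.2
  chart_mem_atlas x := ⟨(-x.1, -x.2), rfl⟩

theorem connected_sph {k : ℕ} (hk : 1 ≤ k) : ConnectedSpace (Sph k) := by
  refine isConnected_iff_connectedSpace.1 (isConnected_sphere ?_ 0 zero_le_one)
  rw [← finrank_eq_rank, finrank_euclideanSpace_fin]
  exact_mod_cast Nat.lt_succ_of_le hk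

end Vale.Agent.P244Z.Geo
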