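import Vale.Agent.P244Z.QDefs2
import Mathlib.Analysis.Calculus.ContDiff.Operations
import Mathlib.Analysis.Calculus.TangentCone.Real
import Mathlib.Analysis.Calculus.TangentCone.Prod
import Mathlib.Analysis.Calculus.Deriv.Shift

/-!
# P244, large `q` design: smoothness, parity, values at the poles
-/

open Set Real Filter Topology
open scoped ContDiff

namespace Vale.Agent.P244Z

theorem TimeSet.convex {J : Set ℝ} (hJ : TimeSet J) : Convex ℝ J := by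
  refine convex_iff_ordConnected.2 ⟨fun x hx y hy z hz => ?_⟩
  exact hJ.down y hy ⟨(hJ.nonneg x hx).trans hz.1, hz.2⟩

theorem TimeSet.mem_nhds {J : Set ℝ} (hJ : TimeSet J) {t : ℝ} (ht : t ∈ J) (h0 : 0 < t) :
    J ∈ 𝓝 t := by
  obtain ⟨t', ht', h⟩ := hJ.up t ht
  exact mem_of_superset (Icc_mem_nhds h0 h) (hJ.down t' ht')

theorem TimeSet.uniqueDiffOn {J : Set ℝ} (hJ : TimeSet J) : UniqueDiffOn ℝ J := by
  refine uniqueDiffOn_convex hJ.convex ?_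
  obtain ⟨t', ht', h⟩ := hJ.up 0 hJ.zero_mem
  exact ⟨t', mem_interior_iff_mem_nhds.2 (hJ.mem_nhds ht' h)⟩

theorem TimeSet.uniqueDiffOn_prod {J : Set ℝ} (hJ : TimeSet J) :
    UniqueDiffOn ℝ ((univ : Set ℝ) ×ˢ J) :=
  UniqueDiffOn.prod uniqueDiffOn_univ hJ.uniqueDiffOn

theorem TimeSet.prod_mem_nhds {J : Set ℝ} (hJ : TimeSet J) {p : ℝ × ℝ} (ht : p.2 ∈ J)
    (h0 : 0 < p.2) : (univ : Set ℝ) ×ˢ J ∈ 𝓝 p :=
  _root_.prod_mem_nhds univ_mem (hJ.mem_nhds ht h0)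

theorem hasDerivAt_slice_fderivWithin {J : Set ℝ} {F : ℝ × ℝ → ℝ}
    (hF : ContDiffOn ℝ ∞ F (univ ×ˢ J)) (θ : ℝ) {t : ℝ} (ht : t ∈ J) :
    HasDerivAt (fun x => F (x, t)) (fderivWithin ℝ F (univ ×ˢ J) (θ, t) (1, 0)) θ := by
  have h1 : HasFDerivWithinAt F (fderivWithin ℝ F (univ ×ˢ J) (θ, t)) (univ ×ˢ J) (θ, t) :=
    ((hF (θ, t) ⟨mem_univ _, ht⟩).differentiableWithinAt (by simp)).hasFDerivWithinAt
  have h2 : HasDerivWithinAt (fun x : ℝ => (x, t)) ((1 : ℝ), (0 : ℝ)) univ θ :=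
    ((hasDerivAt_id θ).prodMk (hasDerivAt_const θ t)).hasDerivWithinAt
  exact hasDerivWithinAt_univ.1
    (h1.comp_hasDerivWithinAt θ h2 (fun x _ => mk_mem_prod (mem_univ _) ht))

theorem hasDerivAt_d1 {J : Set ℝ} {F : ℝ × ℝ → ℝ}
    (hF : ContDiffOn ℝ ∞ F (univ ×ˢ J)) (θ : ℝ) {t : ℝ} (ht : t ∈ J) :
    HasDerivAt (fun x => F (x, t)) (d1 F (θ, t)) θ :=
  (hasDerivAt_slice_fderivWithin hF θ ht).differentiableAt.hasDerivAt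

theorem contDiffOn_d1 {J : Set ℝ} (hJ : TimeSet J) {F : ℝ × ℝ → ℝ}
    (hF : ContDiffOn ℝ ∞ F (univ ×ˢ J)) : ContDiffOn ℝ ∞ (d1 F) (univ ×ˢ J) := by
  have h1 : ContDiffOn ℝ ∞ (fun p => fderivWithin ℝ F (univ ×ˢ J) p ((1 : ℝ), (0 : ℝ)))
      (univ ×ˢ J) :=
    (hF.fderivWithin hJ.uniqueDiffOn_prod (by simp)).clm_apply contDiffOn_const
  refine h1.congr fun p hp => ?_
  exact (hasDerivAt_slice_fderivWithin hF p.1 hp.2).deriv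

theorem d1_sym {F G : ℝ × ℝ → ℝ} {t k : ℝ} (h : ∀ θ, F (π - θ, t) = k * G (θ, t)) (θ : ℝ) :
    d1 F (π - θ, t) = -k * d1 G (θ, t) := by
  have h1 : (fun x => F (x, t)) = fun x => k * G (π - x, t) := by
    funext x
    have := h (π - x)
    rwa [sub_sub_cancel] at this
  unfold d1
  simp only [h1]
  rw [deriv_const_mul_field, deriv_comp_const_sub (f := fun x => G (x, t)), sub_sub_cancel]
  ring

namespace Q

variable {S : Data} {J : Set ℝ} {K : Consts} {t1 : ℝ} {p : ℝ × ℝ}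

theorem strip_subset_cstrip : strip t1 ⊆ cstrip t1 := fun _ hp => ⟨Ioo_subset_Icc_self hp.1, hp.2⟩

theorem isCompact_cstrip (t1 : ℝ) : IsCompact (cstrip t1) := isCompact_Icc.prod isCompact_Icc

theorem Sol.cstrip_subset (hS : Sol S J) (ht : t1 ∈ J) : cstrip t1 ⊆ univ ×ˢ J :=
  fun _ hp => ⟨mem_univ _, hS.time.down t1 ht hp.2⟩

theorem Sol.mem_of_strip (hS : Sol S J) (ht : t1 ∈ J) (hp : p ∈ strip t1) : p.2 ∈ J :=
  hS.time.down t1 ht hp.2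

theorem Sol.mem_of_cstrip (hS : Sol S J) (ht : t1 ∈ J) (hp : p ∈ cstrip t1) : p.2 ∈ J :=
  hS.time.down t1 ht hp.2

/-! ## smoothness -/

theorem Sol.sm_time (_hS : Sol S J) {k : ℝ → ℝ} (hk : ContDiffOn ℝ ∞ k J) :
    ContDiffOn ℝ ∞ (fun p : ℝ × ℝ => k p.2) (univ ×ˢ J) :=
  hk.comp contDiffOn_snd (fun _ hp => hp.2)

theorem Sol.smOn_Ds (hS : Sol S J) {F : ℝ × ℝ → ℝ} (hF : ContDiffOn ℝ ∞ F (univ ×ˢ J)) :
    ContDiffOn ℝ ∞ (S.Ds F) (univ ×ˢ J) :=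
  (contDiffOn_d1 hS.time hF).div (hS.sm_time hS.sm_l) (fun _ hp => (hS.l_pos _ hp.2).ne')

theorem Sol.sm_σ (hS : Sol S J) : ContDiffOn ℝ ∞ S.σ (univ ×ˢ J) := hS.sm_time hS.sm_sg
theorem Sol.sm_A (hS : Sol S J) : ContDiffOn ℝ ∞ S.A (univ ×ˢ J) := hS.smOn_Ds hS.sm_φ
theorem Sol.sm_β (hS : Sol S J) : ContDiffOn ℝ ∞ S.β (univ ×ˢ J) := hS.smOn_Ds hS.sm_u
theorem Sol.sm_dβ (hS : Sol S J) : ContDiffOn ℝ ∞ (S.Ds S.β) (univ ×ˢ J) := hS.smOn_Ds hS.sm_β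

theorem Sol.sm_a (hS : Sol S J) : ContDiffOn ℝ ∞ S.a (univ ×ˢ J) :=
  (contDiffOn_const.mul hS.sm_hh).sub (contDiffOn_const.mul (hS.sm_dβ.add (hS.sm_β.pow 2)))

theorem Sol.sm_b (hS : Sol S J) : ContDiffOn ℝ ∞ S.b (univ ×ˢ J) :=
  (hS.sm_hh.neg.sub ((contDiffOn_const.mul hS.sm_A).mul hS.sm_vv)).add
    (contDiffOn_const.mul hS.sm_kk)

theorem Sol.sm_c (hS : Sol S J) : ContDiffOn ℝ ∞ S.c (univ ×ˢ J) :=
  ((hS.sm_dβ.neg.sub ((contDiffOn_const.mul hS.sm_A).mul hS.sm_vv)).sub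
    (contDiffOn_const.mul (hS.sm_β.pow 2))).add (contDiffOn_const.mul hS.sm_u).exp

theorem Sol.sm_R (hS : Sol S J) : ContDiffOn ℝ ∞ S.R (univ ×ˢ J) :=
  (hS.sm_a.add (contDiffOn_const.mul hS.sm_b)).add (contDiffOn_const.mul hS.sm_c)

theorem Sol.sm_U1 (hS : Sol S J) : ContDiffOn ℝ ∞ S.U1 (univ ×ˢ J) := hS.sm_a.sub hS.sm_c
theorem Sol.sm_U2 (hS : Sol S J) : ContDiffOn ℝ ∞ S.U2 (univ ×ˢ J) := hS.sm_b.sub hS.sm_c

theorem Sol.sm_ρ (hS : Sol S J) : ContDiffOn ℝ ∞ S.ρ (univ ×ˢ J) :=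
  contDiffOn_const.mul hS.sm_u.exp

theorem Data.ρ_pos (S : Data) (hq : 2 ≤ S.q) (p : ℝ × ℝ) : 0 < S.ρ p := by
  have : (2 : ℝ) ≤ S.q := by exact_mod_cast hq
  exact mul_pos (Real.sqrt_pos.2 (by linarith)) (exp_pos _)

theorem Data.ρ_sq (S : Data) (hq : 2 ≤ S.q) (p : ℝ × ℝ) :
    exp (-2 * S.u p) = ((S.q : ℝ) - 1) / S.ρ p ^ 2 := by
  have h2 : (2 : ℝ) ≤ S.q := by exact_mod_cast hq
  have h1 : (0 : ℝ) < (S.q : ℝ) - 1 := by linarith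
  unfold Data.ρ
  rw [mul_pow, Real.sq_sqrt h1.le, ← exp_nat_mul, eq_div_iff (by positivity)]
  rw [mul_left_comm, ← exp_add]
  simp

theorem Sol.sm_D (hS : Sol S J) : ContDiffOn ℝ ∞ S.D (univ ×ˢ J) :=
  (hS.sm_ρ.pow 2).sub (hS.sm_φ.pow 2)

theorem Sol.sm_E (hS : Sol S J) (hq : 2 ≤ S.q) : ContDiffOn ℝ ∞ S.E (univ ×ˢ J) :=
  contDiffOn_const.sub ((hS.sm_φ.pow 2).div (hS.sm_ρ.pow 2)
    (fun p _ => pow_ne_zero 2 (S.ρ_pos hq p).ne'))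

theorem Sol.sm_P (hS : Sol S J) : ContDiffOn ℝ ∞ S.P (univ ×ˢ J) :=
  (hS.sm_φ.mul hS.sm_β).sub hS.sm_A

theorem Sol.sm_Z (hS : Sol S J) : ContDiffOn ℝ ∞ S.Z (univ ×ˢ J) :=
  (hS.sm_A.pow 2).sub contDiffOn_const

/-- continuity on the closed strip -/
theorem Sol.cont (hS : Sol S J) (ht : t1 ∈ J) {F : ℝ × ℝ → ℝ}
    (hF : ContDiffOn ℝ ∞ F (univ ×ˢ J)) : ContinuousOn F (cstrip t1) :=
  hF.continuousOn.mono (hS.cstrip_subset ht)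

theorem Sol.contDiffAt (hS : Sol S J) {F : ℝ × ℝ → ℝ} (hF : ContDiffOn ℝ ∞ F (univ ×ˢ J))
    (hp : p.2 ∈ J) (h0 : 0 < p.2) : ContDiffAt ℝ ∞ F p :=
  hF.contDiffAt (hS.time.prod_mem_nhds hp h0)

/-- the derivative along a time slice (also at `t = 0`) -/
theorem Sol.hasDerivAt_slice (hS : Sol S J) {F : ℝ × ℝ → ℝ} (hF : ContDiffOn ℝ ∞ F (univ ×ˢ J))
    (θ : ℝ) {t : ℝ} (ht : t ∈ J) :
    HasDerivAt (fun x => F (x, t)) (S.l t * S.Ds F (θ, t)) θ := by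
  have := hasDerivAt_d1 hF θ ht
  have hl := (hS.l_pos t ht).ne'
  refine this.congr_deriv ?_
  unfold Data.Ds
  field_simp

/-! ## time -/

theorem Sol.sg_strictAnti (hS : Sol S J) : StrictAntiOn S.sg J := by
  refine strictAntiOn_of_deriv_neg hS.time.convex hS.sm_sg.continuousOn fun t ht => ?_
  have htJ : t ∈ J := interior_subset ht
  have h0 : 0 < t := by
    rcases (hS.time.nonneg t htJ).lt_or_eq with h | h
    · exact h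
    · exfalso
      subst h
      have h1 : ∀ᶠ x in 𝓝[<] (0 : ℝ), x ∈ J :=
        mem_nhdsWithin_of_mem_nhds (mem_interior_iff_mem_nhds.1 ht)
      obtain ⟨x, hx1, hx2⟩ := (h1.and self_mem_nhdsWithin).exists
      exact absurd (hS.time.nonneg x hx1) (not_le.2 hx2)
  rw [hS.eq_sg t htJ h0]
  have := hS.l_pos t htJ
  have : 0 < S.l t ^ 2 := by positivity
  linarith

theorem Boot.two_le (h : Boot K S J t1) : 2 ≤ S.q := by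
  rw [h.q_eq]; exact le_trans (by norm_num) h.ok.q_ge

theorem Boot.q_ge (h : Boot K S J t1) : 10000 ≤ S.q := by rw [h.q_eq]; exact h.ok.q_ge

theorem Boot.q_ge' (h : Boot K S J t1) : (10000 : ℝ) ≤ (S.q : ℝ) := by exact_mod_cast h.q_ge

theorem Boot.q_eq' (h : Boot K S J t1) : (S.q : ℝ) = (K.q : ℝ) := by rw [h.q_eq]

theorem Boot.σ_pos (h : Boot K S J t1) (hp : p ∈ cstrip t1) : 0 < S.σ p :=
  lt_of_lt_of_le h.sg_pos
    (h.sol.sg_strictAnti.antitoneOn (h.sol.mem_of_cstrip h.mem hp) h.mem hp.2.2)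

theorem Boot.σ_le (h : Boot K S J t1) (hp : p ∈ cstrip t1) : S.σ p ≤ S.sg 0 :=
  h.sol.sg_strictAnti.antitoneOn h.sol.time.zero_mem (h.sol.mem_of_cstrip h.mem hp) hp.2.1

theorem Boot.sg0_pos (h : Boot K S J t1) : 0 < S.sg 0 :=
  lt_of_lt_of_le h.sg_pos
    (h.sol.sg_strictAnti.antitoneOn h.sol.time.zero_mem h.mem (h.sol.time.nonneg _ h.mem))

/-- powers of `σ` and `ρ` are continuous on the closed strip -/
theorem Boot.cont_pow (h : Boot K S J t1) (k g : ℝ) :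
    ContinuousOn (fun y => S.σ y ^ k * S.ρ y ^ g) (cstrip t1) :=
  ((h.sol.cont h.mem h.sol.sm_σ).rpow_const fun _ hp => Or.inl (h.σ_pos hp).ne').mul
    ((h.sol.cont h.mem h.sol.sm_ρ).rpow_const fun p _ => Or.inl (S.ρ_pos h.two_le p).ne')

theorem Boot.cont_ρpow (h : Boot K S J t1) (g : ℝ) :
    ContinuousOn (fun y => S.ρ y ^ g) (cstrip t1) :=
  (h.sol.cont h.mem h.sol.sm_ρ).rpow_const fun p _ => Or.inl (S.ρ_pos h.two_le p).ne'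

theorem Boot.cont_σpow (h : Boot K S J t1) (k : ℝ) :
    ContinuousOn (fun y => S.σ y ^ k) (cstrip t1) :=
  (h.sol.cont h.mem h.sol.sm_σ).rpow_const fun _ hp => Or.inl (h.σ_pos hp).ne'

/-! ## parity and values at the poles -/

theorem Sol.φ_zero (hS : Sol S J) {t : ℝ} (ht : t ∈ J) : S.φ (0, t) = 0 := by
  have := hS.φ_odd 0 t ht
  rw [neg_zero] at this
  linarith

theorem Sol.φ_pi (hS : Sol S J) {t : ℝ} (ht : t ∈ J) : S.φ (π, t) = 0 := by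
  have := hS.φ_sym 0 t ht
  rw [sub_zero] at this
  rw [this, hS.φ_zero ht]

theorem Sol.Ds_sym (_hS : Sol S J) {F G : ℝ × ℝ → ℝ} {t k : ℝ}
    (h : ∀ θ, F (π - θ, t) = k * G (θ, t)) (θ : ℝ) :
    S.Ds F (π - θ, t) = -k * S.Ds G (θ, t) := by
  unfold Data.Ds
  rw [d1_sym h θ]
  ring

theorem Sol.A_sym (hS : Sol S J) (θ : ℝ) {t : ℝ} (ht : t ∈ J) :
    S.A (π - θ, t) = -S.A (θ, t) := by
  have := hS.Ds_sym (F := S.φ) (G := S.φ) (k := 1) (fun θ => by rw [hS.φ_sym θ t ht, one_mul]) θ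
  rw [neg_one_mul] at this
  exact this

theorem Sol.A_half (hS : Sol S J) {t : ℝ} (ht : t ∈ J) : S.A (π / 2, t) = 0 := by
  have := hS.A_sym (π / 2) ht
  rw [show π - π / 2 = π / 2 by ring] at this
  linarith

theorem Sol.β_sym (hS : Sol S J) (θ : ℝ) {t : ℝ} (ht : t ∈ J) :
    S.β (π - θ, t) = -S.β (θ, t) := by
  have := hS.Ds_sym (F := S.u) (G := S.u) (k := 1) (fun θ => by rw [hS.u_sym θ t ht, one_mul]) θ
  rw [neg_one_mul] at this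
  exact this

theorem Sol.dβ_sym (hS : Sol S J) (θ : ℝ) {t : ℝ} (ht : t ∈ J) :
    S.Ds S.β (π - θ, t) = S.Ds S.β (θ, t) := by
  have := hS.Ds_sym (F := S.β) (G := S.β) (k := -1)
    (fun θ => by rw [hS.β_sym θ ht, neg_one_mul]) θ
  rw [neg_neg, one_mul] at this
  exact this

theorem Sol.dA_sym (hS : Sol S J) (θ : ℝ) {t : ℝ} (ht : t ∈ J) :
    S.Ds S.A (π - θ, t) = S.Ds S.A (θ, t) := by
  have := hS.Ds_sym (F := S.A) (G := S.A) (k := -1)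
    (fun θ => by rw [hS.A_sym θ ht, neg_one_mul]) θ
  rw [neg_neg, one_mul] at this
  exact this

theorem Sol.ρ_sym (hS : Sol S J) (θ : ℝ) {t : ℝ} (ht : t ∈ J) : S.ρ (π - θ, t) = S.ρ (θ, t) := by
  unfold Data.ρ; rw [hS.u_sym θ t ht]

theorem Sol.kk_sym (hS : Sol S J) {θ : ℝ} (hθ : θ ∈ Ioo 0 π) {t : ℝ} (ht : t ∈ J) :
    S.kk (π - θ, t) = S.kk (θ, t) := by
  have h1 := hS.kk_eq (π - θ) t ht
  rw [hS.φ_sym θ t ht, hS.A_sym θ ht, neg_sq, ← hS.kk_eq θ t ht] at h1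
  exact mul_left_cancel₀ (pow_ne_zero 2 (hS.φ_pos θ hθ t ht).ne') h1

theorem Sol.vv_sym (hS : Sol S J) {θ : ℝ} (hθ : θ ∈ Ioo 0 π) {t : ℝ} (ht : t ∈ J) :
    S.vv (π - θ, t) = -S.vv (θ, t) := by
  have h1 := hS.vv_eq (π - θ) t ht
  rw [hS.φ_sym θ t ht, hS.β_sym θ ht, ← hS.vv_eq θ t ht, ← mul_neg] at h1
  exact mul_left_cancel₀ (hS.φ_pos θ hθ t ht).ne' h1

theorem Sol.hh_sym (hS : Sol S J) {θ : ℝ} (hθ : θ ∈ Ioo 0 π) {t : ℝ} (ht : t ∈ J) :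
    S.hh (π - θ, t) = S.hh (θ, t) := by
  have h1 := hS.hh_eq (π - θ) t ht
  rw [hS.φ_sym θ t ht, hS.dA_sym θ ht, ← hS.hh_eq θ t ht] at h1
  exact mul_left_cancel₀ (hS.φ_pos θ hθ t ht).ne' h1

theorem Sol.a_sym (hS : Sol S J) {θ : ℝ} (hθ : θ ∈ Ioo 0 π) {t : ℝ} (ht : t ∈ J) :
    S.a (π - θ, t) = S.a (θ, t) := by
  unfold Data.a; rw [hS.hh_sym hθ ht, hS.dβ_sym θ ht, hS.β_sym θ ht, neg_sq]

theorem Sol.b_sym (hS : Sol S J) {θ : ℝ} (hθ : θ ∈ Ioo 0 π) {t : ℝ} (ht : t ∈ J) :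
    S.b (π - θ, t) = S.b (θ, t) := by
  unfold Data.b; rw [hS.hh_sym hθ ht, hS.kk_sym hθ ht, hS.vv_sym hθ ht, hS.A_sym θ ht]; ring

theorem Sol.c_sym (hS : Sol S J) {θ : ℝ} (hθ : θ ∈ Ioo 0 π) {t : ℝ} (ht : t ∈ J) :
    S.c (π - θ, t) = S.c (θ, t) := by
  unfold Data.c
  rw [hS.dβ_sym θ ht, hS.vv_sym hθ ht, hS.A_sym θ ht, hS.β_sym θ ht, hS.u_sym θ t ht]; ring

theorem Sol.D_sym (hS : Sol S J) (θ : ℝ) {t : ℝ} (ht : t ∈ J) : S.D (π - θ, t) = S.D (θ, t) := by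
  unfold Data.D; rw [hS.ρ_sym θ ht, hS.φ_sym θ t ht]

theorem Sol.E_sym (hS : Sol S J) (θ : ℝ) {t : ℝ} (ht : t ∈ J) : S.E (π - θ, t) = S.E (θ, t) := by
  unfold Data.E; rw [hS.ρ_sym θ ht, hS.φ_sym θ t ht]

theorem Sol.P_sym (hS : Sol S J) (θ : ℝ) {t : ℝ} (ht : t ∈ J) : S.P (π - θ, t) = -S.P (θ, t) := by
  unfold Data.P; rw [hS.β_sym θ ht, hS.A_sym θ ht, hS.φ_sym θ t ht]; ring

theorem Sol.X_sym (hS : Sol S J) (θ : ℝ) {t : ℝ} (ht : t ∈ J) : S.X (π - θ, t) = S.X (θ, t) := by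
  unfold Data.X; rw [hS.φ_sym θ t ht]

/-! ## the algebraic relations -/

theorem Sol.alg (hS : Sol S J) (hq : 2 ≤ S.q) (h1 : p.1 ∈ Ioo 0 π) (h2 : p.2 ∈ J) : Alg S p where
  φ_pos := hS.φ_pos p.1 h1 p.2 h2
  ρ_pos := S.ρ_pos hq p
  kk_eq := hS.kk_eq p.1 p.2 h2
  vv_eq := hS.vv_eq p.1 p.2 h2
  c_eq := by unfold Data.c; rw [S.ρ_sq hq p]

theorem Boot.alg (h : Boot K S J t1) (hp : p ∈ strip t1) : Alg S p :=
  h.sol.alg h.two_le hp.1 (h.sol.mem_of_strip h.mem hp)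

theorem Alg.D_eq (h : Alg S p) : S.D p = S.ρ p ^ 2 * S.E p := by
  have := h.ρ_pos.ne'
  unfold Data.D Data.E; field_simp

theorem Alg.φ_sq (h : Alg S p) : S.φ p ^ 2 = S.ρ p ^ 2 * (1 - S.E p) := by
  have := h.ρ_pos.ne'
  unfold Data.E; field_simp; ring

theorem Data.β_eq (S : Data) (p : ℝ × ℝ) : S.φ p * S.β p = S.A p + S.P p := by
  unfold Data.P; ring

theorem Data.c_eq_R (S : Data) (p : ℝ × ℝ) :
    ((S.q : ℝ) + 3) * S.c p = S.R p - S.U1 p - (S.q : ℝ) * S.U2 p := by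
  unfold Data.R Data.U1 Data.U2; ring

theorem Alg.Z_eq (h : Alg S p) : ((S.q : ℝ) + 1) * ((S.q : ℝ) + 2) * S.Z p =
    -S.φ p ^ 2 * (S.R p - 2 * S.a p) - 2 * ((S.q : ℝ) - 1) * S.E p
      - 4 * ((S.q : ℝ) + 1) * S.A p * S.P p - 2 * S.P p ^ 2 := by
  have hφ := h.φ_pos.ne'
  have hρ := h.ρ_pos.ne'
  have hq : (S.q : ℝ) + 1 ≠ 0 := by positivity
  have h1 : S.kk p = (1 - S.A p ^ 2) / S.φ p ^ 2 := by
    rw [eq_div_iff (pow_ne_zero 2 hφ), mul_comm]; exact h.kk_eq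
  have h2 : S.vv p = S.β p / S.φ p := by
    rw [eq_div_iff hφ, mul_comm]; exact h.vv_eq
  unfold Data.R
  rw [h.c_eq]
  unfold Data.Z Data.a Data.b Data.E Data.P
  rw [h1, h2]
  field_simp
  ring

end Q

end Vale.Agent.P244Z
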