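import Vale.Agent.P244Z.QScale

/-!
# P244, large `q` design: barriers for `D` (step 5)
-/

open Set Real Filter Topology

namespace Vale.Agent.P244Z.Q

variable {S : Data} {J : Set ℝ} {K : Consts} {t1 : ℝ} {p : ℝ × ℝ} {d : Fin 3 → ℝ}

/-- the drift in the equation of `D` -/
theorem drift_le (ha : Alg S p) (hg : Geo0 K S p) (hP : |S.P p| ≤ 3) :
    |2 * S.β p + 2 * S.φ p * S.A p / S.ρ p ^ 2| * S.φ p ≤ 30 := by
  have hφ := ha.φ_pos
  have hρ := ha.ρ_pos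
  have h1 : (2 * S.β p + 2 * S.φ p * S.A p / S.ρ p ^ 2) * S.φ p
      = 2 * (S.A p + S.P p) + 2 * (S.φ p ^ 2 / S.ρ p ^ 2) * S.A p := by
    rw [← S.β_eq]; ring
  have h2 : S.φ p ^ 2 / S.ρ p ^ 2 ≤ 11 / 10 := by
    rw [div_le_iff₀ (by positivity)]; exact hg.φ_sq_le
  have h3 : 0 ≤ S.φ p ^ 2 / S.ρ p ^ 2 := by positivity
  rw [← abs_of_pos hφ, ← abs_mul, abs_of_pos hφ, h1, abs_le]
  have hA := abs_le.1 hg.A_le
  have hP' := abs_le.1 hP
  constructor <;> nlinarith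

theorem pot_le (ha : Alg S p) (hg : Geo0 K S p) (hq : (10000 : ℝ) ≤ S.q) :
    4 * S.A p ^ 2 / S.ρ p ^ 2 ≤ 3 * (S.q : ℝ) / S.φ p ^ 2 + 0 := by
  have hφ := ha.φ_pos
  have hρ := ha.ρ_pos
  have hA := abs_le.1 hg.A_le
  have hA2 : S.A p ^ 2 ≤ 1 := by nlinarith
  rw [add_zero, div_le_div_iff₀ (by positivity) (by positivity)]
  have h1 := hg.φ_sq_le
  have h2 : 0 < S.ρ p ^ 2 := by positivity
  have h3 : S.A p ^ 2 * S.φ p ^ 2 ≤ S.φ p ^ 2 := by nlinarith [sq_nonneg (S.φ p)]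
  nlinarith

/-- `Mid` in terms of `D` -/
theorem Mid.scaled (hm : Mid K S p) (ha : Alg S p) (hσ : 0 < S.σ p) (h1 : 1 ≤ S.X p)
    (h2 : S.X p ≤ 16 * (K.q : ℝ)) :
    |S.D p - K.am * K.Lag 3 (S.X p) * (S.σ p ^ (1 + K.lam) * S.X p ^ (-K.th / 2))|
      ≤ K.am / 10 * (S.σ p ^ (1 + K.lam) * S.X p ^ (-K.th / 2)) := by
  have h := hm h1 h2
  have hφ := ha.φ_pos
  have hX : S.X p = S.φ p ^ 2 / S.σ p := rfl
  have e1 := scale_pow hσ hφ 3 (-K.th)
  have e2 : (3 : ℝ) + -K.th / 2 = 1 + K.lam := by unfold Consts.lam; ring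
  rw [e2, ← hX] at e1
  rw [← e1]
  have e3 : S.σ p ^ (3 : ℝ) = S.σ p ^ 3 := by exact_mod_cast rpow_natCast (S.σ p) 3
  rw [e3, rpow_neg hφ.le]
  have hp1 : 0 < S.φ p ^ K.th := rpow_pos_of_pos hφ _
  have hw : 0 < S.σ p ^ 3 * (S.φ p ^ K.th)⁻¹ := by positivity
  have e4 : S.D p - K.am * K.Lag 3 (S.X p) * (S.σ p ^ 3 * (S.φ p ^ K.th)⁻¹)
      = (S.φ p ^ K.th * S.D p / S.σ p ^ 3 - K.am * K.Lag 3 (S.X p))
        * (S.σ p ^ 3 * (S.φ p ^ K.th)⁻¹) := by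
    field_simp
  rw [e4, abs_mul, abs_of_pos hw]
  exact mul_le_mul_of_nonneg_right h hw.le

theorem lag3_one (hK : K.OK) : 99 / 100 ≤ K.Lag 3 1 ∧ K.Lag 3 1 ≤ 101 / 100 := by
  obtain ⟨h1, h2⟩ := hK.lag3_bounds zero_le_one
  have hq := hK.q_ge'
  have h3 : 1 / (K.q : ℝ) ≤ 1 / 10000 := one_div_le_one_div_of_le (by norm_num) hq
  have h4 : 0 ≤ 1 / (K.q : ℝ) := by positivity
  have h5 : (1 / (K.q : ℝ)) ^ 3 ≤ (1 / 10000) ^ 3 := pow_le_pow_left₀ h4 h3 3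
  have h6 : (1 + 1 / (K.q : ℝ)) ^ 3 ≤ (1 + 1 / 10000) ^ 3 :=
    pow_le_pow_left₀ (by linarith) (by linarith) 3
  have h7 := le_abs_self (K.Lag 3 1)
  constructor
  · norm_num at h5 h3 h2 ⊢; linarith
  · norm_num at h6 h1 ⊢; linarith

/-- the lower barrier in the inner region -/
theorem D_lower (h : Ctx K S J t1 d) (hg : ∀ p ∈ strip t1, Geo0 K S p)
    (hm : ∀ p ∈ strip t1, Mid K S p) :
    ∀ p ∈ strip t1, S.X p ≤ 1 → K.am / 2 * S.σ p ^ (1 + K.lam) ≤ S.D p := by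
  have hB := h.boot
  have hK := hB.ok
  have key := h.mp1 (C := fun y => S.φ y ^ 2 - 1 * S.σ y)
    (f := fun y => K.am / 2 * S.σ y ^ (1 + K.lam) - S.D y)
    (((hB.sol.cont hB.mem hB.sol.sm_φ).pow 2).sub
      (continuousOn_const.mul (hB.sol.cont hB.mem hB.sol.sm_σ)))
    ((continuousOn_const.mul (hB.cont_σpow _)).sub (hB.sol.cont hB.mem hB.sol.sm_D))
    (fun θ hθ hC => sub_nonpos.2 (h.init.Dlow θ hθ
      ((S.X_le_iff (hg _ (hB.zero_mem hθ)).σ_pos 1).2 hC)))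
    (fun p hp hC => by
      have hσ := (hg p hp).σ_pos
      have hX := (S.X_eq_iff hσ 1).2 hC
      have hq := hK.q_ge'
      have h1 := (hm p hp).scaled (hB.alg hp) hσ hX.ge (by rw [hX]; linarith)
      rw [hX, one_rpow, mul_one] at h1
      have h2 := (lag3_one hK).1
      have h3 : 0 < K.am * S.σ p ^ (1 + K.lam) := mul_pos hK.am_pos (rpow_pos_of_pos hσ _)
      have h4 := (abs_le.1 h1).1
      nlinarith) 0
    (fun p hp h0 _ _ => by
      have ha := hB.alg hp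
      have hσ := (hg p hp).σ_pos
      refine ⟨_, _, 2 * S.β p + 2 * S.φ p * S.A p / S.ρ p ^ 2, 4 * S.A p ^ 2 / S.ρ p ^ 2,
        HasJet.sub (HasJet.const_mul (K.am / 2) ((h.evol p hp h0).jσpow hσ (1 + K.lam)))
          ((h.evol p hp h0).jD ha), ?_,
        drift_le ha (hg p hp) (by have := (hB.bds p hp).P; linarith), pot_le ha (hg p hp) hB.q_ge'⟩
      have e := ha.D_lin
      have h1 : 0 ≤ K.am / 2 * ((1 + K.lam) / S.σ p * S.σ p ^ (1 + K.lam)) := by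
        have := hK.am_pos; have := hK.lam_ge; positivity
      have h2 : 0 ≤ 4 * S.A p ^ 2 / S.ρ p ^ 2 * (K.am / 2 * S.σ p ^ (1 + K.lam)) := by
        have := hK.am_pos; positivity
      have e2 : -(1 + K.lam) / S.σ p * S.σ p ^ (1 + K.lam)
          = -((1 + K.lam) / S.σ p * S.σ p ^ (1 + K.lam)) := by ring
      rw [e2]
      nlinarith)
  intro p hp hX
  exact sub_nonpos.1 (key p hp ((S.X_le_iff (hg p hp).σ_pos 1).1 hX))

theorem rpow_small_ge {y : ℝ} (h0 : 0 < y) (h2 : y ≤ 2) : 2 / 3 ≤ y ^ (-1 / 20 / 2 : ℝ) := by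
  have h1 : (2 : ℝ) ^ (-1 / 20 / 2 : ℝ) ≤ y ^ (-1 / 20 / 2 : ℝ) :=
    rpow_le_rpow_of_nonpos h0 h2 (by norm_num)
  have h3 : (9 / 4 : ℝ) ^ (-1 / 2 : ℝ) ≤ (2 : ℝ) ^ (-1 / 2 : ℝ) :=
    rpow_le_rpow_of_nonpos (by norm_num) (by norm_num) (by norm_num)
  have h4 : (2 : ℝ) ^ (-1 / 2 : ℝ) ≤ (2 : ℝ) ^ (-1 / 20 / 2 : ℝ) :=
    rpow_le_rpow_of_exponent_le (by norm_num) (by norm_num)
  have h5 : (9 / 4 : ℝ) ^ (-1 / 2 : ℝ) = 2 / 3 := by
    rw [show (9 / 4 : ℝ) = (3 / 2) ^ (2 : ℝ) by norm_num, ← rpow_mul (by norm_num)]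
    norm_num
  linarith

theorem ρ_sq_F1 (ha : Alg S p) :
    S.ρ p ^ 2 * S.F1 K p = S.σ p ^ (K.lam + 41 / 40) * S.ρ p ^ (-1 / 20 : ℝ) := by
  have hρ := ha.ρ_pos
  unfold Data.F1
  rw [show (-1 / 20 : ℝ) = -41 / 20 + (2 : ℕ) by norm_num, rpow_add hρ, rpow_natCast]
  ring

/-- the upper barrier in the inner region -/
theorem D_upper (h : Ctx K S J t1 d) (hg : ∀ p ∈ strip t1, Geo0 K S p)
    (ht : ∀ p ∈ strip t1, S.φ p ≤ K.δ → Trap K S p) (hδ : S.sg 0 ≤ K.δ ^ 2)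
    (hm : ∀ p ∈ strip t1, Mid K S p) :
    ∀ p ∈ strip t1, S.X p ≤ 1 → S.D p ≤ 2 * K.am * (S.ρ p ^ 2 * S.F1 K p) := by
  have hB := h.boot
  have hK := hB.ok
  have key := h.mp1 (C := fun y => S.φ y ^ 2 - 1 * S.σ y)
    (f := fun y => S.D y - 2 * K.am * (S.σ y ^ (K.lam + 41 / 40) * S.ρ y ^ (-1 / 20 : ℝ)))
    (((hB.sol.cont hB.mem hB.sol.sm_φ).pow 2).sub
      (continuousOn_const.mul (hB.sol.cont hB.mem hB.sol.sm_σ)))
    ((hB.sol.cont hB.mem hB.sol.sm_D).sub (continuousOn_const.mul (hB.cont_pow _ _)))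
    (fun θ hθ hC => by
      have hp := hB.zero_mem hθ
      have ha := hB.alg hp
      have h1 := h.init.Dup θ hθ ((S.X_le_iff (hg _ hp).σ_pos 1).2 hC)
      rw [← ρ_sq_F1 ha, ha.D_eq]
      have : 0 < S.ρ (θ, 0) ^ 2 := by have := ha.ρ_pos; positivity
      nlinarith)
    (fun p hp hC => by
      have hσ := (hg p hp).σ_pos
      have ha := hB.alg hp
      have hX := (S.X_eq_iff hσ 1).2 hC
      have hq := hK.q_ge'
      have h1 := (hm p hp).scaled ha hσ hX.ge (by rw [hX]; linarith)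
      rw [hX, one_rpow, mul_one] at h1
      have h2 := (lag3_one hK).2
      have h3 : 0 < K.am * S.σ p ^ (1 + K.lam) := mul_pos hK.am_pos (rpow_pos_of_pos hσ _)
      have h4 := (abs_le.1 h1).2
      have hy : S.y p ≤ 2 := by rcases (hg p hp).y_le with h5 | h5 <;> linarith
      have h5 := rpow_small_ge (S.y_pos ha.ρ_pos hσ) hy
      rw [scale_pow hσ ha.ρ_pos, show K.lam + 41 / 40 + -1 / 20 / 2 = 1 + K.lam by ring]
      change S.D p - 2 * K.am * (S.σ p ^ (1 + K.lam) * S.y p ^ (-1 / 20 / 2 : ℝ)) ≤ 0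
      nlinarith) 0
    (fun p hp h0 hC _ => by
      have ha := hB.alg hp
      have hgp := hg p hp
      have hσ := hgp.σ_pos
      have hρ := ha.ρ_pos
      have hφ := ha.φ_pos
      have hX : S.X p ≤ 1 := (S.X_le_iff hσ 1).2 hC.le
      have hy : S.y p ≤ 2 := by rcases hgp.y_le with h5 | h5 <;> linarith
      have hφδ : S.φ p ≤ K.δ := by
        have h1 : S.φ p ^ 2 ≤ K.δ ^ 2 := by have := hgp.σ_le; linarith
        exact (pow_le_pow_iff_left₀ hφ.le hK.δ_pos.le two_ne_zero).1 h1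
      have htp := ht p hp hφδ
      refine ⟨_, _, 2 * S.β p + 2 * S.φ p * S.A p / S.ρ p ^ 2, 4 * S.A p ^ 2 / S.ρ p ^ 2,
        HasJet.sub ((h.evol p hp h0).jD ha)
          (HasJet.const_mul (2 * K.am) ((h.evol p hp h0).jpow ha hσ (K.lam + 41 / 40) (-1 / 20))),
        ?_, drift_le ha hgp (by have := (hB.bds p hp).P; linarith), pot_le ha hgp hB.q_ge'⟩
      have e := ha.D_lin
      set W := S.σ p ^ (K.lam + 41 / 40) * S.ρ p ^ (-1 / 20 : ℝ) with hW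
      have hWp : 0 < 2 * K.am * W := by have := hK.am_pos; positivity
      have hA := abs_le.1 hgp.A_le
      have hP := abs_le.1 htp.P_le
      have hq := hB.q_ge'
      have hl := hK.lam_le
      have hl' := hK.lam_ge
      have hβ := htp.β_sq
      have hAβ : S.A p * (S.φ p * S.β p) ≤ 3 := by rw [S.β_eq]; nlinarith
      have hA2 : S.A p ^ 2 ≤ 1 := by nlinarith
      have hky : (K.lam + 41 / 40) * S.y p ≤ 7 := by
        have := S.y_pos hρ hσ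
        nlinarith
      have hc : 0 ≤ (-(-1 / 20) * ((S.q : ℝ) - 1) / S.ρ p ^ 2 - (-1 / 20) ^ 2 * S.β p ^ 2
          - (K.lam + 41 / 40) / S.σ p)
          + (2 * S.β p + 2 * S.φ p * S.A p / S.ρ p ^ 2) * (-1 / 20 * S.β p)
          - 4 * S.A p ^ 2 / S.ρ p ^ 2 := by
        have e2 : (-(-1 / 20) * ((S.q : ℝ) - 1) / S.ρ p ^ 2 - (-1 / 20) ^ 2 * S.β p ^ 2
            - (K.lam + 41 / 40) / S.σ p)
            + (2 * S.β p + 2 * S.φ p * S.A p / S.ρ p ^ 2) * (-1 / 20 * S.β p)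
            - 4 * S.A p ^ 2 / S.ρ p ^ 2
            = (((S.q : ℝ) - 1) / 20 - 41 / 400 * (S.β p ^ 2 * S.ρ p ^ 2)
              - (K.lam + 41 / 40) * S.y p - S.A p * (S.φ p * S.β p) / 10 - 4 * S.A p ^ 2)
              / S.ρ p ^ 2 := by
          unfold Data.y
          field_simp
          ring
        rw [e2]
        exact div_nonneg (by linarith) (by positivity)
      nlinarith [mul_nonneg hWp.le hc])
  intro p hp hX
  rw [ρ_sq_F1 (hB.alg hp)]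
  exact sub_nonpos.1 (key p hp ((S.X_le_iff (hg p hp).σ_pos 1).1 hX))

theorem outer_alg {q g e m W ρ φ σ A β P : ℝ} (hg1 : 3 ≤ g) (hg2 : g ≤ 4) (hq : 10000 ≤ q)
    (hρ : 0 < ρ) (hσ : 0 < σ) (hWp : 0 < m * W) (hA : |A| ≤ 1) (hP : |P| ≤ 3)
    (hβe : φ * β = A + P) (hρφ : ρ ^ 2 ≤ 2 * φ ^ 2) :
    (e * (4 * A ^ 2 - 4 * β ^ 2 * ρ ^ 2) - m * ((-2 * (q - 1) - 4 * β ^ 2 * ρ ^ 2 - 7 * q * -1) * W
        + (ρ ^ 2 - 7 * q * σ) * ((-g * (q - 1) / ρ ^ 2 - g ^ 2 * β ^ 2) * W)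
        - 2 * (2 * β * ρ ^ 2 - 7 * q * 0) * (g * β * W)))
      + (2 * β + 2 * φ * A / ρ ^ 2) * (e * (2 * β * ρ ^ 2 - 2 * φ * A)
        - m * ((2 * β * ρ ^ 2 - 7 * q * 0) * W + (ρ ^ 2 - 7 * q * σ) * (g * β * W)))
      ≤ 4 * A ^ 2 / ρ ^ 2 * (e * (ρ ^ 2 - φ ^ 2) - m * ((ρ ^ 2 - 7 * q * σ) * W)) := by
  have hA := abs_le.1 hA
  have hP := abs_le.1 hP
  have hφβ : (φ * β) ^ 2 ≤ 16 := by rw [hβe]; nlinarith
  have hβ : β ^ 2 * ρ ^ 2 ≤ 32 := by nlinarith [sq_nonneg β]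
  have hβ0 : 0 ≤ β ^ 2 * ρ ^ 2 := by positivity
  have hAβ : |A * (φ * β)| ≤ 4 := by
    rw [hβe, abs_le]; constructor <;> nlinarith
  have hAβ := abs_le.1 hAβ
  have hA2 : A ^ 2 ≤ 1 := by nlinarith
  have e1 : 4 * A ^ 2 / ρ ^ 2 * (e * (ρ ^ 2 - φ ^ 2) - m * ((ρ ^ 2 - 7 * q * σ) * W))
      - ((e * (4 * A ^ 2 - 4 * β ^ 2 * ρ ^ 2)
        - m * ((-2 * (q - 1) - 4 * β ^ 2 * ρ ^ 2 - 7 * q * -1) * W
        + (ρ ^ 2 - 7 * q * σ) * ((-g * (q - 1) / ρ ^ 2 - g ^ 2 * β ^ 2) * W)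
        - 2 * (2 * β * ρ ^ 2 - 7 * q * 0) * (g * β * W)))
      + (2 * β + 2 * φ * A / ρ ^ 2) * (e * (2 * β * ρ ^ 2 - 2 * φ * A)
        - m * ((2 * β * ρ ^ 2 - 7 * q * 0) * W + (ρ ^ 2 - 7 * q * σ) * (g * β * W))))
      = m * W * ((7 * q - (g + 2) * (q - 1) - (g + 2) ^ 2 * (β ^ 2 * ρ ^ 2)
        + (g + 2) * (2 * (β ^ 2 * ρ ^ 2) + 2 * (A * (φ * β))) - 4 * A ^ 2)
        + 7 * q * σ / ρ ^ 2 * (g * (q - 1) + g ^ 2 * (β ^ 2 * ρ ^ 2)
          - g * (2 * (β ^ 2 * ρ ^ 2) + 2 * (A * (φ * β))) + 4 * A ^ 2)) := by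
    field_simp
    ring
  generalize β ^ 2 * ρ ^ 2 = x1 at hβ hβ0 e1
  generalize A * (φ * β) = x2 at hAβ e1
  have hc1 : 0 ≤ 7 * q - (g + 2) * (q - 1) - (g + 2) ^ 2 * x1
      + (g + 2) * (2 * x1 + 2 * x2) - 4 * A ^ 2 := by
    have h1 : (g + 2) ^ 2 * x1 ≤ 36 * 32 := mul_le_mul (by nlinarith) hβ hβ0 (by norm_num)
    have h2 : (g + 2) * (-8) ≤ (g + 2) * (2 * x1 + 2 * x2) :=
      mul_le_mul_of_nonneg_left (by linarith) (by linarith)
    have h3 : (g + 2) * (q - 1) ≤ 6 * (q - 1) :=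
      mul_le_mul_of_nonneg_right (by linarith) (by linarith)
    linarith
  have hc2 : 0 ≤ g * (q - 1) + g ^ 2 * x1 - g * (2 * x1 + 2 * x2) + 4 * A ^ 2 := by
    have h1 : 0 ≤ g ^ 2 * x1 := by positivity
    have h2 : g * (2 * x1 + 2 * x2) ≤ g * (q - 1) :=
      mul_le_mul_of_nonneg_left (by linarith) (by linarith)
    linarith [sq_nonneg A]
  have hc3 : 0 ≤ 7 * q * σ / ρ ^ 2 := by positivity
  have hc := mul_nonneg hWp.le (add_nonneg hc1 (mul_nonneg hc3 hc2))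
  linarith

/-- the barrier in the outer region -/
theorem D_outer (h : Ctx K S J t1 d) (hg : ∀ p ∈ strip t1, Geo0 K S p)
    (hm : ∀ p ∈ strip t1, Mid K S p) {e : ℝ} (he : e = 1 ∨ e = -1) :
    ∀ p ∈ strip t1, 16 * (K.q : ℝ) ≤ S.X p →
      e * S.D p ≤ 2 * K.am * ((S.ρ p ^ 2 - 7 * (K.q : ℝ) * S.σ p) * S.F2 K p) := by
  have hB := h.boot
  have hK := hB.ok
  have hq := hK.q_ge'
  have habs : ∀ x : ℝ, e * x ≤ |x| := fun x => by
    rcases he with h1 | h1 <;> rw [h1]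
    · rw [one_mul]; exact le_abs_self x
    · rw [neg_one_mul]; exact neg_le_abs x
  have key := h.mp1 (C := fun y => 16 * (K.q : ℝ) * S.σ y - S.φ y ^ 2)
    (f := fun y => e * S.D y
      - 2 * K.am * ((S.ρ y ^ 2 - 7 * (K.q : ℝ) * S.σ y) * S.ρ y ^ (2 * K.lam)))
    ((continuousOn_const.mul (hB.sol.cont hB.mem hB.sol.sm_σ)).sub
      ((hB.sol.cont hB.mem hB.sol.sm_φ).pow 2))
    ((continuousOn_const.mul (hB.sol.cont hB.mem hB.sol.sm_D)).sub (continuousOn_const.mul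
      ((((hB.sol.cont hB.mem hB.sol.sm_ρ).pow 2).sub
        (continuousOn_const.mul (hB.sol.cont hB.mem hB.sol.sm_σ))).mul (hB.cont_ρpow _))))
    (fun θ hθ hC => by
      have hp := hB.zero_mem hθ
      have ha := hB.alg hp
      have hρ := ha.ρ_pos
      have h1 := h.init.Dout θ hθ ((S.le_X_iff (hg _ hp).σ_pos _).2 hC)
      have h2 : 0 < S.ρ (θ, 0) ^ 2 := by positivity
      have h3 := mul_le_mul_of_nonneg_left h1 h2.le
      have h4 : S.ρ (θ, 0) ^ 2 * (2 * K.am * S.F2 K (θ, 0)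
          * (1 - 7 * (K.q : ℝ) * S.sg 0 / S.ρ (θ, 0) ^ 2))
          = 2 * K.am * ((S.ρ (θ, 0) ^ 2 - 7 * (K.q : ℝ) * S.σ (θ, 0))
            * S.ρ (θ, 0) ^ (2 * K.lam)) := by
        unfold Data.F2 Data.σ
        field_simp
      have h5 := habs (S.D (θ, 0))
      rw [ha.D_eq, abs_mul, abs_of_pos h2] at h5
      rw [ha.D_eq]
      linarith)
    (fun p hp hC => by
      have hgp := hg p hp
      have hσ := hgp.σ_pos
      have ha := hB.alg hp
      have hX : S.X p = 16 * (K.q : ℝ) := (S.X_eq_iff hσ _).2 (by linarith)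
      have h1 := (hm p hp).scaled ha hσ (by rw [hX]; linarith) hX.le
      have h2 := (hK.lag3_bounds (X := S.X p) (by rw [hX]; linarith)).1
      have h3 : (1 + S.X p / K.q) ^ 3 = 4913 := by
        rw [hX, mul_div_assoc, div_self (by linarith)]; norm_num
      have h4 : S.X p ^ (-K.th / 2) ≤ 1 :=
        rpow_le_one_of_one_le_of_nonpos (by rw [hX]; linarith) (by have := hK.th_pos; linarith)
      have h4' : 0 < S.X p ^ (-K.th / 2) := rpow_pos_of_pos (by rw [hX]; linarith) _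
      have hs : 0 < S.σ p ^ (1 + K.lam) := rpow_pos_of_pos hσ _
      have ham := hK.am_pos
      set w := S.σ p ^ (1 + K.lam) * S.X p ^ (-K.th / 2) with hw
      have hw0 : 0 < w := by positivity
      have hw1 : w ≤ S.σ p ^ (1 + K.lam) := by nlinarith
      have h5 : |S.D p| ≤ 5000 * (K.am * w) := by
        have h6 : |K.am * K.Lag 3 (S.X p) * w| ≤ K.am * 4913 * w := by
          rw [abs_mul, abs_mul, abs_of_pos ham, abs_of_pos hw0, ← h3]
          gcongr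
        have h7 := abs_sub_abs_le_abs_sub (S.D p) (K.am * K.Lag 3 (S.X p) * w)
        have : 0 < K.am * w := by positivity
        nlinarith
      have hy : 7 * (K.q : ℝ) + 10000 ≤ S.y p := by have := hgp.X_le; linarith
      have h8 : 1 ≤ S.y p ^ K.lam := one_le_rpow (by linarith) (by have := hK.lam_ge; linarith)
      have h9 : (S.ρ p ^ 2 - 7 * (K.q : ℝ) * S.σ p) * S.ρ p ^ (2 * K.lam)
          = S.σ p ^ (1 + K.lam) * ((S.y p - 7 * (K.q : ℝ)) * S.y p ^ K.lam) := by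
        have := S.F2_eq K ha.ρ_pos hσ
        unfold Data.F2 at this
        rw [this, S.ρ_sq_eq hσ, rpow_add hσ, rpow_one]
        ring
      rw [h9]
      have h10 : 10000 ≤ (S.y p - 7 * (K.q : ℝ)) * S.y p ^ K.lam := by nlinarith
      have h11 := habs (S.D p)
      have h12 : K.am * w ≤ K.am * S.σ p ^ (1 + K.lam) := mul_le_mul_of_nonneg_left hw1 ham.le
      have h13 : 0 < K.am * S.σ p ^ (1 + K.lam) := by positivity
      nlinarith) 0
    (fun p hp h0 hC _ => by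
      have ha := hB.alg hp
      have hgp := hg p hp
      have hσ := hgp.σ_pos
      have hρ := ha.ρ_pos
      have hφ := ha.φ_pos
      have hev := h.evol p hp h0
      refine ⟨_, _, 2 * S.β p + 2 * S.φ p * S.A p / S.ρ p ^ 2, 4 * S.A p ^ 2 / S.ρ p ^ 2,
        HasJet.sub (HasJet.const_mul e (hev.jD ha)) (HasJet.const_mul (2 * K.am)
          (HasJet.mul (HasJet.sub (hev.jρsq ha) (HasJet.const_mul (7 * (K.q : ℝ)) hev.jσ))
            (hev.jρpow ha (2 * K.lam)))),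
        ?_, drift_le ha hgp (by have := (hB.bds p hp).P; linarith), pot_le ha hgp hB.q_ge'⟩
      have hρφ : S.ρ p ^ 2 ≤ 2 * S.φ p ^ 2 := by
        rcases hgp.ρ_sq_le with h1 | h1
        · exact h1
        · have : 0 ≤ (16 * (K.q : ℝ) - 1) * S.σ p := mul_nonneg (by linarith) hσ.le
          have := sq_nonneg (S.φ p)
          linarith
      rw [hB.q_eq']
      exact outer_alg (by linarith [hK.lam_ge]) (by linarith [hK.lam_le]) hq hρ hσ
        (mul_pos (mul_pos two_pos hK.am_pos) (rpow_pos_of_pos hρ _)) hgp.A_le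
        (by have := (hB.bds p hp).P; linarith) (S.β_eq p) hρφ)
  intro p hp hX
  exact sub_nonpos.1 (key p hp ((S.le_X_iff (hg p hp).σ_pos _).1 hX))

/-- the parabolic region -/
theorem D_mid (hK : K.OK) (ha : Alg S p) (hg : Geo0 K S p) (hm : Mid K S p) (h1 : 1 ≤ S.X p)
    (h2 : S.X p ≤ 16 * (K.q : ℝ)) : |S.D p| ≤ 2 * K.am * (S.ρ p ^ 2 * S.F2 K p) := by
  have hσ := hg.σ_pos
  have hq := hK.q_ge'
  have ham := hK.am_pos
  have hX0 : 0 < S.X p := by linarith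
  have h3 := hm.scaled ha hσ h1 h2
  have h4 := (hK.lag3_bounds hX0.le).1
  have h5 : (1 + S.X p / K.q) ^ 3 ≤ (10001 / 10000 * S.X p) ^ 3 := by
    refine pow_le_pow_left₀ (by positivity) ?_ 3
    have : S.X p / K.q ≤ S.X p / 10000 := div_le_div_of_nonneg_left hX0.le (by norm_num) hq
    linarith
  have h6 : 1 ≤ S.X p ^ 3 := one_le_pow₀ h1
  set w := S.σ p ^ (1 + K.lam) * S.X p ^ (-K.th / 2) with hw
  have hw0 : 0 < w := by positivity
  have h7 : |S.D p| ≤ 6 / 5 * (K.am * (w * S.X p ^ 3)) := by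
    have h8 : |K.am * K.Lag 3 (S.X p) * w| ≤ K.am * ((10001 / 10000 * S.X p) ^ 3) * w := by
      rw [abs_mul, abs_mul, abs_of_pos ham, abs_of_pos hw0]
      gcongr
      exact h4.trans h5
    have h9 := abs_sub_abs_le_abs_sub (S.D p) (K.am * K.Lag 3 (S.X p) * w)
    have h10 : 0 < K.am * w := by positivity
    rw [mul_pow] at h8
    nlinarith
  have h8 : w * S.X p ^ 3 = S.σ p ^ (1 + K.lam) * S.X p ^ (1 + K.lam) := by
    have : (1 + K.lam) = -K.th / 2 + (3 : ℕ) := by unfold Consts.lam; push_cast; ring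
    rw [hw, mul_assoc]
    congr 1
    rw [this, rpow_add hX0, rpow_natCast]
  have hy := S.y_pos ha.ρ_pos hσ
  have hl := hK.lam_le
  have hl' := hK.lam_ge
  have h9 : S.X p ^ (1 + K.lam) ≤ 3 / 2 * S.y p ^ (1 + K.lam) := by
    calc S.X p ^ (1 + K.lam) ≤ (11 / 10 * S.y p) ^ (1 + K.lam) :=
          rpow_le_rpow hX0.le hg.X_le (by linarith)
      _ = (11 / 10 : ℝ) ^ (1 + K.lam) * S.y p ^ (1 + K.lam) := mul_rpow (by norm_num) hy.le
      _ ≤ (11 / 10 : ℝ) ^ ((3 : ℕ) : ℝ) * S.y p ^ (1 + K.lam) := by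
          gcongr
          · norm_num
          · push_cast; linarith
      _ ≤ 3 / 2 * S.y p ^ (1 + K.lam) := by
          rw [rpow_natCast]
          gcongr
          norm_num
  have h10 : S.ρ p ^ 2 * S.F2 K p = S.σ p ^ (1 + K.lam) * S.y p ^ (1 + K.lam) := by
    rw [S.F2_eq K ha.ρ_pos hσ, S.ρ_sq_eq hσ, rpow_add hσ, rpow_add hy, rpow_one, rpow_one]
    ring
  rw [h10]
  rw [h8] at h7
  have h11 : 0 < K.am * S.σ p ^ (1 + K.lam) := by positivity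
  have h12 : 0 < S.y p ^ (1 + K.lam) := by positivity
  nlinarith [mul_le_mul_of_nonneg_left h9 h11.le, mul_pos h11 h12]

theorem dbound_of (h : Ctx K S J t1 d) (hg : ∀ p ∈ strip t1, Geo0 K S p)
    (ht : ∀ p ∈ strip t1, S.φ p ≤ K.δ → Trap K S p) (hδ : S.sg 0 ≤ K.δ ^ 2)
    (hm : ∀ p ∈ strip t1, Mid K S p) :
    ∀ p ∈ strip t1, |S.E p| ≤ 2 * K.am * (S.F1 K p + S.F2 K p) ∧ -(1 / 20) ≤ S.E p ∧
      K.am * S.σ p ^ 3 ≤ 2 * S.ρ p ^ 2 ∧ (S.X p ≤ 1 → S.E p ≤ 2 * K.am * S.F1 K p) := by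
  intro p hp
  have hB := h.boot
  have hK := hB.ok
  have ha := hB.alg hp
  have hgp := hg p hp
  have hσ := hgp.σ_pos
  have hρ := ha.ρ_pos
  have hρ2 : 0 < S.ρ p ^ 2 := by positivity
  have ham := hK.am_pos
  have ham' := hK.am_le'
  have hF1 := S.F1_pos K hρ hσ
  have hF2 := S.F2_pos K hρ
  have hσ1 : S.σ p ≤ 1 := by have := hgp.σ_le; have := hK.δ_sq_le; linarith
  have hin : S.X p ≤ 1 → S.E p ≤ 2 * K.am * S.F1 K p := fun hX => by
    have h1 := D_upper h hg ht hδ hm p hp hX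
    rw [ha.D_eq] at h1
    exact le_of_mul_le_mul_left (by linarith) hρ2
  rcases le_total (S.X p) 1 with hX | hX
  · have h1 := D_lower h hg hm p hp hX
    have h2 : S.σ p ^ 3 ≤ S.σ p ^ (1 + K.lam) := by
      rw [← rpow_natCast]
      exact rpow_le_rpow_of_exponent_ge hσ hσ1 (by have := hK.lam_le; push_cast; linarith)
    have h3 : 0 < K.am * S.σ p ^ 3 := by positivity
    have h4 : K.am * S.σ p ^ 3 ≤ 2 * S.D p := by nlinarith
    have h5 : 0 ≤ S.E p := by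
      rw [ha.D_eq] at h4
      exact le_of_mul_le_mul_left (by linarith) hρ2
    refine ⟨?_, by linarith, ?_, hin⟩
    · rw [abs_of_nonneg h5]
      have := hin hX
      nlinarith
    · unfold Data.D at h4
      nlinarith [sq_nonneg (S.φ p)]
  · have h1 : |S.D p| ≤ 2 * K.am * (S.ρ p ^ 2 * S.F2 K p) := by
      rcases le_total (S.X p) (16 * (K.q : ℝ)) with hX2 | hX2
      · exact D_mid hK ha hgp (hm p hp) hX hX2
      · have h2 := D_outer h hg hm (Or.inl rfl) p hp hX2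
        have h3 := D_outer h hg hm (Or.inr rfl) p hp hX2
        have h4 : 0 ≤ 2 * K.am * (7 * (K.q : ℝ) * S.σ p * S.F2 K p) := by positivity
        rw [abs_le]
        constructor <;> nlinarith
    have h2 : |S.E p| ≤ 2 * K.am * S.F2 K p := by
      rw [ha.D_eq, abs_mul, abs_of_pos hρ2] at h1
      exact le_of_mul_le_mul_left (by linarith) hρ2
    have h3 := hgp.F2_le hK hρ
    have h4 := (abs_le.1 h2).1
    refine ⟨by nlinarith, by nlinarith, ?_, hin⟩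
    have h5 := hgp.φ_sq_le
    have h6 := (S.le_X_iff hσ 1).1 hX
    have h7 : S.σ p ^ 3 ≤ S.σ p := by
      have := pow_le_pow_of_le_one hσ.le hσ1 (show 1 ≤ 3 by norm_num)
      rwa [pow_one] at this
    have h8 : 0 ≤ S.σ p ^ 3 := by positivity
    nlinarith

end Vale.Agent.P244Z.Q
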