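import Vale.Agent.P244Z.QDatSize

/-!
# P244, large `q` design: the curvature of the initial data
-/

open Set Real Filter Topology
open scoped ContDiff

namespace Vale.Agent.P244Z.Q

theorem abs_mul_le {a b A B : ℝ} (ha : |a| ≤ A) (hb : |b| ≤ B) : |a * b| ≤ A * B := by
  rw [abs_mul]
  exact mul_le_mul ha hb (abs_nonneg _) ((abs_nonneg _).trans ha)

theorem abs_le_of_sq_mul {x m t u g : ℝ} (hx : 0 < x) (hm0 : 0 ≤ m) (hm1 : m ≤ 1)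
    (h : x ^ 2 * t = m * u) (hu : |u| ≤ x ^ 2 * g) : |t| ≤ g := by
  have h1 : 0 < x ^ 2 := by positivity
  refine le_of_mul_le_mul_left ?_ h1
  rw [← abs_of_pos h1, ← abs_mul, h, abs_mul, abs_of_nonneg hm0, abs_of_pos h1]
  exact (mul_le_of_le_one_left (abs_nonneg u) hm1).trans hu

/-- The numbers attached to a point: the bubble `Z, Y, eb` with the logarithmic derivatives
`Z1, Y1`, the perturbation `y, y1` of `Y, Y1`, the perturbed `e`, the Ricci curvatures. -/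
structure Num (q x Z Z1 Y Y1 eb y y1 e Γ a b c : ℝ) : Prop where
  q_ge : 10000 ≤ q
  x_pos : 0 < x
  x_le : x ≤ 1 / 2
  Z1_eq : Z1 = 2 * (q - 1) * (1 - Z) - 4 * Z * Y
  Y1_eq : Z * Y1 = (q - 1) * (eb - Y)
  constraint : Z * (q * (q - 1) + 4 * q * Y + 2 * Y ^ 2) = (q - 1) * (q + 2 * eb)
  Z_le : Z ≤ 1
  Z_ge : (q - 1) / (q + 1) ≤ Z
  Z_sub : Z - (q - 1) / (q + 1) ≤ 1 - Y
  Y_nonneg : 0 ≤ Y
  Y_le : Y ≤ eb
  e_lt : eb < 1
  xi_le : 1 - Y ≤ 2 * (1 - eb)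
  y_le : |y| ≤ Γ / 100
  y1_le : |y1| ≤ Γ / 10
  e_sub : |e - eb| ≤ Γ / 250
  Γ_le : Γ ≤ 1 / 1000
  a_eq : x ^ 2 * a = -q * ((Z1 * (1 - 4 * x ^ 2) - 8 * x ^ 2 * Z) / 2) -
    2 * ((Y1 + y1 - (Y + y)) * (Z * (1 - 4 * x ^ 2)) +
      (Y + y) * ((Z1 * (1 - 4 * x ^ 2) - 8 * x ^ 2 * Z) / 2) + (Y + y) ^ 2 * (Z * (1 - 4 * x ^ 2)))
  b_eq : x ^ 2 * b = -((Z1 * (1 - 4 * x ^ 2) - 8 * x ^ 2 * Z) / 2) -
    2 * (Y + y) * (Z * (1 - 4 * x ^ 2)) + (q - 1) * (1 - Z * (1 - 4 * x ^ 2))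
  c_eq : x ^ 2 * c = -((Y1 + y1 - (Y + y)) * (Z * (1 - 4 * x ^ 2)) +
      (Y + y) * ((Z1 * (1 - 4 * x ^ 2) - 8 * x ^ 2 * Z) / 2)) -
    q * (Y + y) * (Z * (1 - 4 * x ^ 2)) - 2 * (Y + y) ^ 2 * (Z * (1 - 4 * x ^ 2)) + (q - 1) * e

namespace Num

variable {q x Z Z1 Y Y1 eb y y1 e Γ a b c : ℝ} (h : Num q x Z Z1 Y Y1 eb y y1 e Γ a b c)
include h

theorem Z_abs : |Z| ≤ 1 := by
  have := (div_nonneg (by linarith [h.q_ge]) (by linarith [h.q_ge])).trans h.Z_ge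
  rw [abs_of_nonneg this]
  exact h.Z_le

theorem Z1_abs : |Z1| ≤ 4 := by
  have h1 := h.Z_ge
  have hq := h.q_ge
  rw [div_le_iff₀ (by linarith)] at h1
  have h2 := abs_le.1 h.Z_abs
  have h3 := h.Y_nonneg
  have h4 : Y ≤ 1 := by linarith [h.Y_le, h.e_lt]
  have h5 : 0 ≤ Z := by nlinarith
  have h6 : Z * Y ≤ 1 * 1 := mul_le_mul h2.2 h4 h3 zero_le_one
  rw [h.Z1_eq, abs_le]
  constructor <;> nlinarith [mul_nonneg h5 h3]

theorem Γ_nonneg : 0 ≤ Γ := by linarith [abs_nonneg y, h.y_le]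

theorem err {g : ℝ} (hg : Γ ≤ x ^ 2 * g) : |a - 4 * Z * (q + 2 * (Y + y))| ≤ g ∧
    |b - 4 * (Z + q - 1)| ≤ g ∧ |c - 4 * (Z * (Y + y) + (q - 1) * e)| ≤ q * g := by
  have hq := h.q_ge
  have hm0 : 0 ≤ 1 - 4 * x ^ 2 := by nlinarith [h.x_pos, h.x_le]
  have hm1 : 1 - 4 * x ^ 2 ≤ 1 := by nlinarith
  have hΓ := h.Γ_nonneg
  have hy1 : |y| ≤ 1 := by linarith [h.y_le, h.Γ_le]
  have hY : |2 * Y + y| ≤ 3 := by
    have := abs_le.1 hy1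
    exact abs_le.2 ⟨by linarith [h.Y_nonneg], by linarith [h.Y_le, h.e_lt]⟩
  have t1 := abs_le.1 (abs_mul_le h.y1_le h.Z_abs)
  have t2 := abs_le.1 (abs_mul_le h.y_le h.Z_abs)
  have t3 := abs_le.1 (abs_mul_le h.y_le h.Z1_abs)
  have t4 := abs_le.1 (abs_mul_le (abs_mul_le hY h.y_le) h.Z_abs)
  have t5 := abs_le.1 (abs_mul_le (show |q| ≤ q from (abs_of_nonneg (by linarith)).le)
    (abs_mul_le h.y_le h.Z_abs))
  have t6 := abs_le.1 (abs_mul_le (show |q - 1| ≤ q from abs_le.2 ⟨by linarith, by linarith⟩)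
    h.e_sub)
  have t7 : 10000 * Γ ≤ q * Γ := mul_le_mul_of_nonneg_right hq hΓ
  have t8 : q * Γ ≤ x ^ 2 * (q * g) := by
    rw [mul_left_comm]; exact mul_le_mul_of_nonneg_left hg (by linarith)
  refine ⟨abs_le_of_sq_mul h.x_pos hm0 hm1
    (u := -2 * (y1 * Z - y * Z + y * Z1 / 2 + (2 * Y + y) * y * Z)) ?_ ?_,
    abs_le_of_sq_mul h.x_pos hm0 hm1 (u := -2 * (y * Z)) ?_ ?_,
    abs_le_of_sq_mul h.x_pos hm0 hm1 (u := -(y1 * Z) + y * Z - y * Z1 / 2 - q * (y * Z) -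
      2 * ((2 * Y + y) * y * Z) + (q - 1) * (e - eb)) ?_ ?_⟩
  · have e1 := h.a_eq
    have e2 := h.Z1_eq
    subst e2
    linear_combination e1 + (1 - 4 * x ^ 2) * (h.constraint - 2 * h.Y1_eq)
  · exact abs_le.2 ⟨by linarith, by linarith⟩
  · have e1 := h.b_eq
    have e2 := h.Z1_eq
    subst e2
    linear_combination e1
  · exact abs_le.2 ⟨by linarith, by linarith⟩
  · have e1 := h.c_eq
    have e2 := h.Z1_eq
    subst e2
    linear_combination e1 - (1 - 4 * x ^ 2) * h.Y1_eq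
  · exact abs_le.2 ⟨by linarith, by linarith⟩

theorem U_le {g : ℝ} (hg : Γ ≤ x ^ 2 * g) :
    |a - c| ≤ 16 * q * (1 - eb) + q * Γ + 2 * q * g ∧
      |b - c| ≤ 16 * q * (1 - eb) + q * Γ + 2 * q * g := by
  obtain ⟨ha, hb, hc⟩ := h.err hg
  have hq := h.q_ge
  have hΓ := h.Γ_nonneg
  have hg0 : 0 ≤ g := (abs_nonneg _).trans ha
  have hE := sub_pos.2 h.e_lt
  have hy := abs_le.1 h.y_le
  have hΓ1 := h.Γ_le
  have hz0 : |(q - 1) / (q + 1)| ≤ 1 := by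
    rw [abs_of_nonneg (div_nonneg (by linarith) (by linarith)), div_le_one (by linarith)]
    linarith
  have s1 : |1 - (Y + y)| ≤ 2 * (1 - eb) + Γ / 100 :=
    abs_le.2 ⟨by linarith [h.Y_le], by linarith [h.xi_le]⟩
  have s2 : |1 - e| ≤ 1 - eb + Γ / 250 := by
    have := abs_le.1 h.e_sub
    exact abs_le.2 ⟨by linarith, by linarith⟩
  have s3 : |Z - (q - 1) / (q + 1)| ≤ 2 * (1 - eb) :=
    abs_le.2 ⟨by linarith [h.Z_ge], by linarith [h.Z_sub, h.xi_le]⟩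
  have s4 : |q + (Y + y)| ≤ q + 2 :=
    abs_le.2 ⟨by linarith [h.Y_nonneg], by linarith [h.Y_le, h.e_lt]⟩
  have t1 := abs_le.1 (abs_mul_le s3 s4)
  have t2 := abs_le.1 (abs_mul_le hz0 s1)
  have t3 := abs_le.1 (abs_mul_le (show |q - 1| ≤ q from abs_le.2 ⟨by linarith, by linarith⟩) s2)
  have t4 := abs_le.1 (abs_mul_le h.Z_abs s1)
  have t5 : 10000 * Γ ≤ q * Γ := mul_le_mul_of_nonneg_right hq hΓ
  have t6 : 10000 * (1 - eb) ≤ q * (1 - eb) := mul_le_mul_of_nonneg_right hq hE.le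
  have t7 : 10000 * g ≤ q * g := mul_le_mul_of_nonneg_right hq hg0
  have e1 : Z * (q + (Y + y)) - (q - 1) * e = (Z - (q - 1) / (q + 1)) * (q + (Y + y)) -
      (q - 1) / (q + 1) * (1 - (Y + y)) + (q - 1) * (1 - e) := by
    have : q + 1 ≠ 0 := by linarith
    field_simp
    ring
  rw [abs_le] at ha hb hc
  refine ⟨abs_le.2 ⟨?_, ?_⟩, abs_le.2 ⟨?_, ?_⟩⟩ <;> linarith

theorem R_le (hg : Γ ≤ x ^ 2 * 1) : |a + q * b + 2 * c| ≤ 10 * q ^ 2 := by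
  obtain ⟨ha, hb, hc⟩ := h.err hg
  have hq := h.q_ge
  have hy := abs_le.1 h.y_le
  have hΓ1 := h.Γ_le
  have he := abs_le.1 h.e_sub
  have hZ := abs_le.1 h.Z_abs
  have hq' : |q| ≤ q := (abs_of_nonneg (by linarith)).le
  have s1 : |q + 2 * (Y + y)| ≤ q + 4 :=
    abs_le.2 ⟨by linarith [h.Y_nonneg], by linarith [h.Y_le, h.e_lt]⟩
  have s2 : |Y + y| ≤ 2 := abs_le.2 ⟨by linarith [h.Y_nonneg], by linarith [h.Y_le, h.e_lt]⟩
  have s3 : |e| ≤ 2 :=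
    abs_le.2 ⟨by linarith [h.Y_nonneg, h.Y_le], by linarith [h.e_lt]⟩
  have s4 : |b| ≤ 4 * q + 1 := by
    rw [abs_le] at hb
    exact abs_le.2 ⟨by linarith, by linarith⟩
  have t1 := abs_le.1 (abs_mul_le h.Z_abs s1)
  have t2 := abs_le.1 (abs_mul_le h.Z_abs s2)
  have t3 := abs_le.1 (abs_mul_le (show |q - 1| ≤ q from abs_le.2 ⟨by linarith, by linarith⟩) s3)
  have t4 := abs_le.1 (abs_mul_le hq' s4)
  have t5 : 10000 * q ≤ q * q := mul_le_mul_of_nonneg_right hq (by linarith)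
  rw [abs_le] at ha hc
  exact abs_le.2 ⟨by linarith, by linarith⟩

end Num

end Vale.Agent.P244Z.Q
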