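import Vale.Agent.P244Z.QDefs

/-!
# P244, large `q` design: the intermediate statements of the a priori estimates
-/

open Set Real Filter Topology

namespace Vale.Agent.P244Z.Q

/-- the closed strip up to time `t1` -/
def cstrip (t1 : ℝ) : Set (ℝ × ℝ) := Icc 0 π ×ˢ Icc 0 t1

/-- The algebraic relations at a point of the open strip. -/
structure Alg (S : Data) (p : ℝ × ℝ) : Prop where
  φ_pos : 0 < S.φ p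
  ρ_pos : 0 < S.ρ p
  kk_eq : S.φ p ^ 2 * S.kk p = 1 - S.A p ^ 2
  vv_eq : S.φ p * S.vv p = S.β p
  c_eq : S.c p = -S.Ds S.β p - (S.q : ℝ) * S.A p * S.vv p - 2 * S.β p ^ 2
    + ((S.q : ℝ) - 1) / S.ρ p ^ 2

/-- Steps 0 and 1 of the plan. -/
structure Geo0 (K : Consts) (S : Data) (p : ℝ × ℝ) : Prop where
  σ_pos : 0 < S.σ p
  σ_le : S.σ p ≤ S.sg 0
  ρ_le : S.ρ p ≤ 1
  A_le : |S.A p| ≤ 1
  R_ge : -(K.N / 2) ≤ S.R p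
  U1_le : S.ρ p ^ 2 * |S.U1 p| ≤ 1 / 200 + 2 * K.M * S.ρ p ^ 2
  U2_le : S.ρ p ^ 2 * |S.U2 p| ≤ 1 / 200 + 2 * K.M * S.ρ p ^ 2
  a_le : S.ρ p ^ 2 * |S.a p| ≤ 1 / 100 + K.N1 * S.ρ p ^ 2
  b_le : S.ρ p ^ 2 * |S.b p| ≤ 1 / 100 + K.N1 * S.ρ p ^ 2
  c_le : S.ρ p ^ 2 * |S.c p| ≤ 1 / 100 + K.N1 * S.ρ p ^ 2
  ρ_sq_le : S.ρ p ^ 2 ≤ 2 * S.φ p ^ 2 ∨ S.ρ p ^ 2 ≤ S.σ p
  φ_sq_le : S.φ p ^ 2 ≤ 11 / 10 * S.ρ p ^ 2
  E_le : |S.E p| ≤ 1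
  Z_le : (K.q : ℝ) * |S.Z p| ≤ 2 * K.N1 * S.ρ p ^ 2 + 15

/-- Step 2 of the plan: the geometry where `φ ≤ δ`. -/
structure Trap (K : Consts) (S : Data) (p : ℝ × ℝ) : Prop where
  A_sq : 1 - 21 / (K.q : ℝ) ≤ S.A p ^ 2
  β_sq : S.β p ^ 2 * S.ρ p ^ 2 ≤ 6 / 5
  P_le : |S.P p| ≤ 6 / 5
  vv_le : |S.ρ p ^ 2 * (S.A p * S.vv p) - 1| ≤ 44 / (K.q : ℝ)
  dβ_le : S.ρ p ^ 2 * |S.Ds S.β p + S.β p ^ 2| ≤ 50
  hh_le : (K.q : ℝ) * (S.ρ p ^ 2 * |S.hh p|) ≤ 101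
  kk_le : ((K.q : ℝ) - 1) * (S.ρ p ^ 2 * |S.kk p|) ≤ 5
  ric_le : K.N1 * S.ρ p ^ 2 ≤ 51 / 100

/-- `φ` is a coordinate on the part of the left half where `φ ≤ δ`. -/
def Mono (K : Consts) (S : Data) (t : ℝ) : Prop :=
  ∀ θ ∈ Ioc 0 (π / 2), S.φ (θ, t) ≤ K.δ →
    θ < π / 2 ∧ ∀ θ' ∈ Icc 0 θ, S.φ (θ', t) ≤ S.φ (θ, t) ∧ 1 - 21 / (K.q : ℝ) ≤ S.A (θ', t)

/-- All the hypotheses on `[0, t1]`. -/
structure Ctx (K : Consts) (S : Data) (J : Set ℝ) (t1 : ℝ) (d : Fin 3 → ℝ) : Prop where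
  boot : Boot K S J t1
  init : Init K S d
  evol : ∀ p ∈ strip t1, 0 < p.2 → Evol S p

/-- `Pr` holds on `[0, t1]` under the hypotheses, if the initial time to the singularity is
small. -/
def Ev (K : Consts) (Pr : Data → Set ℝ → ℝ → Prop) : Prop :=
  ∀ᶠ s0 in 𝓝[>] (0 : ℝ), ∀ (S : Data) (J : Set ℝ) (t1 : ℝ) (d : Fin 3 → ℝ),
    S.sg 0 = s0 → Ctx K S J t1 d → Pr S J t1

theorem Ev.and {K : Consts} {P Q : Data → Set ℝ → ℝ → Prop} (hP : Ev K P) (hQ : Ev K Q) :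
    Ev K (fun S J t1 => P S J t1 ∧ Q S J t1) := by
  filter_upwards [hP, hQ] with s0 h1 h2 S J t1 d hs hc
  exact ⟨h1 S J t1 d hs hc, h2 S J t1 d hs hc⟩

theorem Ev.mono {K : Consts} {P Q : Data → Set ℝ → ℝ → Prop} (hP : Ev K P)
    (h : ∀ S J t1 d, Ctx K S J t1 d → P S J t1 → Q S J t1) : Ev K Q := by
  filter_upwards [hP] with s0 h1 S J t1 d hs hc
  exact h S J t1 d hc (h1 S J t1 d hs hc)

/-- Smallness conditions of the form `C * s0 ^ κ ≤ η` are available. -/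
theorem Ev.small (K : Consts) (C : ℝ) {κ η : ℝ} (hκ : 0 < κ) (hη : 0 < η) :
    Ev K (fun S _ _ => C * S.sg 0 ^ κ ≤ η) := by
  have h : Tendsto (fun s : ℝ => C * s ^ κ) (𝓝[>] 0) (𝓝 (C * 0 ^ κ)) :=
    (((continuousAt_rpow_const 0 κ (Or.inr hκ.le)).tendsto).mono_left
      nhdsWithin_le_nhds).const_mul C
  rw [zero_rpow hκ.ne', mul_zero] at h
  filter_upwards [h.eventually (ge_mem_nhds hη)] with s0 h1 S J t1 d hs _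
  rw [hs]; exact h1

theorem Ev.small_one (K : Consts) (C : ℝ) {η : ℝ} (hη : 0 < η) :
    Ev K (fun S _ _ => C * S.sg 0 ≤ η) := by
  simpa using Ev.small K C one_pos hη

end Vale.Agent.P244Z.Q
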