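import Vale.Agent.P244Z.QJets
import Vale.Agent.P244Z.Flow.Ode

/-!
# P244: the evolution equations along the doubly warped Ricci flow
-/

open Set Real Filter Topology
open scoped ContDiff

namespace Vale.Agent.P244Z.Q

/-- the open strip -/
def ostrip (J : Set ℝ) : Set (ℝ × ℝ) := {p | p.1 ∈ Ioo 0 π ∧ p.2 ∈ J ∧ 0 < p.2}

theorem timeSet_mem_nhds {J : Set ℝ} (h : TimeSet J) {t : ℝ} (ht : t ∈ J) (h0 : 0 < t) :
    J ∈ 𝓝 t := by
  obtain ⟨t', ht', hlt⟩ := h.up t ht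
  exact mem_of_superset (Icc_mem_nhds h0 hlt) (h.down t' ht')

theorem isOpen_timeSet {J : Set ℝ} (h : TimeSet J) : IsOpen {t | t ∈ J ∧ 0 < t} := by
  rw [isOpen_iff_mem_nhds]
  intro t ht
  filter_upwards [timeSet_mem_nhds h ht.1 ht.2, Ioi_mem_nhds ht.2] with s h1 h2 using ⟨h1, h2⟩

theorem isOpen_ostrip {J : Set ℝ} (h : TimeSet J) : IsOpen (ostrip J) :=
  (isOpen_Ioo.preimage continuous_fst).inter ((isOpen_timeSet h).preimage continuous_snd)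

theorem contDiffAt_of_strip {J : Set ℝ} (h : TimeSet J) {F : ℝ × ℝ → ℝ}
    (hF : ContDiffOn ℝ ∞ F (univ ×ˢ J)) {p : ℝ × ℝ} (h2 : p.2 ∈ J) (h0 : 0 < p.2) :
    ContDiffAt ℝ ∞ F p :=
  hF.contDiffAt (prod_mem_nhds univ_mem (timeSet_mem_nhds h h2 h0))

theorem contDiffAt_time {J : Set ℝ} (h : TimeSet J) {k : ℝ → ℝ} (hk : ContDiffOn ℝ ∞ k J) {t : ℝ}
    (h2 : t ∈ J) (h0 : 0 < t) : ContDiffAt ℝ ∞ k t :=
  hk.contDiffAt (timeSet_mem_nhds h h2 h0)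

theorem hda_d1 {F : ℝ × ℝ → ℝ} {p : ℝ × ℝ} (hF : ContDiffAt ℝ ∞ F p) :
    HasDerivAt (fun x => F (x, p.2)) (d1 F p) p.1 :=
  (Fl.hasDerivAt_fst (hF.differentiableAt (by simp))).differentiableAt.hasDerivAt

theorem hda_d2 {F : ℝ × ℝ → ℝ} {p : ℝ × ℝ} (hF : ContDiffAt ℝ ∞ F p) :
    HasDerivAt (fun t => F (p.1, t)) (d2 F p) p.2 :=
  (Fl.hasDerivAt_snd (hF.differentiableAt (by simp))).differentiableAt.hasDerivAt

theorem tendsto_slice1 (p : ℝ × ℝ) : Tendsto (fun x : ℝ => ((x, p.2) : ℝ × ℝ)) (𝓝 p.1) (𝓝 p) :=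
  (by fun_prop : Continuous fun x : ℝ => ((x, p.2) : ℝ × ℝ)).tendsto' p.1 p rfl

theorem tendsto_slice2 (p : ℝ × ℝ) : Tendsto (fun t : ℝ => ((p.1, t) : ℝ × ℝ)) (𝓝 p.2) (𝓝 p) :=
  (by fun_prop : Continuous fun t : ℝ => ((p.1, t) : ℝ × ℝ)).tendsto' p.2 p rfl

theorem d1_congr {F G : ℝ × ℝ → ℝ} {p : ℝ × ℝ} (h : F =ᶠ[𝓝 p] G) : d1 F p = d1 G p :=
  Filter.EventuallyEq.deriv_eq ((tendsto_slice1 p).eventually h)

theorem d2_congr {F G : ℝ × ℝ → ℝ} {p : ℝ × ℝ} (h : F =ᶠ[𝓝 p] G) : d2 F p = d2 G p :=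
  Filter.EventuallyEq.deriv_eq ((tendsto_slice2 p).eventually h)

variable {S : Data} {J : Set ℝ}

/-- `F` is smooth on the open strip, with `Ds F = Fs` and `Dt F = Ft` there. -/
structure HD (S : Data) (J : Set ℝ) (F Fs Ft : ℝ × ℝ → ℝ) : Prop where
  sm : ∀ p ∈ ostrip J, ContDiffAt ℝ ∞ F p
  s : ∀ p ∈ ostrip J, S.Ds F p = Fs p
  t : ∀ p ∈ ostrip J, S.Dt F p = Ft p

namespace HD

variable {F Fs Ft G Gs Gt : ℝ × ℝ → ℝ}

theorem of_sm (h : ∀ p ∈ ostrip J, ContDiffAt ℝ ∞ F p) : HD S J F (S.Ds F) (S.Dt F) :=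
  ⟨h, fun _ _ => rfl, fun _ _ => rfl⟩

theorem of_eq (h : HD S J F Fs Ft) (hs : ∀ p ∈ ostrip J, Fs p = Gs p)
    (ht : ∀ p ∈ ostrip J, Ft p = Gt p) : HD S J F Gs Gt :=
  ⟨h.sm, fun p hp => (h.s p hp).trans (hs p hp), fun p hp => (h.t p hp).trans (ht p hp)⟩

theorem congr (hJ : TimeSet J) (h : HD S J F Fs Ft) (e : ∀ p ∈ ostrip J, G p = F p) :
    HD S J G Fs Ft := by
  have he : ∀ p ∈ ostrip J, G =ᶠ[𝓝 p] F := fun p hp => by
    filter_upwards [(isOpen_ostrip hJ).mem_nhds hp] with z hz using e z hz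
  refine ⟨fun p hp => (h.sm p hp).congr_of_eventuallyEq (he p hp), fun p hp => ?_, fun p hp => ?_⟩
  · rw [← h.s p hp]; unfold Data.Ds; rw [d1_congr (he p hp)]
  · rw [← h.t p hp]; unfold Data.Dt; rw [d1_congr (he p hp), d2_congr (he p hp)]

theorem const (c : ℝ) : HD S J (fun _ => c) (fun _ => 0) (fun _ => 0) :=
  ⟨fun _ _ => contDiffAt_const, fun _ _ => by simp [Data.Ds, d1], fun _ _ => by
    simp [Data.Dt, d1, d2]⟩

theorem add (hF : HD S J F Fs Ft) (hG : HD S J G Gs Gt) :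
    HD S J (fun p => F p + G p) (fun p => Fs p + Gs p) (fun p => Ft p + Gt p) := by
  have e1 : ∀ p ∈ ostrip J, d1 (fun p => F p + G p) p = d1 F p + d1 G p := fun p hp =>
    ((hda_d1 (hF.sm p hp)).add (hda_d1 (hG.sm p hp))).deriv
  have e2 : ∀ p ∈ ostrip J, d2 (fun p => F p + G p) p = d2 F p + d2 G p := fun p hp =>
    ((hda_d2 (hF.sm p hp)).add (hda_d2 (hG.sm p hp))).deriv
  refine ⟨fun p hp => (hF.sm p hp).add (hG.sm p hp), fun p hp => ?_, fun p hp => ?_⟩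
  · rw [← hF.s p hp, ← hG.s p hp]; unfold Data.Ds; rw [e1 p hp]; ring
  · rw [← hF.t p hp, ← hG.t p hp]; unfold Data.Dt; rw [e1 p hp, e2 p hp]; ring

theorem mul (hF : HD S J F Fs Ft) (hG : HD S J G Gs Gt) :
    HD S J (fun p => F p * G p) (fun p => Fs p * G p + F p * Gs p)
      (fun p => Ft p * G p + F p * Gt p) := by
  have e1 : ∀ p ∈ ostrip J, d1 (fun p => F p * G p) p = d1 F p * G p + F p * d1 G p := fun p hp =>
    ((hda_d1 (hF.sm p hp)).mul (hda_d1 (hG.sm p hp))).deriv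
  have e2 : ∀ p ∈ ostrip J, d2 (fun p => F p * G p) p = d2 F p * G p + F p * d2 G p := fun p hp =>
    ((hda_d2 (hF.sm p hp)).mul (hda_d2 (hG.sm p hp))).deriv
  refine ⟨fun p hp => (hF.sm p hp).mul (hG.sm p hp), fun p hp => ?_, fun p hp => ?_⟩
  · rw [← hF.s p hp, ← hG.s p hp]; unfold Data.Ds; rw [e1 p hp]; ring
  · rw [← hF.t p hp, ← hG.t p hp]; unfold Data.Dt; rw [e1 p hp, e2 p hp]; ring

theorem comp {k k' : ℝ → ℝ} (hF : HD S J F Fs Ft)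
    (hk : ∀ p ∈ ostrip J, ContDiffAt ℝ ∞ k (F p)) (hk' : ∀ p ∈ ostrip J, HasDerivAt k (k' (F p)) (F p)) :
    HD S J (fun p => k (F p)) (fun p => k' (F p) * Fs p) (fun p => k' (F p) * Ft p) := by
  have e1 : ∀ p ∈ ostrip J, d1 (fun p => k (F p)) p = k' (F p) * d1 F p := fun p hp =>
    (HasDerivAt.comp p.1 (h₂ := k) (h := fun x => F (x, p.2)) (hk' p hp)
      (hda_d1 (hF.sm p hp))).deriv
  have e2 : ∀ p ∈ ostrip J, d2 (fun p => k (F p)) p = k' (F p) * d2 F p := fun p hp =>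
    (HasDerivAt.comp p.2 (h₂ := k) (h := fun t => F (p.1, t)) (hk' p hp)
      (hda_d2 (hF.sm p hp))).deriv
  refine ⟨fun p hp => (hk p hp).comp p (hF.sm p hp), fun p hp => ?_, fun p hp => ?_⟩
  · rw [← hF.s p hp]; unfold Data.Ds; rw [e1 p hp]; ring
  · rw [← hF.t p hp]; unfold Data.Dt; rw [e1 p hp, e2 p hp]; ring

theorem cmul (c : ℝ) (hF : HD S J F Fs Ft) :
    HD S J (fun p => c * F p) (fun p => c * Fs p) (fun p => c * Ft p) :=
  ((const c).mul hF).of_eq (fun _ _ => by ring) (fun _ _ => by ring)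

theorem exp (hF : HD S J F Fs Ft) :
    HD S J (fun p => exp (F p)) (fun p => exp (F p) * Fs p) (fun p => exp (F p) * Ft p) :=
  hF.comp (k := Real.exp) (k' := Real.exp) (fun _ _ => contDiff_exp.contDiffAt)
    (fun _ _ => hasDerivAt_exp _)

theorem log (hF : HD S J F Fs Ft) (h0 : ∀ p ∈ ostrip J, F p ≠ 0) :
    HD S J (fun p => log (F p)) (fun p => (F p)⁻¹ * Fs p) (fun p => (F p)⁻¹ * Ft p) :=
  hF.comp (k := Real.log) (k' := fun x => x⁻¹) (fun p hp => contDiffAt_log.2 (h0 p hp))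
    (fun p hp => hasDerivAt_log (h0 p hp))

end HD

namespace Sol

variable (hS : Sol S J)
include hS

theorem l_at {p : ℝ × ℝ} (hp : p ∈ ostrip J) : ContDiffAt ℝ ∞ (fun z : ℝ × ℝ => S.l z.2) p :=
  ContDiffAt.comp p (g := S.l) (f := Prod.snd) (contDiffAt_time hS.time hS.sm_l hp.2.1 hp.2.2)
    contDiffAt_snd

theorem at_Ds {F : ℝ × ℝ → ℝ} {p : ℝ × ℝ} (hp : p ∈ ostrip J) (hF : ContDiffAt ℝ ∞ F p) :
    ContDiffAt ℝ ∞ (S.Ds F) p :=
  (Fl.contDiffAt_d1 hF).div (hS.l_at hp) (hS.l_pos _ hp.2.1).ne'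

theorem at_Dt {F : ℝ × ℝ → ℝ} {p : ℝ × ℝ} (hp : p ∈ ostrip J) (hF : ContDiffAt ℝ ∞ F p) :
    ContDiffAt ℝ ∞ (S.Dt F) p :=
  ((Fl.contDiffAt_d2 hF).sub ((contDiffAt_of_strip hS.time hS.sm_V hp.2.1 hp.2.2).mul
    (Fl.contDiffAt_d1 hF))).div ((hS.l_at hp).pow 2) (pow_pos (hS.l_pos _ hp.2.1) 2).ne'

/-- the commutator of `Dt` and `Ds` -/
theorem comm {F : ℝ × ℝ → ℝ} {p : ℝ × ℝ} (hp : p ∈ ostrip J) (hF : ContDiffAt ℝ ∞ F p) :
    S.Dt (S.Ds F) p = S.Ds (S.Dt F) p + S.a p * S.Ds F p := by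
  have hl : S.l p.2 ≠ 0 := (hS.l_pos _ hp.2.1).ne'
  have hld : HasDerivAt S.l (deriv S.l p.2) p.2 :=
    ((contDiffAt_time hS.time hS.sm_l hp.2.1 hp.2.2).differentiableAt (by simp)).hasDerivAt
  have hV := contDiffAt_of_strip hS.time hS.sm_V hp.2.1 hp.2.2
  have h1 : ContDiffAt ℝ ∞ (d1 F) p := Fl.contDiffAt_d1 hF
  have h2 : ContDiffAt ℝ ∞ (d2 F) p := Fl.contDiffAt_d2 hF
  have hsym : d2 (d1 F) p = d1 (d2 F) p := Fl.d2_d1 hF
  have e1 : d1 (S.Ds F) p = d1 (d1 F) p / S.l p.2 :=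
    ((hda_d1 h1).div_const (S.l p.2)).deriv
  have e2 : d2 (S.Ds F) p =
      (d2 (d1 F) p * S.l p.2 - d1 F p * deriv S.l p.2) / S.l p.2 ^ 2 :=
    ((hda_d2 h1).div hld hl).deriv
  have e3 : d1 (S.Dt F) p =
      (d1 (d2 F) p - (d1 S.V p * d1 F p + S.V p * d1 (d1 F) p)) / S.l p.2 ^ 2 :=
    (((hda_d1 h2).sub ((hda_d1 hV).mul (hda_d1 h1))).div_const
      (S.l p.2 ^ 2)).deriv
  have e4 := hS.eq_V p.1 hp.1 p.2 hp.2.1 hp.2.2
  have e5 : S.Dt (S.Ds F) p = (d2 (S.Ds F) p - S.V p * d1 (S.Ds F) p) / S.l p.2 ^ 2 := rfl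
  have e6 : S.Ds (S.Dt F) p = d1 (S.Dt F) p / S.l p.2 := rfl
  have e7 : S.Ds F p = d1 F p / S.l p.2 := rfl
  rw [e5, e6, e7, e1, e2, e3, hsym]
  simp only [Prod.mk.eta] at e4
  rw [e4]
  field_simp
  ring

/-- differentiation of the rule for `F` -/
theorem ds {F Fs Ft Fts X : ℝ × ℝ → ℝ} (hF : HD S J F Fs Ft) (hT : HD S J Ft Fts X) :
    HD S J (S.Ds F) (S.Ds (S.Ds F)) (fun p => Fts p + S.a p * Fs p) := by
  refine ⟨fun p hp => hS.at_Ds hp (hF.sm p hp), fun _ _ => rfl, fun p hp => ?_⟩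
  rw [hS.comm hp (hF.sm p hp), hF.s p hp, (hT.congr hS.time hF.t).s p hp]

theorem jet {F : ℝ × ℝ → ℝ} {p : ℝ × ℝ} (hF : ContDiffAt ℝ ∞ F p) :
    S.Jet F p (S.Ds F p)
      (S.Dt F p - S.Ds (S.Ds F) p - ((S.q : ℝ) * (S.A p / S.φ p) + 2 * S.β p) * S.Ds F p) := by
  have h1 : ContDiffAt ℝ ∞ (d1 F) p := Fl.contDiffAt_d1 hF
  have hev : ∀ᶠ z in 𝓝 p, DifferentiableAt ℝ F z := by
    filter_upwards [(hF.of_le (m := 1) (by simp)).eventually (by simp)] with z hz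
    exact hz.differentiableAt (by simp)
  refine ⟨fun x => d1 F (x, p.2), d1 (d1 F) p, d2 F p, ?_, hda_d1 h1,
    (hda_d2 hF).hasDerivWithinAt, rfl, ?_⟩
  · filter_upwards [(tendsto_slice1 p).eventually hev] with x hx
    exact (Fl.hasDerivAt_fst hx).differentiableAt.hasDerivAt
  · have e1 : d1 (S.Ds F) p = d1 (d1 F) p / S.l p.2 :=
      ((hda_d1 h1).div_const (S.l p.2)).deriv
    have e6 : S.Ds (S.Ds F) p = d1 (S.Ds F) p / S.l p.2 := rfl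
    rw [e6, e1]
    simp only [Data.Dt, Data.Ds, Data.fr]
    ring

/-- **The evolution equations.** -/
theorem evol (hq : 2 ≤ S.q) {p : ℝ × ℝ} (h1 : p.1 ∈ Ioo 0 π) (h2 : p.2 ∈ J) (h0 : 0 < p.2) :
    Evol S p := by
  have hp : p ∈ ostrip J := ⟨h1, h2, h0⟩
  have hJ := hS.time
  have hq1 : (0 : ℝ) < (S.q : ℝ) - 1 := by
    have : (2 : ℝ) ≤ S.q := by exact_mod_cast hq
    linarith
  have hφ0 : ∀ z ∈ ostrip J, 0 < S.φ z := fun z hz => hS.φ_pos z.1 hz.1 z.2 hz.2.1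
  have smφ : ∀ z ∈ ostrip J, ContDiffAt ℝ ∞ S.φ z := fun z hz =>
    contDiffAt_of_strip hJ hS.sm_φ hz.2.1 hz.2.2
  have smu : ∀ z ∈ ostrip J, ContDiffAt ℝ ∞ S.u z := fun z hz =>
    contDiffAt_of_strip hJ hS.sm_u hz.2.1 hz.2.2
  -- the basic functions
  set q : ℝ := (S.q : ℝ) with hqdef
  set f1 : ℝ × ℝ → ℝ := S.Ds (fun z => log (S.φ z)) with hf1
  set f2 : ℝ × ℝ → ℝ := S.Ds f1 with hf2
  set f3 : ℝ × ℝ → ℝ := S.Ds f2 with hf3
  set u2 : ℝ × ℝ → ℝ := S.Ds S.β with hu2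
  set u3 : ℝ × ℝ → ℝ := S.Ds u2 with hu3
  set Ψ : ℝ × ℝ → ℝ := fun z => exp (-2 * log (S.φ z)) with hΨ
  set E : ℝ × ℝ → ℝ := fun z => exp (-2 * S.u z) with hE
  have Hφ : HD S J S.φ S.A (fun z => -S.b z * S.φ z) :=
    ⟨smφ, fun _ _ => rfl, fun z hz => hS.eq_φ z.1 hz.1 z.2 hz.2.1 hz.2.2⟩
  have Hu : HD S J S.u S.β (fun z => -S.c z) :=
    ⟨smu, fun _ _ => rfl, fun z hz => hS.eq_u z.1 hz.1 z.2 hz.2.1 hz.2.2⟩
  have Hf0 := Hφ.log fun z hz => (hφ0 z hz).ne'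
  have ef1 : ∀ z ∈ ostrip J, f1 z = S.A z / S.φ z := fun z hz => by
    rw [hf1, Hf0.s z hz]; ring
  have eA : ∀ z ∈ ostrip J, S.A z = S.φ z * f1 z := fun z hz => by
    rw [ef1 z hz]; field_simp [(hφ0 z hz).ne']
  have Hf : HD S J (fun z => log (S.φ z)) f1 (fun z => -S.b z) :=
    Hf0.of_eq (fun z hz => by rw [ef1 z hz]; ring) (fun z hz => by field_simp [(hφ0 z hz).ne'])
  have eΨ : ∀ z ∈ ostrip J, Ψ z = 1 / S.φ z ^ 2 := fun z hz => by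
    have : -2 * log (S.φ z) = log (1 / S.φ z ^ 2) := by
      rw [one_div, log_inv, log_pow]; push_cast; ring
    simp only [hΨ]
    rw [this, exp_log (by have := hφ0 z hz; positivity)]
  have HΨ : HD S J Ψ (fun z => -2 * f1 z * Ψ z) (fun z => 2 * S.b z * Ψ z) :=
    ((Hf.cmul (-2)).exp).of_eq (fun z _ => by simp only [hΨ]; ring)
      (fun z _ => by simp only [hΨ]; ring)
  have HE : HD S J E (fun z => -2 * S.β z * E z) (fun z => 2 * S.c z * E z) :=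
    ((Hu.cmul (-2)).exp).of_eq (fun z _ => by simp only [hE]; ring)
      (fun z _ => by simp only [hE]; ring)
  have sf1 : ∀ z ∈ ostrip J, ContDiffAt ℝ ∞ f1 z := fun z hz => hS.at_Ds hz (Hf.sm z hz)
  have sf2 : ∀ z ∈ ostrip J, ContDiffAt ℝ ∞ f2 z := fun z hz => hS.at_Ds hz (sf1 z hz)
  have sβ : ∀ z ∈ ostrip J, ContDiffAt ℝ ∞ S.β z := fun z hz => hS.at_Ds hz (smu z hz)
  have su2 : ∀ z ∈ ostrip J, ContDiffAt ℝ ∞ u2 z := fun z hz => hS.at_Ds hz (sβ z hz)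
  have Gf1 : HD S J f1 f2 (S.Dt f1) := HD.of_sm sf1
  have Gf2 : HD S J f2 f3 (S.Dt f2) := HD.of_sm sf2
  have Gβ : HD S J S.β u2 (S.Dt S.β) := HD.of_sm sβ
  have Gu2 : HD S J u2 u3 (S.Dt u2) := HD.of_sm su2
  -- the pole regular quantities
  have GA : HD S J S.A (fun z => S.φ z * (f2 z + f1 z ^ 2))
      (fun z => -S.b z * S.φ z * f1 z + S.φ z * S.Dt f1 z) :=
    ((Hφ.mul Gf1).congr hJ eA).of_eq (fun z hz => by rw [eA z hz]; ring) (fun _ _ => rfl)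
  have ehh : ∀ z ∈ ostrip J, S.hh z = f2 z + f1 z ^ 2 := fun z hz => by
    have h := hS.hh_eq z.1 z.2 hz.2.1
    simp only [Prod.mk.eta] at h
    rw [GA.s z hz] at h
    exact mul_left_cancel₀ (hφ0 z hz).ne' h
  have evv : ∀ z ∈ ostrip J, S.A z * S.vv z = f1 z * S.β z := fun z hz => by
    have h := hS.vv_eq z.1 z.2 hz.2.1
    simp only [Prod.mk.eta] at h
    rw [eA z hz, ← h]; ring
  have ekk : ∀ z ∈ ostrip J, S.kk z = Ψ z - f1 z ^ 2 := fun z hz => by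
    have h := hS.kk_eq z.1 z.2 hz.2.1
    simp only [Prod.mk.eta] at h
    have h3 := (hφ0 z hz).ne'
    rw [eΨ z hz]
    rw [eA z hz] at h
    field_simp
    linarith
  have ea : ∀ z ∈ ostrip J, S.a z =
      -q * (f2 z + f1 z * f1 z) + -2 * (u2 z + S.β z * S.β z) := fun z hz => by
    simp only [Data.a]; rw [ehh z hz]; ring
  have eb : ∀ z ∈ ostrip J, S.b z =
      -1 * f2 z + -q * (f1 z * f1 z) + -2 * (f1 z * S.β z) + (q - 1) * Ψ z := fun z hz => by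
    have := evv z hz
    simp only [Data.b]; rw [ehh z hz, ekk z hz]; linear_combination (-2) * this
  have ec : ∀ z ∈ ostrip J, S.c z =
      -1 * u2 z + -q * (f1 z * S.β z) + -2 * (S.β z * S.β z) + E z := fun z hz => by
    have := evv z hz
    simp only [Data.c, hE]; linear_combination (-q) * this
  -- the first derivatives of the Ricci curvatures
  have Ga := (((Gf2.add (Gf1.mul Gf1)).cmul (-q)).add ((Gu2.add (Gβ.mul Gβ)).cmul (-2))).congr hJ ea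
  have Gb := ((((Gf2.cmul (-1)).add ((Gf1.mul Gf1).cmul (-q))).add ((Gf1.mul Gβ).cmul (-2))).add
    (HΨ.cmul (q - 1))).congr hJ eb
  have Gc := ((((Gu2.cmul (-1)).add ((Gf1.mul Gβ).cmul (-q))).add ((Gβ.mul Gβ).cmul (-2))).add
    HE).congr hJ ec
  set a1 := S.Ds S.a with ha1
  set b1 := S.Ds S.b with hb1
  set c1 := S.Ds S.c with hc1
  have Ka : HD S J S.a a1 (S.Dt S.a) := HD.of_sm Ga.sm
  have Kb : HD S J S.b b1 (S.Dt S.b) := HD.of_sm Gb.sm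
  have Kc : HD S J S.c c1 (S.Dt S.c) := HD.of_sm Gc.sm
  have Ka1 : HD S J a1 (S.Ds a1) (S.Dt a1) := HD.of_sm fun z hz => hS.at_Ds hz (Ga.sm z hz)
  have Kb1 : HD S J b1 (S.Ds b1) (S.Dt b1) := HD.of_sm fun z hz => hS.at_Ds hz (Gb.sm z hz)
  have Kc1 : HD S J c1 (S.Ds c1) (S.Dt c1) := HD.of_sm fun z hz => hS.at_Ds hz (Gc.sm z hz)
  -- the contracted Bianchi identity and its derivative
  have bianchi : ∀ z ∈ ostrip J, a1 z = q * b1 z + 2 * c1 z + -2 * q * (f1 z * (S.a z + -1 * S.b z))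
      + -4 * (S.β z * (S.a z + -1 * S.c z)) := fun z hz => by
    rw [ha1, hb1, hc1, Ga.s z hz, Gb.s z hz, Gc.s z hz, ea z hz, eb z hz, ec z hz]
    ring
  have bianchi2 := (((((Kb1.cmul q).add (Kc1.cmul 2)).add
    ((Gf1.mul (Ka.add (Kb.cmul (-1)))).cmul (-2 * q))).add
    ((Gβ.mul (Ka.add (Kc.cmul (-1)))).cmul (-4))).congr hJ bianchi).s p hp
  -- time derivatives of the jets
  have Tf1 := hS.ds Hf ((Kb.cmul (-1)).congr hJ fun z _ => by ring)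
  have Tβ := hS.ds Hu ((Kc.cmul (-1)).congr hJ fun z _ => by ring)
  have Tf2 := hS.ds (Fs := f2) ⟨sf1, fun _ _ => rfl, Tf1.t⟩ ((Kb1.cmul (-1)).add (Ka.mul Gf1))
  have Tu2 := hS.ds (Fs := u2) ⟨sβ, fun _ _ => rfl, Tβ.t⟩ ((Kc1.cmul (-1)).add (Ka.mul Gβ))
  have tf1 : S.Dt f1 p = _ := Tf1.t p hp
  have tβ : S.Dt S.β p = _ := Tβ.t p hp
  have tf2 : S.Dt f2 p = _ := Tf2.t p hp
  have tu2 : S.Dt u2 p = _ := Tu2.t p hp
  have ta := Ga.t p hp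
  have tb := Gb.t p hp
  have tc := Gc.t p hp
  simp only [tf1, tβ, tf2, tu2] at ta tb tc
  have hbi := bianchi p hp
  have hφp := hφ0 p hp
  have hA := eA p hp
  have hAφ : S.A p / S.φ p = f1 p := (ef1 p hp).symm
  -- heat operator of the Ricci curvatures
  have hl : S.l p.2 ≠ 0 := (hS.l_pos _ h2).ne'
  refine ⟨?_, ?_, ?_, ?_, ?_, ?_, ?_, ?_⟩
  · have hd : HasDerivAt S.sg (deriv S.sg p.2) p.2 :=
      ((contDiffAt_time hJ hS.sm_sg h2 h0).differentiableAt (by simp)).hasDerivAt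
    rw [hS.eq_sg _ h2 h0] at hd
    refine (HasJet.time (S.fr p) hd.hasDerivWithinAt).of_eq rfl ?_
    simp only [Data.fr]
    field_simp
  · refine (hS.jet (smφ p hp)).of_eq rfl ?_
    have e1 : S.Ds (S.Ds S.φ) p = _ := GA.s p hp
    have e2 : S.Ds S.φ p = S.A p := rfl
    rw [Hφ.t p hp, e1, e2, hAφ, eb p hp, eΨ p hp, hA]
    field_simp
    ring
  · have Hρ : HD S J S.ρ (fun z => S.β z * S.ρ z) (fun z => -S.c z * S.ρ z) :=
      ((Hu.exp.cmul (√(q - 1))).congr hJ fun z _ => rfl).of_eq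
        (fun z _ => by simp only [Data.ρ]; ring) (fun z _ => by simp only [Data.ρ]; ring)
    have e1 : S.Ds (S.Ds S.ρ) p = _ := ((Gβ.mul Hρ).congr hJ Hρ.s).s p hp
    have hρ : S.ρ p ^ 2 * E p = q - 1 := by
      simp only [Data.ρ, hE]
      rw [mul_pow, sq_sqrt hq1.le, mul_assoc, ← exp_nat_mul, ← exp_add]
      simp
    have hρ0 : S.ρ p ≠ 0 := (mul_pos (sqrt_pos.2 hq1) (exp_pos _)).ne'
    refine (hS.jet (Hρ.sm p hp)).of_eq (Hρ.s p hp) ?_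
    rw [Hρ.t p hp, e1, Hρ.s p hp, hAφ, ec p hp, ← hρ]
    field_simp
    ring
  · have e1 : S.Ds (S.Ds S.A) p = _ :=
      ((Hφ.mul (Gf2.add (Gf1.mul Gf1))).congr hJ fun z hz => by rw [GA.s z hz]; ring).s p hp
    refine (hS.jet (GA.sm p hp)).of_eq (by rw [GA.s p hp, ehh p hp]) ?_
    have eb1 : b1 p = _ := Gb.s p hp
    rw [GA.t p hp, e1, GA.s p hp, hAφ, tf1, eb1, ehh p hp, ekk p hp, ea p hp, eb p hp, hA]
    ring
  · have hρ : (q - 1) / S.ρ p ^ 2 = E p := by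
      simp only [Data.ρ, hE]
      rw [mul_pow, sq_sqrt hq1.le, ← exp_nat_mul, div_mul_eq_div_div, div_self hq1.ne', one_div,
        ← exp_neg]
      congr 1
      push_cast; ring
    refine (hS.jet (sβ p hp)).of_eq rfl ?_
    have ec1 : c1 p = _ := Gc.s p hp
    have e2 : 2 * (q - 1) / S.ρ p ^ 2 = 2 * E p := by rw [← hρ]; ring
    have e3 : S.Ds (S.Ds S.β) p = u3 p := rfl
    have e4 : S.Ds S.β p = u2 p := rfl
    rw [tβ, e3, e4, hAφ, ec1, e2, ea p hp]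
    ring
  · have HU : HD S J S.U1 (fun z => a1 z + -1 * c1 z) (fun z => S.Dt S.a z + -1 * S.Dt S.c z) :=
      (Ka.add (Kc.cmul (-1))).congr hJ fun z _ => by simp only [Data.U1]; ring
    have e1 : S.Ds (S.Ds S.U1) p = _ := ((Ka1.add (Kc1.cmul (-1))).congr hJ HU.s).s p hp
    refine (hS.jet (HU.sm p hp)).of_eq rfl ?_
    have e4 : S.Ds S.β p = u2 p := rfl
    rw [HU.t p hp, e1, HU.s p hp, hAφ, ta, tc, bianchi2, evv p hp, ehh p hp, e4]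
    simp only [Data.U1, Data.U2]
    rw [hbi, ea p hp, eb p hp, ec p hp]
    ring
  · have HU : HD S J S.U2 (fun z => b1 z + -1 * c1 z) (fun z => S.Dt S.b z + -1 * S.Dt S.c z) :=
      (Kb.add (Kc.cmul (-1))).congr hJ fun z _ => by simp only [Data.U2]; ring
    have e1 : S.Ds (S.Ds S.U2) p = _ := ((Kb1.add (Kc1.cmul (-1))).congr hJ HU.s).s p hp
    refine (hS.jet (HU.sm p hp)).of_eq rfl ?_
    have e4 : S.Ds S.β p = u2 p := rfl
    have e5 : 2 * q * S.A p * S.vv p = 2 * q * (f1 p * S.β p) := by rw [← evv p hp]; ring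
    rw [HU.t p hp, e1, HU.s p hp, hAφ, tb, tc, e5, ehh p hp, ekk p hp, e4]
    simp only [Data.U1, Data.U2]
    rw [hbi, ea p hp, eb p hp, ec p hp]
    ring
  · have HU : HD S J S.R (fun z => a1 z + q * b1 z + 2 * c1 z)
        (fun z => S.Dt S.a z + q * S.Dt S.b z + 2 * S.Dt S.c z) :=
      ((Ka.add (Kb.cmul q)).add (Kc.cmul 2)).congr hJ fun z _ => rfl
    have e1 : S.Ds (S.Ds S.R) p = _ :=
      (((Ka1.add (Kb1.cmul q)).add (Kc1.cmul 2)).congr hJ HU.s).s p hp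
    refine (hS.jet (HU.sm p hp)).of_eq rfl ?_
    rw [HU.t p hp, e1, HU.s p hp, hAφ, ta, tb, tc, bianchi2, hbi, ea p hp, eb p hp, ec p hp]
    ring

end Sol

end Vale.Agent.P244Z.Q
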