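import Vale.Agent.P244Z.QDefs2

/-!
# P244, large `q` design: definitions for the analysis of the modes
-/

open Set Real Filter Topology MeasureTheory

namespace Vale.Agent.P244Z.Q

namespace Data

variable (S : Data) (K : Consts)

/-- derivative of `v` with respect to `X` -/
noncomputable def vX (p : ℝ × ℝ) : ℝ := S.Ds (S.v K) p / S.Ds S.X p

/-- second derivative of `v` with respect to `X` -/
noncomputable def vXX (p : ℝ × ℝ) : ℝ := S.Ds (S.vX K) p / S.Ds S.X p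

/-- derivative of `v` with respect to `τ = - log σ` at fixed `X` -/
noncomputable def vdot (p : ℝ × ℝ) : ℝ := S.σ p * (S.Dt (S.v K) p - S.vX K p * S.Dt S.X p)

/-- the Laguerre operator applied to `v` -/
noncomputable def Lv (p : ℝ × ℝ) : ℝ := S.X p * S.vXX K p + (K.nu - K.cc * S.X p) * S.vX K p

/-- the error in the linearised equation -/
noncomputable def err (p : ℝ × ℝ) : ℝ := S.vdot K p - (S.Lv K p / K.cc + 3 * S.v K p)

/-- the weighted integral over the half strip at time `t` -/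
noncomputable def I (F : ℝ × ℝ → ℝ) (t : ℝ) : ℝ :=
  ∫ θ in (0 : ℝ)..(π / 2), F (θ, t) * K.wgt (S.X (θ, t)) * d1 S.X (θ, t)

end Data

/-- The hypotheses at a fixed time under which `X` is a coordinate on the support of `v`. -/
structure Slice (K : Consts) (S : Data) (J : Set ℝ) (t : ℝ) : Prop where
  ok : K.OK
  q_eq : S.q = K.q
  sol : Sol S J
  mem : t ∈ J
  sg_pos : 0 < S.sg t
  mono : Mono K S t

/-- polynomial growth at `0` and at infinity -/
def Grow (e : ℝ → ℝ) (η : ℝ) : Prop := ∀ X, 0 < X → |e X| ≤ η * ((X ^ 8)⁻¹ + X ^ 12)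

/-- The class of functions of `X` to which the spectral estimates are applied. -/
structure Adm (V V1 V2 : ℝ → ℝ) : Prop where
  d1 : ∀ X, 0 < X → HasDerivAt V (V1 X) X
  d2 : ∀ X, 0 < X → HasDerivAt V1 (V2 X) X
  bd : ∃ C, ∀ X, 0 < X → |V X| ≤ C ∧ |V1 X| ≤ C / X
  bd2 : ∃ C, Grow V2 C
  supp : ∃ X0, ∀ X, X0 ≤ X → V X = 0 ∧ V1 X = 0 ∧ V2 X = 0

namespace Consts

variable (K : Consts)

/-- the weighted integral over `(0, ∞)` -/
noncomputable def W (f : ℝ → ℝ) : ℝ := ∫ X in Ioi (0 : ℝ), f X * K.wgt X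

/-- normalised projection onto the `j`-th mode -/
noncomputable def pr (j : ℕ) (f : ℝ → ℝ) : ℝ := K.W (fun X => f X * K.Lag j X) / √(K.hL j)

/-- squared norm of the stable part -/
noncomputable def st (f : ℝ → ℝ) : ℝ :=
  K.W (fun X => f X ^ 2) - ∑ j ∈ Finset.range 4, K.pr j f ^ 2

end Consts

/-- `F` at time `t`, as a function of `X`, by means of the inverse function `Θ`. -/
noncomputable def pull (K : Consts) (S : Data) (t : ℝ) (Θ : ℝ → ℝ) (F : ℝ × ℝ → ℝ) (Y : ℝ) : ℝ :=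
  if Y < K.δ ^ 2 / S.sg t then F (Θ Y, t) else 0

/-- `Θ` is the inverse of `θ ↦ X (θ, t)` on the part of the left half where `φ < δ`. -/
structure IsInv (K : Consts) (S : Data) (t : ℝ) (Θ : ℝ → ℝ) : Prop where
  left : ∀ θ ∈ Ioc 0 (π / 2), S.φ (θ, t) < K.δ → Θ (S.X (θ, t)) = θ
  right : ∀ Y ∈ Ioo 0 (K.δ ^ 2 / S.sg t),
    Θ Y ∈ Ioo 0 (π / 2) ∧ S.X (Θ Y, t) = Y ∧ S.φ (Θ Y, t) < K.δ
  cont : ContinuousOn Θ (Ioo 0 (K.δ ^ 2 / S.sg t))
  integral : ∀ F : ℝ × ℝ → ℝ, (∀ θ ∈ Ioc 0 (π / 2), K.δ ≤ S.φ (θ, t) → F (θ, t) = 0) →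
    S.I K F t = K.W (pull K S t Θ F)

end Vale.Agent.P244Z.Q
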