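import Vale.Agent.P244Z.QScale
import Vale.Agent.P244Z.QMDefs
import Vale.Agent.P244Z.QEvol

/-!
# P244, large `q` design: explicit formulas for `vX`, `vXX`, `vdot`, `err`
-/

open Set Real Filter Topology
open scoped ContDiff

namespace Vale.Agent.P244Z.Q

variable {S : Data} {J : Set ℝ} {K : Consts} {t1 : ℝ} {p : ℝ × ℝ}

/-- the cut-off as a function of `φ` -/
noncomputable def Consts.ze (K : Consts) (x : ℝ) : ℝ := 1 - cut (4 * x / K.δ)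

theorem contDiff_cut : ContDiff ℝ ∞ cut := by
  unfold cut
  exact Real.smoothTransition.contDiff.comp (contDiff_id.sub contDiff_const)

theorem Consts.ze_sm (K : Consts) : ContDiff ℝ ∞ K.ze :=
  contDiff_const.sub (contDiff_cut.comp ((contDiff_const.mul contDiff_id).div_const _))

theorem Consts.ze_sm1 (K : Consts) : ContDiff ℝ ∞ (deriv K.ze) := K.ze_sm.deriv'

theorem Consts.ze_sm2 (K : Consts) : ContDiff ℝ ∞ (deriv (deriv K.ze)) := K.ze_sm1.deriv'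

theorem Consts.ze_hd (K : Consts) (x : ℝ) : HasDerivAt K.ze (deriv K.ze x) x :=
  (K.ze_sm.differentiable (by simp) x).hasDerivAt

theorem Consts.ze_hd1 (K : Consts) (x : ℝ) : HasDerivAt (deriv K.ze) (deriv (deriv K.ze) x) x :=
  (K.ze_sm1.differentiable (by simp) x).hasDerivAt

theorem Consts.ze_abs (K : Consts) (x : ℝ) : |K.ze x| ≤ 1 := by
  have h1 := Real.smoothTransition.nonneg (4 * x / K.δ - 1)
  have h2 := Real.smoothTransition.le_one (4 * x / K.δ - 1)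
  unfold Consts.ze cut
  rw [abs_le]; constructor <;> linarith

theorem Consts.ze_one (hδ : 0 < K.δ) {x : ℝ} (hx : x ≤ K.δ / 4) : K.ze x = 1 := by
  unfold Consts.ze cut
  rw [Real.smoothTransition.zero_of_nonpos, sub_zero]
  rw [sub_nonpos, div_le_one hδ]; linarith

theorem Consts.ze_d1_zero (hδ : 0 < K.δ) {x : ℝ} (hx : x < K.δ / 4) : deriv K.ze x = 0 := by
  have h : K.ze =ᶠ[𝓝 x] fun _ => 1 := by
    filter_upwards [gt_mem_nhds hx] with y hy using Consts.ze_one hδ hy.le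
  rw [h.deriv_eq, deriv_const]

theorem Consts.ze_d2_zero (hδ : 0 < K.δ) {x : ℝ} (hx : x < K.δ / 4) :
    deriv (deriv K.ze) x = 0 := by
  have h : deriv K.ze =ᶠ[𝓝 x] fun _ => 0 := by
    filter_upwards [gt_mem_nhds hx] with y hy using Consts.ze_d1_zero hδ hy
  rw [h.deriv_eq, deriv_const]

theorem Consts.ze_bd (K : Consts) : ∃ C > 0, ∀ x ∈ Icc 0 K.δ,
    |deriv K.ze x| ≤ C ∧ |deriv (deriv K.ze) x| ≤ C := by
  obtain ⟨C1, h1⟩ := isCompact_Icc.exists_bound_of_continuousOn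
    (K.ze_sm1.continuous.continuousOn (s := Icc 0 K.δ))
  obtain ⟨C2, h2⟩ := isCompact_Icc.exists_bound_of_continuousOn
    (K.ze_sm2.continuous.continuousOn (s := Icc 0 K.δ))
  refine ⟨max 1 (max C1 C2), lt_max_of_lt_left one_pos, fun x hx => ⟨?_, ?_⟩⟩
  · exact (h1 x hx).trans ((le_max_left _ _).trans (le_max_right _ _))
  · exact (h2 x hx).trans ((le_max_right _ _).trans (le_max_right _ _))

/-- `ζ x^th` and its first two derivatives -/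
noncomputable def Consts.k0 (K : Consts) (x : ℝ) : ℝ := K.ze x * x ^ K.th
noncomputable def Consts.k1 (K : Consts) (x : ℝ) : ℝ :=
  (deriv K.ze x + K.th * K.ze x / x) * x ^ K.th
noncomputable def Consts.k2 (K : Consts) (x : ℝ) : ℝ :=
  (deriv (deriv K.ze) x + 2 * K.th * deriv K.ze x / x + K.th * (K.th - 1) * K.ze x / x ^ 2)
    * x ^ K.th

theorem Consts.k0_hd (K : Consts) {x : ℝ} (hx : 0 < x) : HasDerivAt K.k0 (K.k1 x) x := by
  refine ((K.ze_hd x).mul (hasDerivAt_rpow_const (Or.inl hx.ne'))).congr_deriv ?_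
  unfold Consts.k1
  rw [rpow_sub_one hx.ne']
  field_simp

theorem Consts.k1_hd (K : Consts) {x : ℝ} (hx : 0 < x) : HasDerivAt K.k1 (K.k2 x) x := by
  refine (((K.ze_hd1 x).add (((K.ze_hd x).const_mul K.th).div (hasDerivAt_id x) hx.ne')).mul
    (hasDerivAt_rpow_const (Or.inl hx.ne'))).congr_deriv ?_
  unfold Consts.k2
  simp only [Pi.add_apply, Pi.div_apply, id]
  rw [rpow_sub_one hx.ne']
  field_simp
  ring

namespace Data

variable (S : Data)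

/-- derivatives of `D` with respect to `x = φ` -/
noncomputable def Dx (p : ℝ × ℝ) : ℝ := 2 * S.β p * S.ρ p ^ 2 / S.A p - 2 * S.φ p
noncomputable def Dxx (p : ℝ × ℝ) : ℝ :=
  (2 * S.Ds S.β p * S.ρ p ^ 2 / S.A p + 4 * S.β p ^ 2 * S.ρ p ^ 2 / S.A p
    - 2 * S.β p * S.ρ p ^ 2 * (S.φ p * S.hh p) / S.A p ^ 2 - 2 * S.A p) / S.A p
noncomputable def Ddot (p : ℝ × ℝ) : ℝ :=
  2 * S.φ p ^ 2 * S.U2 p - 2 * S.c p * S.D p + S.b p * (S.φ p * S.Dx p)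

theorem v_eq (K : Consts) (p : ℝ × ℝ) : S.v K p = K.k0 (S.φ p) * S.D p / S.σ p ^ 3 := by
  unfold Data.v Consts.k0 Consts.ze Data.σ; ring

end Data

section slices

variable (hS : Sol S J) (θ : ℝ) {t : ℝ} (ht : t ∈ J)
include hS ht

theorem Sol.sl_φ : HasDerivAt (fun x => S.φ (x, t)) (S.l t * S.A (θ, t)) θ :=
  hS.hasDerivAt_slice hS.sm_φ θ ht

theorem Sol.sl_ρ : HasDerivAt (fun x => S.ρ (x, t)) (S.l t * (S.β (θ, t) * S.ρ (θ, t))) θ := by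
  refine ((hS.hasDerivAt_slice hS.sm_u θ ht).exp.const_mul (√((S.q : ℝ) - 1))).congr_deriv ?_
  unfold Data.ρ Data.β; ring

theorem Sol.sl_A : HasDerivAt (fun x => S.A (x, t)) (S.l t * (S.φ (θ, t) * S.hh (θ, t))) θ := by
  rw [hS.hh_eq θ t ht]; exact hS.hasDerivAt_slice hS.sm_A θ ht

theorem Sol.sl_β : HasDerivAt (fun x => S.β (x, t)) (S.l t * S.Ds S.β (θ, t)) θ :=
  hS.hasDerivAt_slice hS.sm_β θ ht

theorem Sol.sl_D (hA : S.A (θ, t) ≠ 0) :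
    HasDerivAt (fun x => S.D (x, t)) (S.l t * S.A (θ, t) * S.Dx (θ, t)) θ := by
  refine (((hS.sl_ρ θ ht).pow 2).sub ((hS.sl_φ θ ht).pow 2)).congr_deriv ?_
  unfold Data.Dx
  simp only [Nat.cast_ofNat, Nat.add_one_sub_one, pow_one]
  field_simp

theorem Sol.sl_Dx (hA : S.A (θ, t) ≠ 0) :
    HasDerivAt (fun x => S.Dx (x, t)) (S.l t * S.A (θ, t) * S.Dxx (θ, t)) θ := by
  refine (((((hS.sl_β θ ht).const_mul 2).mul ((hS.sl_ρ θ ht).pow 2)).div (hS.sl_A θ ht) hA).sub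
    ((hS.sl_φ θ ht).const_mul 2)).congr_deriv ?_
  unfold Data.Dxx
  simp only [Nat.cast_ofNat, Nat.add_one_sub_one, pow_one, Pi.mul_apply, Pi.pow_apply]
  field_simp
  ring

theorem Sol.Ds_X : S.Ds S.X (θ, t) = 2 * S.φ (θ, t) * S.A (θ, t) / S.sg t := by
  have h := (((hS.sl_φ θ ht).pow 2).div_const (S.sg t)).deriv
  have hl := (hS.l_pos t ht).ne'
  unfold Data.Ds d1
  change deriv (fun x => S.φ (x, t) ^ 2 / S.sg t) θ / S.l t = _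
  erw [h]
  simp only [Nat.cast_ofNat, Nat.add_one_sub_one, pow_one]
  field_simp

theorem Sol.Ds_v (K : Consts) (hθ : θ ∈ Ioo 0 π) (hA : S.A (θ, t) ≠ 0) :
    S.Ds (S.v K) (θ, t) = S.A (θ, t) * (K.k1 (S.φ (θ, t)) * S.D (θ, t)
      + K.k0 (S.φ (θ, t)) * S.Dx (θ, t)) / S.sg t ^ 3 := by
  have h := ((((K.k0_hd (hS.φ_pos θ hθ t ht)).comp θ (hS.sl_φ θ ht)).mul
    (hS.sl_D θ ht hA)).div_const (S.sg t ^ 3)).deriv
  have hl := (hS.l_pos t ht).ne'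
  unfold Data.Ds d1
  simp only [S.v_eq K]
  erw [h]
  simp only [Function.comp]
  field_simp

theorem Sol.vX_eq (K : Consts) (hθ : θ ∈ Ioo 0 π) (hA : S.A (θ, t) ≠ 0) (hσ : 0 < S.sg t) :
    S.vX K (θ, t) = (K.k1 (S.φ (θ, t)) * S.D (θ, t) + K.k0 (S.φ (θ, t)) * S.Dx (θ, t))
      / (2 * S.φ (θ, t) * S.sg t ^ 2) := by
  have hφ := (hS.φ_pos θ hθ t ht).ne'
  unfold Data.vX
  rw [hS.Ds_v θ ht K hθ hA, hS.Ds_X θ ht]
  field_simp

theorem Sol.vXX_eq (K : Consts) (hθ : θ ∈ Ioo 0 π) (hA : S.A (θ, t) ≠ 0) (hσ : 0 < S.sg t) :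
    S.vXX K (θ, t) = (S.φ (θ, t) * (K.k2 (S.φ (θ, t)) * S.D (θ, t)
      + 2 * K.k1 (S.φ (θ, t)) * S.Dx (θ, t) + K.k0 (S.φ (θ, t)) * S.Dxx (θ, t))
      - (K.k1 (S.φ (θ, t)) * S.D (θ, t) + K.k0 (S.φ (θ, t)) * S.Dx (θ, t)))
      / (4 * S.φ (θ, t) ^ 3 * S.sg t) := by
  have hφ' := hS.φ_pos θ hθ t ht
  have hφ := hφ'.ne'
  have hl := (hS.l_pos t ht).ne'
  have he : (fun x => S.vX K (x, t)) =ᶠ[𝓝 θ] fun x =>
      (K.k1 (S.φ (x, t)) * S.D (x, t) + K.k0 (S.φ (x, t)) * S.Dx (x, t))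
        / (2 * S.φ (x, t) * S.sg t ^ 2) := by
    filter_upwards [isOpen_Ioo.mem_nhds hθ, (hS.sl_A θ ht).continuousAt.eventually_ne hA]
      with x hx1 hx2 using hS.vX_eq x ht K hx1 hx2 hσ
  have h := (((((K.k1_hd hφ').comp θ (hS.sl_φ θ ht)).mul (hS.sl_D θ ht hA)).add
    (((K.k0_hd hφ').comp θ (hS.sl_φ θ ht)).mul (hS.sl_Dx θ ht hA))).div
    (((hS.sl_φ θ ht).const_mul 2).mul_const (S.sg t ^ 2)) (by positivity)).deriv
  unfold Data.vXX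
  rw [hS.Ds_X θ ht]
  unfold Data.Ds d1
  rw [he.deriv_eq]
  erw [h]
  simp only [Function.comp, Pi.add_apply, Pi.mul_apply]
  field_simp
  ring

end slices

theorem Sol.vdot_eq (hS : Sol S J) (_hq : 2 ≤ S.q) (K : Consts) {θ t : ℝ} (hθ : θ ∈ Ioo 0 π)
    (ht : t ∈ J) (h0 : 0 < t) (hA : S.A (θ, t) ≠ 0) (hσ : 0 < S.sg t) :
    S.vdot K (θ, t) = 3 * S.v K (θ, t) - S.X (θ, t) * S.vX K (θ, t)
      + K.k0 (S.φ (θ, t)) * S.Ddot (θ, t) / S.sg t ^ 2 := by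
  have hφ' := hS.φ_pos θ hθ t ht
  have hφ := hφ'.ne'
  have hl := (hS.l_pos t ht).ne'
  have hσ' := hσ.ne'
  have tφ : HasDerivAt (fun s => S.φ (θ, s)) (d2 S.φ (θ, t)) t :=
    hda_d2 (hS.contDiffAt (p := (θ, t)) hS.sm_φ ht h0)
  have tu : HasDerivAt (fun s => S.u (θ, s)) (d2 S.u (θ, t)) t :=
    hda_d2 (hS.contDiffAt (p := (θ, t)) hS.sm_u ht h0)
  have tρ : HasDerivAt (fun s => S.ρ (θ, s)) (S.ρ (θ, t) * d2 S.u (θ, t)) t := by
    refine (tu.exp.const_mul (√((S.q : ℝ) - 1))).congr_deriv ?_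
    unfold Data.ρ; ring
  have tσ : HasDerivAt S.sg (-S.l t ^ 2) t := by
    rw [← hS.eq_sg t ht h0]
    exact ((hS.sm_sg.contDiffAt (hS.time.mem_nhds ht h0)).differentiableAt (by simp)).hasDerivAt
  have eφ : d2 S.φ (θ, t) = S.V (θ, t) * (S.l t * S.A (θ, t))
      - S.l t ^ 2 * (S.b (θ, t) * S.φ (θ, t)) := by
    have h1 := hS.eq_φ θ hθ t ht h0
    have h2 : d1 S.φ (θ, t) = S.l t * S.A (θ, t) := (hS.sl_φ θ ht).deriv
    unfold Data.Dt at h1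
    rw [h2, div_eq_iff (pow_ne_zero 2 hl)] at h1
    linarith
  have eu : d2 S.u (θ, t) = S.V (θ, t) * (S.l t * S.β (θ, t)) - S.l t ^ 2 * S.c (θ, t) := by
    have h1 := hS.eq_u θ hθ t ht h0
    have h2 : d1 S.u (θ, t) = S.l t * S.β (θ, t) := (hS.hasDerivAt_slice hS.sm_u θ ht).deriv
    unfold Data.Dt at h1
    rw [h2, div_eq_iff (pow_ne_zero 2 hl)] at h1
    linarith
  have tv := ((((K.k0_hd hφ').comp t tφ).mul ((tρ.pow 2).sub (tφ.pow 2))).div (tσ.pow 3)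
    (pow_ne_zero 3 hσ')).deriv
  have tX := ((tφ.pow 2).div tσ hσ').deriv
  have e1 : d1 (S.v K) (θ, t) = S.l t * S.Ds (S.v K) (θ, t) := by
    unfold Data.Ds; field_simp
  have e2 : d1 S.X (θ, t) = S.l t * S.Ds S.X (θ, t) := by
    unfold Data.Ds; field_simp
  have hv : (fun s => S.v K (θ, s)) = fun s => K.k0 (S.φ (θ, s)) * S.D (θ, s) / S.sg s ^ 3 :=
    funext fun s => S.v_eq K _
  have e3 : d2 (S.v K) (θ, t) = _ := (congrArg (fun f => deriv f t) hv).trans tv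
  have e4 : d2 S.X (θ, t) = _ := tX
  unfold Data.vdot Data.Dt
  rw [e1, e2, e3, e4, hS.vX_eq θ ht K hθ hA hσ, hS.Ds_v θ ht K hθ hA, hS.Ds_X θ ht, S.v_eq K, eφ, eu]
  simp only [Function.comp, Pi.sub_apply, Pi.mul_apply, Pi.pow_apply, Nat.cast_ofNat,
    Nat.add_one_sub_one, pow_one]
  unfold Data.Ddot Data.Dx Data.D Data.U2 Data.X Data.σ
  field_simp
  ring

/-- the second order part of the equation of `D` in the coordinate `x = φ` -/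
theorem Alg.W_eq (ha : Alg S p) (hA : S.A p ≠ 0) :
    S.A p ^ 2 * (S.Dxx p - 3 * S.Dx p / S.φ p + 4 * S.D p / S.φ p ^ 2)
      = S.Ddot p - ((S.q : ℝ) - 1) * (S.φ p * S.Dx p) / S.φ p ^ 2
        + 4 * S.P p ^ 2 * (S.ρ p ^ 2 / S.φ p ^ 2) := by
  have hρ := ha.ρ_pos.ne'
  have hφ := ha.φ_pos.ne'
  have h1 : S.kk p = (1 - S.A p ^ 2) / S.φ p ^ 2 := by
    rw [eq_div_iff (pow_ne_zero 2 hφ), mul_comm]; exact ha.kk_eq
  have h2 : S.vv p = S.β p / S.φ p := by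
    rw [eq_div_iff hφ, mul_comm]; exact ha.vv_eq
  unfold Data.Ddot Data.U2
  rw [ha.c_eq]
  unfold Data.Dxx Data.Dx Data.D Data.P Data.b
  rw [h1, h2]
  field_simp
  ring

theorem Alg.φDx_eq (_ha : Alg S p) (hA : S.A p ≠ 0) :
    S.φ p * S.Dx p = 2 * S.D p + 2 * S.P p * S.ρ p ^ 2 / S.A p := by
  unfold Data.Dx Data.D Data.P
  field_simp
  ring

theorem Sol.err_eq (hS : Sol S J) (hK : K.OK) (hq : S.q = K.q) {θ t : ℝ} (hθ : θ ∈ Ioo 0 π)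
    (ht : t ∈ J) (h0 : 0 < t) (hA : S.A (θ, t) ≠ 0) (hσ : 0 < S.sg t) :
    S.sg t ^ 2 * S.err K (θ, t) = S.φ (θ, t) ^ K.th * (K.ze (S.φ (θ, t)) *
      (S.Z (θ, t) * (S.Dxx (θ, t) - 3 * S.Dx (θ, t) / S.φ (θ, t) + 4 * S.D (θ, t) / S.φ (θ, t) ^ 2)
        - 4 * S.P (θ, t) ^ 2 * (S.ρ (θ, t) ^ 2 / S.φ (θ, t) ^ 2))
      - ((K.q : ℝ) - 1) / ((K.q : ℝ) + 1) * (deriv (deriv K.ze) (S.φ (θ, t)) * S.D (θ, t)
        + 2 * deriv K.ze (S.φ (θ, t)) * S.Dx (θ, t)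
        + ((K.q : ℝ) - 2) * deriv K.ze (S.φ (θ, t)) * S.D (θ, t) / S.φ (θ, t))) := by
  have hq2 : 2 ≤ S.q := by rw [hq]; exact le_trans (by norm_num) hK.q_ge
  have ha := hS.alg (p := (θ, t)) hq2 hθ ht
  have hW := ha.W_eq hA
  have hφ := ha.φ_pos.ne'
  have hσ' := hσ.ne'
  have hqr := hK.q_ge'
  have hq1 : (K.q : ℝ) - 1 ≠ 0 := by linarith
  have hq3 : (K.q : ℝ) + 1 ≠ 0 := by linarith
  have hD : S.Ddot (θ, t) = S.A (θ, t) ^ 2 *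
      (S.Dxx (θ, t) - 3 * S.Dx (θ, t) / S.φ (θ, t) + 4 * S.D (θ, t) / S.φ (θ, t) ^ 2)
      + ((K.q : ℝ) - 1) * (S.φ (θ, t) * S.Dx (θ, t)) / S.φ (θ, t) ^ 2
      - 4 * S.P (θ, t) ^ 2 * (S.ρ (θ, t) ^ 2 / S.φ (θ, t) ^ 2) := by
    rw [hW, hq]; ring
  have hth : (4 : ℝ) = ((K.q : ℝ) - 3) * K.th - K.th ^ 2 := by have := hK.th_eq; linarith
  have key : S.sg t ^ 2 * S.err K (θ, t) - S.φ (θ, t) ^ K.th * (K.ze (S.φ (θ, t)) *
      (S.Z (θ, t) * (S.Dxx (θ, t) - 3 * S.Dx (θ, t) / S.φ (θ, t) + 4 * S.D (θ, t) / S.φ (θ, t) ^ 2)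
        - 4 * S.P (θ, t) ^ 2 * (S.ρ (θ, t) ^ 2 / S.φ (θ, t) ^ 2))
      - ((K.q : ℝ) - 1) / ((K.q : ℝ) + 1) * (deriv (deriv K.ze) (S.φ (θ, t)) * S.D (θ, t)
        + 2 * deriv K.ze (S.φ (θ, t)) * S.Dx (θ, t)
        + ((K.q : ℝ) - 2) * deriv K.ze (S.φ (θ, t)) * S.D (θ, t) / S.φ (θ, t)))
      = ((K.q : ℝ) - 1) / ((K.q : ℝ) + 1) * S.φ (θ, t) ^ K.th * K.ze (S.φ (θ, t)) * S.D (θ, t)
        / S.φ (θ, t) ^ 2 * (K.th ^ 2 - ((K.q : ℝ) - 3) * K.th + 4) := by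
    unfold Data.err Data.Lv
    rw [hS.vdot_eq hq2 K hθ ht h0 hA hσ, hS.vXX_eq θ ht K hθ hA hσ, hS.vX_eq θ ht K hθ hA hσ, hD]
    unfold Data.Z Data.X Consts.k0 Consts.k1 Consts.k2 Consts.nu Consts.cc
    rw [hq]
    field_simp
    ring
  rw [hK.th_eq, mul_zero] at key
  linarith

end Vale.Agent.P244Z.Q
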