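import Vale.Agent.P244Z.QEvol0

/-!
# P244, large `q` design: the evolution equations
-/

open Set Real Filter Topology
open scoped ContDiff

namespace Vale.Agent.P244Z.Q

namespace EvolAux

variable {p : ℝ × ℝ} {S : Data} {J : Set ℝ}

theorem box_φ (hS : Sol S J) (hp : p ∈ Om J) :
    box S S.φ p = -(S.A p ^ 2 + (S.q : ℝ) - 1) / S.φ p := by
  have hφ := (φ_pos hS hp).ne'
  have e : S.Dt S.φ p = -S.b p * S.φ p := hS.eq_φ p.1 hp.1 p.2 hp.2.1 hp.2.2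
  rw [box, e, Data.b, kk_eq hS hp, vv_eq hS hp, hh_eq hS hp]
  change _ - S.Ds S.A p - _ * S.A p = _
  field_simp
  ring

theorem box_u (hS : Sol S J) (hp : p ∈ Om J) : box S S.u p = -exp (-2 * S.u p) := by
  have hφ := (φ_pos hS hp).ne'
  have e : S.Dt S.u p = -S.c p := hS.eq_u p.1 hp.1 p.2 hp.2.1 hp.2.2
  rw [box, e, Data.c, vv_eq hS hp]
  change _ - S.Ds S.β p - _ * S.β p = _
  field_simp
  ring

theorem jφ (hS : Sol S J) (hp : p ∈ Om J) :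
    HasJet (S.fr p) S.φ p (S.A p) (-(S.A p ^ 2 + (S.q : ℝ) - 1) / S.φ p) :=
  HasJet.of_eq (jet (S := S) (sm_φ hS hp)) rfl (box_φ hS hp)

theorem ju (hS : Sol S J) (hp : p ∈ Om J) :
    HasJet (S.fr p) S.u p (S.β p) (-exp (-2 * S.u p)) :=
  HasJet.of_eq (jet (S := S) (sm_u hS hp)) rfl (box_u hS hp)

/-- the jet of `exp (-2 u)` -/
theorem je (hS : Sol S J) (hp : p ∈ Om J) :
    HasJet (S.fr p) (fun y => exp (-2 * S.u y)) p (-2 * S.β p * exp (-2 * S.u p))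
      (2 * exp (-2 * S.u p) ^ 2 - 4 * S.β p ^ 2 * exp (-2 * S.u p)) :=
  ((ju hS hp).const_mul (-2)).exp.of_eq (by ring) (by ring)

theorem box_A (hS : Sol S J) (hp : p ∈ Om J) :
    box S S.A p = -2 * S.A p * (S.Ds S.A p / S.φ p)
      + S.A p * (((S.q : ℝ) - 1) * ((1 - S.A p ^ 2) / S.φ p ^ 2) - 2 * S.β p ^ 2) := by
  have hφ := (φ_pos hS hp).ne'
  have jA := jet (S := S) (sm_A hS hp)
  have j := HasJet.div (((HasJet.sq jA).add_const (S.q : ℝ)).sub_const 1).neg (jφ hS hp) hφ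
  have e := jet_step hS hp (sm_φ hS hp) (fun y hy => box_φ hS hy) j
  change box S S.A p = _ - _ * S.A p at e
  rw [e]
  field_simp
  ring

theorem box_β (hS : Sol S J) (hp : p ∈ Om J) :
    box S S.β p = S.β p * (-(S.q : ℝ) * (S.A p / S.φ p) ^ 2 - 2 * S.β p ^ 2
      + 2 * exp (-2 * S.u p)) := by
  have e := jet_step hS hp (sm_u hS hp) (fun y hy => box_u hS hy) (je hS hp).neg
  change box S S.β p = _ - _ * S.β p at e
  rw [e]
  ring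

theorem jA (hS : Sol S J) (hp : p ∈ Om J) :
    HasJet (S.fr p) S.A p (S.Ds S.A p) (-2 * S.A p * (S.Ds S.A p / S.φ p)
      + S.A p * (((S.q : ℝ) - 1) * ((1 - S.A p ^ 2) / S.φ p ^ 2) - 2 * S.β p ^ 2)) :=
  HasJet.of_eq (jet (S := S) (sm_A hS hp)) rfl (box_A hS hp)

theorem jβ (hS : Sol S J) (hp : p ∈ Om J) :
    HasJet (S.fr p) S.β p (S.Ds S.β p) (S.β p * (-(S.q : ℝ) * (S.A p / S.φ p) ^ 2 - 2 * S.β p ^ 2
      + 2 * exp (-2 * S.u p))) :=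
  HasJet.of_eq (jet (S := S) (sm_β hS hp)) rfl (box_β hS hp)

theorem jA1 (hS : Sol S J) (hp : p ∈ Om J) :
    HasJet (S.fr p) (S.Ds S.A) p (S.Ds (S.Ds S.A) p)
      (-2 * S.A p * S.Ds (S.Ds S.A) p / S.φ p - 2 * S.Ds S.A p ^ 2 / S.φ p
        + 2 * S.A p ^ 2 * S.Ds S.A p / S.φ p ^ 2
        + ((S.q : ℝ) - 1) * ((1 - 3 * S.A p ^ 2) * S.Ds S.A p / S.φ p ^ 2
          - 2 * S.A p ^ 2 * (1 - S.A p ^ 2) / S.φ p ^ 3)
        - 4 * S.A p * S.β p * S.Ds S.β p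
        - ((S.q : ℝ) * (S.A p / S.φ p) ^ 2 + 4 * S.β p ^ 2) * S.Ds S.A p) := by
  have hφ := (φ_pos hS hp).ne'
  have j1 := jet (S := S) (sm_Ds hS hp (sm_A hS hp))
  have j := (((jA hS hp).const_mul (-2)).mul (HasJet.div j1 (jφ hS hp) hφ)).add
    ((jA hS hp).mul (((((jA hS hp).sq.const_sub 1).div (jφ hS hp).sq
      (pow_ne_zero 2 hφ)).const_mul ((S.q : ℝ) - 1)).sub ((jβ hS hp).sq.const_mul 2)))
  have e := jet_step hS hp (sm_A hS hp) (fun y hy => box_A hS hy) j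
  refine HasJet.of_eq j1 rfl ?_
  rw [e]
  field_simp
  ring

theorem jβ1 (hS : Sol S J) (hp : p ∈ Om J) :
    HasJet (S.fr p) (S.Ds S.β) p (S.Ds (S.Ds S.β) p)
      (S.Ds S.β p * (-2 * (S.q : ℝ) * (S.A p / S.φ p) ^ 2 - 8 * S.β p ^ 2 + 2 * exp (-2 * S.u p))
        - 2 * (S.q : ℝ) * S.β p * (S.A p / S.φ p) * (S.Ds S.A p / S.φ p - (S.A p / S.φ p) ^ 2)
        - 4 * S.β p ^ 2 * exp (-2 * S.u p)) := by
  have hφ := (φ_pos hS hp).ne'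
  have j1 := jet (S := S) (sm_Ds hS hp (sm_β hS hp))
  have j := (jβ hS hp).mul ((((((jA hS hp).div (jφ hS hp) hφ).sq).const_mul (-(S.q : ℝ))).sub
    ((jβ hS hp).sq.const_mul 2)).add ((je hS hp).const_mul 2))
  have e := jet_step hS hp (sm_β hS hp) (fun y hy => box_β hS hy) j
  refine HasJet.of_eq j1 rfl ?_
  rw [e]
  field_simp
  ring

theorem a_eq (hS : Sol S J) (hp : p ∈ Om J) :
    S.a p = -(S.q : ℝ) * (S.Ds S.A p / S.φ p) - 2 * (S.Ds S.β p + S.β p ^ 2) := by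
  rw [Data.a, hh_eq hS hp]

theorem b_eq (hS : Sol S J) (hp : p ∈ Om J) :
    S.b p = -(S.Ds S.A p / S.φ p) - 2 * (S.A p * S.β p / S.φ p)
      + ((S.q : ℝ) - 1) * ((1 - S.A p ^ 2) / S.φ p ^ 2) := by
  rw [Data.b, hh_eq hS hp, vv_eq hS hp, kk_eq hS hp]; ring

theorem c_eq (hS : Sol S J) (hp : p ∈ Om J) :
    S.c p = -S.Ds S.β p - (S.q : ℝ) * (S.A p * S.β p / S.φ p) - 2 * S.β p ^ 2
      + exp (-2 * S.u p) := by
  rw [Data.c, vv_eq hS hp]; ring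

theorem jet_congr (hS : Sol S J) (hp : p ∈ Om J) {F G : ℝ × ℝ → ℝ} {s b : ℝ}
    (j : HasJet (S.fr p) G p s b) (h : ∀ y ∈ Om J, F y = G y) : S.Jet F p (S.Ds F p) b :=
  jet_Ds (j.congr' (by filter_upwards [Om_nhds hS.time hp] with y hy using h y hy))

theorem ja (hS : Sol S J) (hp : p ∈ Om J) :
    S.Jet S.a p (S.Ds S.a p)
      (-2 * (S.q : ℝ) * (S.A p / S.φ p) ^ 2 * (S.a p - S.b p) - 4 * S.β p ^ 2 * (S.a p - S.c p)
        - 2 * (S.q : ℝ) * S.hh p * S.b p - 4 * (S.Ds S.β p + S.β p ^ 2) * S.c p) := by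
  have hφ := (φ_pos hS hp).ne'
  have j := (((jA1 hS hp).div (jφ hS hp) hφ).const_mul (-(S.q : ℝ))).sub
    (((jβ1 hS hp).add (jβ hS hp).sq).const_mul 2)
  refine HasJet.of_eq (jet_congr hS hp j (fun y hy => a_eq hS hy)) rfl ?_
  rw [a_eq hS hp, b_eq hS hp, c_eq hS hp, hh_eq hS hp]
  field_simp
  ring

theorem jb (hS : Sol S J) (hp : p ∈ Om J) :
    S.Jet S.b p (S.Ds S.b p)
      (2 * (S.A p / S.φ p) ^ 2 * (S.a p - S.b p) - 2 * S.hh p * S.a p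
        + 2 * ((S.q : ℝ) - 1) * S.kk p * S.b p - 4 * S.A p * S.vv p * S.c p) := by
  have hφ := (φ_pos hS hp).ne'
  have j := (((jA1 hS hp).div (jφ hS hp) hφ).neg.sub
    ((((jA hS hp).mul (jβ hS hp)).div (jφ hS hp) hφ).const_mul 2)).add
    (((((jA hS hp).sq.const_sub 1).div (jφ hS hp).sq
      (pow_ne_zero 2 hφ)).const_mul ((S.q : ℝ) - 1)))
  refine HasJet.of_eq (jet_congr hS hp j (fun y hy => b_eq hS hy)) rfl ?_
  rw [a_eq hS hp, b_eq hS hp, c_eq hS hp, hh_eq hS hp, kk_eq hS hp, vv_eq hS hp]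
  field_simp
  ring

theorem jc (hS : Sol S J) (hp : p ∈ Om J) :
    S.Jet S.c p (S.Ds S.c p)
      (2 * S.β p ^ 2 * (S.a p - S.c p) - 2 * (S.Ds S.β p + S.β p ^ 2) * S.a p
        - 2 * (S.q : ℝ) * S.A p * S.vv p * S.b p
        + 2 * (exp (-2 * S.u p) - S.β p ^ 2) * S.c p) := by
  have hφ := (φ_pos hS hp).ne'
  have j := (((jβ1 hS hp).neg.sub
    ((((jA hS hp).mul (jβ hS hp)).div (jφ hS hp) hφ).const_mul (S.q : ℝ))).sub
    ((jβ hS hp).sq.const_mul 2)).add (je hS hp)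
  refine HasJet.of_eq (jet_congr hS hp j (fun y hy => c_eq hS hy)) rfl ?_
  rw [a_eq hS hp, b_eq hS hp, c_eq hS hp, vv_eq hS hp]
  field_simp
  ring

theorem ρ_sq (hq : 2 ≤ S.q) (p : ℝ × ℝ) :
    0 < S.ρ p ∧ ((S.q : ℝ) - 1) / S.ρ p ^ 2 = exp (-2 * S.u p) := by
  have h2 : (2 : ℝ) ≤ S.q := by exact_mod_cast hq
  have h1 : (0 : ℝ) < (S.q : ℝ) - 1 := by linarith
  have hρ : 0 < S.ρ p := mul_pos (sqrt_pos.2 h1) (exp_pos _)
  refine ⟨hρ, ?_⟩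
  rw [div_eq_iff (pow_ne_zero 2 hρ.ne'), Data.ρ, mul_pow, sq_sqrt h1.le, ← exp_nat_mul,
    mul_left_comm, ← exp_add]
  simp

end EvolAux

end Vale.Agent.P244Z.Q
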