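import Vale.Agent.P244Z.Ex.Exist
import Vale.Agent.P244Z.Boot4

/-!
# P244: the block EXIST
-/

open Set Real Filter Topology
open scoped ContDiff

namespace Vale.Agent.P244Z.Q

theorem exist : ExistSt := by
  intro q _ s0 l0 φ0 u0 w h
  have h1 := h.sm_u
  have h2 := h.sm_w
  obtain ⟨S, J, hS, hJ, hc, hm⟩ := Ex.exist (P := Fin 3 → ℝ) q s0
    (u0 := fun z => u0 z.2 + ∑ j, z.1 j * w j z.2) h.l_pos h.sm_φ (by fun_prop) h.φ_odd h.φ_sym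
    (fun a θ => by simp only [h.u_even, h.w_even]) (fun a θ => by simp only [h.u_sym, h.w_sym])
    h.φ_pos h.φ_deriv
  refine ⟨S, J, fun a => ?_, hJ, hc, fun a hb ⟨B, hB⟩ => hm a hb ⟨B, fun θ hθ t ht => ?_⟩⟩
  · obtain ⟨k1, k2, k3, k4, k5, k6⟩ := hS a
    exact ⟨k1, k2, k3, k4, k5, k6⟩
  · obtain ⟨-, -, k1, k2, k3, -, k4⟩ := hB θ hθ t ht
    exact ⟨k1, k2, k3, k4⟩

end Vale.Agent.P244Z.Q
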