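import Vale.Agent.P244Z.QCalc
import Vale.Agent.P244Z.Flow.Ode
import Vale.Agent.P244Z.GeoIface
import Mathlib.Analysis.Calculus.InverseFunctionTheorem.ContDiff
import Mathlib.Analysis.Calculus.Deriv.Inverse

/-!
# P244: from the gauge modified normalised flow to the Ricci flow in a fixed coordinate
-/

open Set Real Filter Topology
open scoped ContDiff

namespace Vale.Agent.P244Z.Q

variable {S : Data} {J : Set ℝ}

/-- a smooth left inverse -/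
theorem contDiffAt_leftInv {f g : ℝ → ℝ} {a c : ℝ} (hf : ContDiffAt ℝ ∞ f a)
    (hd : HasDerivAt f c a) (hc : c ≠ 0) (hg : ∀ᶠ x in 𝓝 a, g (f x) = x) :
    ContDiffAt ℝ ∞ g (f a) := by
  have h1 := hd.hasFDerivAt_equiv hc
  have h2 := hf.to_localInverse h1 (by simp)
  exact h2.congr_of_eventuallyEq ((hf.hasStrictFDerivAt' h1 (by simp)).localInverse_unique hg)

/-- the normalised time as a function of the physical time -/
theorem Sol.exists_time (hS : Sol S J) (hsg : ∀ t ∈ J, 0 ≤ S.sg t) :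
    ∃ T > 0, ∃ g : ℝ → ℝ, (∀ s ∈ Ioo 0 T, g s ∈ J ∧ 0 < g s ∧ ContDiffAt ℝ ∞ g s ∧
      HasDerivAt g (S.l (g s) ^ 2)⁻¹ s) ∧
      ∀ s0 < T, ∃ t0 ∈ J, ∀ t ∈ J, t0 ≤ t → ∃ s ∈ Ioo 0 T, s0 < s ∧ g s = t := by
  set τ : ℝ → ℝ := fun t => S.sg 0 - S.sg t with hτ
  have hm : StrictMonoOn τ J := fun a ha b hb hab => by
    have := hS.sg_strictAnti ha hb hab
    simp only [hτ]; linarith
  have h0 : τ 0 = 0 := by simp [hτ]
  have hbd : BddAbove (τ '' J) := ⟨S.sg 0, by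
    rintro _ ⟨t, ht, rfl⟩
    have := hsg t ht
    simp only [hτ]; linarith⟩
  have hne : (τ '' J).Nonempty := ⟨_, mem_image_of_mem _ hS.time.zero_mem⟩
  have hlt : ∀ t ∈ J, τ t < sSup (τ '' J) := fun t ht => by
    obtain ⟨t', ht', h⟩ := hS.time.up t ht
    exact (hm ht ht' h).trans_le (le_csSup hbd (mem_image_of_mem _ ht'))
  have hcont : ContinuousOn τ J := continuousOn_const.sub hS.sm_sg.continuousOn
  have hsurj : ∀ s ∈ Ioo 0 (sSup (τ '' J)), ∃ t ∈ J, 0 < t ∧ τ t = s := fun s hs => by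
    obtain ⟨_, ⟨t, ht, rfl⟩, h⟩ := exists_lt_of_lt_csSup hne hs.2
    have ht0 := hS.time.nonneg t ht
    obtain ⟨x, hx, hx'⟩ := intermediate_value_Ioo ht0 (hcont.mono (hS.time.down t ht))
      (show s ∈ Ioo (τ 0) (τ t) from ⟨by rw [h0]; exact hs.1, h⟩)
    exact ⟨x, hS.time.down t ht (Ioo_subset_Icc_self hx), hx.1, hx'⟩
  have hinv : ∀ t ∈ J, Function.invFunOn τ J (τ t) = t := fun t ht =>
    hm.injOn.leftInvOn_invFunOn ht
  refine ⟨sSup (τ '' J), by simpa [h0] using hlt 0 hS.time.zero_mem, Function.invFunOn τ J,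
    fun s hs => ?_, fun s0 hs0 => ?_⟩
  · obtain ⟨t, ht, ht0, rfl⟩ := hsurj s hs
    have hsm : ContDiffAt ℝ ∞ S.sg t := hS.sm_sg.contDiffAt (hS.time.mem_nhds ht ht0)
    have hd : HasDerivAt τ (S.l t ^ 2) t := by
      have := ((hsm.differentiableAt (by simp)).hasDerivAt).const_sub (S.sg 0)
      rw [hS.eq_sg t ht ht0, neg_neg] at this
      exact this
    have hl : S.l t ^ 2 ≠ 0 := pow_ne_zero 2 (hS.l_pos t ht).ne'
    have hg : ContDiffAt ℝ ∞ (Function.invFunOn τ J) (τ t) :=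
      contDiffAt_leftInv (contDiffAt_const.sub hsm) hd hl
        (mem_of_superset (hS.time.mem_nhds ht ht0) hinv)
    rw [hinv t ht]
    refine ⟨ht, ht0, hg, HasDerivAt.of_local_left_inverse (f := τ) hg.continuousAt ?_ hl ?_⟩
    · rw [hinv t ht]; exact hd
    · filter_upwards [Ioo_mem_nhds hs.1 hs.2] with y hy
      obtain ⟨x, hx, -, rfl⟩ := hsurj y hy
      rw [hinv x hx]
  · obtain ⟨_, ⟨t, ht, rfl⟩, h⟩ := exists_lt_of_lt_csSup hne hs0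
    obtain ⟨t', ht', h'⟩ := hS.time.up t ht
    refine ⟨t', ht', fun x hx hx' => ⟨τ x, ⟨?_, hlt x hx⟩, ?_, hinv x hx⟩⟩
    · rw [← h0]
      exact hm hS.time.zero_mem hx ((hS.time.nonneg t ht).trans_lt (h'.trans_le hx'))
    · exact h.trans (hm ht hx (h'.trans_le hx'))

/-- `Θ` is the flow of `-V` and `g` the change of time. -/
structure Chart (S : Data) (J : Set ℝ) (T : ℝ) (g : ℝ → ℝ) (Θ : ℝ × ℝ → ℝ) : Prop where
  mem : ∀ s ∈ Ioo 0 T, g s ∈ J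
  pos : ∀ s ∈ Ioo 0 T, 0 < g s
  sm_g : ∀ s ∈ Ioo 0 T, ContDiffAt ℝ ∞ g s
  dg : ∀ s ∈ Ioo 0 T, HasDerivAt g (S.l (g s) ^ 2)⁻¹ s
  sm : ∀ r, ∀ s ∈ Ioo 0 T, ContDiffAt ℝ ∞ Θ (r, g s)
  dt : ∀ r, ∀ s ∈ Ioo 0 T, HasDerivAt (fun t => Θ (r, t)) (-S.V (Θ (r, g s), g s)) (g s)
  odd : ∀ r, ∀ s ∈ Ioo 0 T, Θ (-r, g s) = -Θ (r, g s)
  sym : ∀ r, ∀ s ∈ Ioo 0 T, Θ (π - r, g s) = π - Θ (r, g s)
  ioo : ∀ r ∈ Ioo 0 π, ∀ s ∈ Ioo 0 T, Θ (r, g s) ∈ Ioo 0 π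
  dpos : ∀ r, ∀ s ∈ Ioo 0 T, 0 < d1 Θ (r, g s)
  ddt : ∀ r, ∀ s ∈ Ioo 0 T, HasDerivAt (fun t => d1 Θ (r, t))
    (-d1 S.V (Θ (r, g s), g s) * d1 Θ (r, g s)) (g s)

/-- a function on the strip, read in the fixed coordinate and the physical time -/
def fpull (g : ℝ → ℝ) (Θ F : ℝ × ℝ → ℝ) (s r : ℝ) : ℝ := F (Θ (r, g s), g s)

/-- the radial coefficient of the metric in the fixed coordinate -/
noncomputable def pchi (S : Data) (g : ℝ → ℝ) (Θ : ℝ × ℝ → ℝ) (s r : ℝ) : ℝ :=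
  S.l (g s) * d1 Θ (r, g s)

variable {T : ℝ} {g : ℝ → ℝ} {Θ F : ℝ × ℝ → ℝ}

theorem Chart.sm_pt (h : Chart S J T g Θ) {z : ℝ × ℝ} (hz : z.1 ∈ Ioo 0 T) :
    ContDiffAt ℝ ∞ (fun z : ℝ × ℝ => ((z.2, g z.1) : ℝ × ℝ)) z :=
  contDiffAt_snd.prodMk (ContDiffAt.comp z (g := g) (f := Prod.fst) (h.sm_g _ hz) contDiffAt_fst)

theorem Chart.sm_pull (h : Chart S J T g Θ) (hS : Sol S J) (hF : ContDiffOn ℝ ∞ F (univ ×ˢ J)) :
    ContDiffOn ℝ ∞ (fun z : ℝ × ℝ => fpull g Θ F z.1 z.2) (Ioo 0 T ×ˢ univ) := by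
  intro z hz
  have h1 : ContDiffAt ℝ ∞ (fun z : ℝ × ℝ => Θ (z.2, g z.1)) z :=
    ContDiffAt.comp z (g := Θ) (f := fun z : ℝ × ℝ => ((z.2, g z.1) : ℝ × ℝ)) (h.sm _ _ hz.1)
      (h.sm_pt hz.1)
  have h2 : ContDiffAt ℝ ∞ (fun z : ℝ × ℝ => g z.1) z :=
    ContDiffAt.comp z (g := g) (f := Prod.fst) (h.sm_g _ hz.1) contDiffAt_fst
  exact (ContDiffAt.comp z (g := F) (f := fun z : ℝ × ℝ => ((Θ (z.2, g z.1), g z.1) : ℝ × ℝ))
    (hS.contDiffAt hF (h.mem _ hz.1) (h.pos _ hz.1)) (h1.prodMk h2)).contDiffWithinAt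

theorem Chart.sm_pchi (h : Chart S J T g Θ) (hS : Sol S J) :
    ContDiffOn ℝ ∞ (fun z : ℝ × ℝ => pchi S g Θ z.1 z.2) (Ioo 0 T ×ˢ univ) := by
  intro z hz
  have h1 : ContDiffAt ℝ ∞ (fun z : ℝ × ℝ => d1 Θ (z.2, g z.1)) z :=
    ContDiffAt.comp z (g := d1 Θ) (f := fun z : ℝ × ℝ => ((z.2, g z.1) : ℝ × ℝ))
      (Fl.contDiffAt_d1 (h.sm _ _ hz.1)) (h.sm_pt hz.1)
  have h2 : ContDiffAt ℝ ∞ (fun z : ℝ × ℝ => g z.1) z :=
    ContDiffAt.comp z (g := g) (f := Prod.fst) (h.sm_g _ hz.1) contDiffAt_fst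
  have h3 : ContDiffAt ℝ ∞ (fun z : ℝ × ℝ => S.l (g z.1)) z :=
    ContDiffAt.comp z (g := S.l) (f := fun z : ℝ × ℝ => g z.1)
      (hS.sm_l.contDiffAt (hS.time.mem_nhds (h.mem _ hz.1) (h.pos _ hz.1))) h2
  exact (h3.mul h1).contDiffWithinAt

theorem Chart.dr (h : Chart S J T g Θ) (r : ℝ) {s : ℝ} (hs : s ∈ Ioo 0 T) :
    HasDerivAt (fun x => Θ (x, g s)) (d1 Θ (r, g s)) r :=
  (Fl.hasDerivAt_fst ((h.sm r s hs).differentiableAt (by simp))).differentiableAt.hasDerivAt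

theorem Chart.wD_pull (h : Chart S J T g Θ) (hS : Sol S J) (hF : ContDiffOn ℝ ∞ F (univ ×ˢ J))
    {s : ℝ} (hs : s ∈ Ioo 0 T) :
    Geo.wD (pchi S g Θ) (fpull g Θ F) s = fpull g Θ (S.Ds F) s := by
  funext r
  have h1 := (HasDerivAt.comp r (h₂ := fun x => F (x, g s)) (h := fun x => Θ (x, g s))
    (hasDerivAt_d1 hF (Θ (r, g s)) (h.mem s hs)) (h.dr r hs)).deriv
  have h2 : deriv (fpull g Θ F s) r = d1 F (Θ (r, g s), g s) * d1 Θ (r, g s) := h1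
  have h3 := (h.dpos r s hs).ne'
  have h4 := (hS.l_pos _ (h.mem s hs)).ne'
  unfold Geo.wD
  rw [h2]
  unfold fpull pchi Data.Ds
  field_simp

theorem Chart.wD_wD_pull (h : Chart S J T g Θ) (hS : Sol S J)
    (hF : ContDiffOn ℝ ∞ F (univ ×ˢ J)) {s : ℝ} (hs : s ∈ Ioo 0 T) :
    Geo.wD (pchi S g Θ) (Geo.wD (pchi S g Θ) (fpull g Θ F)) s = fpull g Θ (S.Ds (S.Ds F)) s := by
  rw [← h.wD_pull hS (hS.smOn_Ds hF) hs]
  funext r
  unfold Geo.wD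
  rw [← h.wD_pull hS hF hs]
  rfl

theorem Chart.dt_pull (h : Chart S J T g Θ) (hS : Sol S J) (hF : ContDiffOn ℝ ∞ F (univ ×ˢ J))
    {s : ℝ} (hs : s ∈ Ioo 0 T) (r : ℝ) :
    HasDerivAt (fun s => fpull g Θ F s r) (fpull g Θ (S.Dt F) s r) s := by
  have h1 := HasDerivAt.comp s (h₂ := fun t => Θ (r, t)) (h := g) (h.dt r s hs) (h.dg s hs)
  have h2 := Fl.hasDerivAt_curve (F := F) (x := fun s => Θ (r, g s)) (y := g)
    ((hS.contDiffAt hF (p := (Θ (r, g s), g s)) (h.mem s hs) (h.pos s hs)).differentiableAt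
      (by simp)) h1 (h.dg s hs)
  refine HasDerivAt.congr_deriv h2 ?_
  unfold fpull Data.Dt d1 d2
  simp only
  ring

theorem Chart.dt_pchi (h : Chart S J T g Θ) (hS : Sol S J) {s : ℝ} (hs : s ∈ Ioo 0 T) {r : ℝ}
    (hr : r ∈ Ioo 0 π) :
    HasDerivAt (fun s => pchi S g Θ s r) (-(fpull g Θ S.a s r) * pchi S g Θ s r) s := by
  have h1 := HasDerivAt.comp s (h₂ := fun t => d1 Θ (r, t)) (h := g) (h.ddt r s hs) (h.dg s hs)
  have h2 := HasDerivAt.comp s (h₂ := S.l) (h := g)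
    ((hS.sm_l.contDiffAt (hS.time.mem_nhds (h.mem s hs) (h.pos s hs))).differentiableAt
      (by simp)).hasDerivAt (h.dg s hs)
  refine HasDerivAt.congr_deriv (h2.mul h1) ?_
  have h4 := (hS.l_pos _ (h.mem s hs)).ne'
  rw [hS.eq_V _ (h.ioo r hr s hs) _ (h.mem s hs) (h.pos s hs)]
  unfold fpull pchi
  simp only [Function.comp]
  field_simp
  ring

theorem Sol.exists_chart (hS : Sol S J) (hsg : ∀ t ∈ J, 0 ≤ S.sg t) :
    ∃ T > 0, ∃ g Θ, Chart S J T g Θ ∧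
      ∀ s0 < T, ∃ t0 ∈ J, ∀ t ∈ J, t0 ≤ t → ∃ s ∈ Ioo 0 T, s0 < s ∧ g s = t := by
  obtain ⟨T, hT, g, hg, hb⟩ := hS.exists_time hsg
  have hI : IsOpen {t | t ∈ J ∧ 0 < t} := by
    rw [isOpen_iff_mem_nhds]
    intro t ht
    filter_upwards [hS.time.mem_nhds ht.1 ht.2, Ioi_mem_nhds ht.2] with s h1 h2 using ⟨h1, h2⟩
  have hc : {t | t ∈ J ∧ 0 < t}.OrdConnected := ⟨fun x hx y hy z hz =>
    ⟨hS.time.down y hy.1 ⟨hx.2.le.trans hz.1, hz.2⟩, hx.2.trans_le hz.1⟩⟩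
  obtain ⟨t0, ht0, h0⟩ := hS.time.up 0 hS.time.zero_mem
  obtain ⟨Θ, h1, h2, h3, h4, h5, h6, h7⟩ := Fl.exists_flow_odd hI hc (W := fun p => -S.V p)
    (hS.sm_V.neg.mono (prod_mono Subset.rfl fun _ ht => ht.1))
    (fun θ t ht => by simp only [hS.V_odd θ t ht.1])
    (fun θ t ht => by simp only [hS.V_sym θ t ht.1]) (t0 := t0) ⟨ht0, h0⟩
  have hm : ∀ s ∈ Ioo 0 T, g s ∈ {t | t ∈ J ∧ 0 < t} := fun s hs => ⟨(hg s hs).1, (hg s hs).2.1⟩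
  refine ⟨T, hT, g, Θ, ⟨fun s hs => (hg s hs).1, fun s hs => (hg s hs).2.1,
    fun s hs => (hg s hs).2.2.1, fun s hs => (hg s hs).2.2.2,
    fun r s hs => h1.contDiffAt (prod_mem_nhds univ_mem (hI.mem_nhds (hm s hs))),
    fun r s hs => h2 r _ (hm s hs), fun r s hs => h3 r _ (hm s hs),
    fun r s hs => h4 r _ (hm s hs), fun r hr s hs => h5 r hr _ (hm s hs),
    fun r s hs => h6 r _ (hm s hs), fun r s hs => ?_⟩, hb⟩
  have := h7 r _ (hm s hs)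
  rw [deriv.fun_neg] at this
  exact this

theorem Sol.Ds_exp (hS : Sol S J) (θ : ℝ) {t : ℝ} (ht : t ∈ J) :
    S.Ds (fun p => exp (S.u p)) (θ, t) = exp (S.u (θ, t)) * S.β (θ, t) := by
  have h1 := ((hasDerivAt_d1 hS.sm_u θ ht).exp).deriv
  have h2 : d1 (fun p => exp (S.u p)) (θ, t) = exp (S.u (θ, t)) * d1 S.u (θ, t) := h1
  unfold Data.β Data.Ds
  rw [h2]; ring

theorem Sol.Ds_Ds_exp (hS : Sol S J) (θ : ℝ) {t : ℝ} (ht : t ∈ J) :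
    S.Ds (S.Ds fun p => exp (S.u p)) (θ, t) =
      exp (S.u (θ, t)) * (S.Ds S.β (θ, t) + S.β (θ, t) ^ 2) := by
  have h0 : (fun x => S.Ds (fun p => exp (S.u p)) (x, t)) =
      fun x => exp (S.u (x, t)) * S.β (x, t) := funext fun x => hS.Ds_exp x ht
  have h1 := (((hasDerivAt_d1 hS.sm_u θ ht).exp).mul (hasDerivAt_d1 hS.sm_β θ ht)).deriv
  have h2 : d1 (S.Ds fun p => exp (S.u p)) (θ, t) = exp (S.u (θ, t)) * d1 S.u (θ, t) * S.β (θ, t)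
      + exp (S.u (θ, t)) * d1 S.β (θ, t) := by
    rw [← h1]; unfold d1; simp only [h0]; rfl
  have h3 : S.β (θ, t) = d1 S.u (θ, t) / S.l t := rfl
  have h4 : S.Ds S.β (θ, t) = d1 S.β (θ, t) / S.l t := rfl
  have h5 : S.Ds (S.Ds fun p => exp (S.u p)) (θ, t) =
      d1 (S.Ds fun p => exp (S.u p)) (θ, t) / S.l t := rfl
  rw [h5, h2, h4, sq, h3]
  ring

theorem Sol.Dt_exp (hS : Sol S J) (θ : ℝ) {t : ℝ} (ht : t ∈ J) (h0 : 0 < t) :
    S.Dt (fun p => exp (S.u p)) (θ, t) = exp (S.u (θ, t)) * S.Dt S.u (θ, t) := by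
  have h1 := ((hasDerivAt_d1 hS.sm_u θ ht).exp).deriv
  have h2 : d1 (fun p => exp (S.u p)) (θ, t) = exp (S.u (θ, t)) * d1 S.u (θ, t) := h1
  have h3 := ((Fl.hasDerivAt_snd ((hS.contDiffAt hS.sm_u (p := (θ, t)) ht h0).differentiableAt
    (by simp))).differentiableAt.hasDerivAt.exp).deriv
  have h4 : d2 (fun p => exp (S.u p)) (θ, t) = exp (S.u (θ, t)) * d2 S.u (θ, t) := h3
  unfold Data.Dt
  rw [h2, h4]; ring

/-- The block FLOW. -/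
theorem Sol.warped (hS : Sol S J) (hsg : ∀ t ∈ J, 0 ≤ S.sg t) {C : ℝ}
    (hR : ∀ θ ∈ Ioo 0 π, ∀ t ∈ J, |S.R (θ, t)| ≤ C)
    (hu : ∀ ε > 0, ∀ t0 ∈ J, ∃ t ∈ J, t0 ≤ t ∧ exp (S.u (0, t)) < ε) :
    ∃ T chi phi psi, Geo.Warped 2 S.q T chi phi psi := by
  obtain ⟨T, hT, g, Θ, h, hb⟩ := hS.exists_chart hsg
  have hψ : ContDiffOn ℝ ∞ (fun p => exp (S.u p)) (univ ×ˢ J) := hS.sm_u.exp
  have hΘ0 : ∀ s ∈ Ioo 0 T, Θ (0, g s) = 0 := fun s hs => by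
    have := h.odd 0 s hs
    rw [neg_zero] at this
    linarith
  have key : ∀ s ∈ Ioo 0 T, ∀ r ∈ Ioo 0 π, ∃ p : ℝ × ℝ, p = (Θ (r, g s), g s) ∧
      0 < S.φ p ∧ S.φ p ^ 2 * S.kk p = 1 - S.A p ^ 2 ∧ S.φ p * S.vv p = S.β p ∧
      Geo.wD (pchi S g Θ) (fpull g Θ S.φ) s r = S.A p ∧
      Geo.wD (pchi S g Θ) (Geo.wD (pchi S g Θ) (fpull g Θ S.φ)) s r = S.φ p * S.hh p ∧
      Geo.wD (pchi S g Θ) (fpull g Θ fun p => exp (S.u p)) s r = exp (S.u p) * S.β p ∧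
      Geo.wD (pchi S g Θ) (Geo.wD (pchi S g Θ) (fpull g Θ fun p => exp (S.u p))) s r =
        exp (S.u p) * (S.Ds S.β p + S.β p ^ 2) := fun s hs r hr => by
    refine ⟨_, rfl, hS.φ_pos _ (h.ioo r hr s hs) _ (h.mem s hs), hS.kk_eq _ _ (h.mem s hs),
      hS.vv_eq _ _ (h.mem s hs), ?_, ?_, ?_, ?_⟩
    · rw [h.wD_pull hS hS.sm_φ hs]; rfl
    · rw [h.wD_wD_pull hS hS.sm_φ hs, hS.hh_eq _ _ (h.mem s hs)]; rfl
    · rw [h.wD_pull hS hψ hs]; exact hS.Ds_exp _ (h.mem s hs)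
    · rw [h.wD_wD_pull hS hψ hs]; exact hS.Ds_Ds_exp _ (h.mem s hs)
  refine ⟨T, pchi S g Θ, fpull g Θ S.φ, fpull g Θ fun p => exp (S.u p), hT, h.sm_pchi hS,
    h.sm_pull hS hS.sm_φ, h.sm_pull hS hψ, fun s hs r => ?_, fun s hs r => ?_, fun s hs r => ?_,
    fun s hs r => ?_, fun s hs r => ?_, fun s hs r => ?_, fun s hs r => ?_, fun s hs r hr => ?_,
    fun s hs r => exp_pos _, fun s hs => ?_, fun s hs r hr => ?_, fun s hs r hr => ?_,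
    fun s hs r hr => ?_, ⟨C, fun s hs r hr => ?_⟩, fun ε hε s0 hs0 => ?_⟩
  · have h1 : (fun x => Θ (-x, g s)) = fun x => -Θ (x, g s) := funext fun x => h.odd x s hs
    have h2 := deriv_comp_neg (fun x => Θ (x, g s)) r
    rw [h1, deriv.fun_neg, neg_inj] at h2
    unfold pchi d1
    rw [h2]
  · unfold fpull
    rw [h.odd r s hs, hS.φ_odd _ _ (h.mem s hs)]
  · simp only [fpull]
    rw [h.odd r s hs, hS.u_even _ _ (h.mem s hs)]
  · have h1 : (fun x => Θ (π - x, g s)) = fun x => π - Θ (x, g s) := funext fun x => h.sym x s hs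
    have h2 := deriv_comp_const_sub (fun x => Θ (x, g s)) π r
    rw [h1, deriv_const_sub, neg_inj] at h2
    unfold pchi d1
    rw [h2]
  · unfold fpull
    rw [h.sym r s hs, hS.φ_sym _ _ (h.mem s hs)]
  · simp only [fpull]
    rw [h.sym r s hs, hS.u_sym _ _ (h.mem s hs)]
  · exact mul_pos (hS.l_pos _ (h.mem s hs)) (h.dpos r s hs)
  · exact hS.φ_pos _ (h.ioo r hr s hs) _ (h.mem s hs)
  · have h1 := congrFun (h.wD_pull hS hS.sm_φ hs) 0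
    have h2 : fpull g Θ (S.Ds S.φ) s 0 = 1 := by
      unfold fpull
      rw [hΘ0 s hs]
      exact hS.A_zero _ (h.mem s hs)
    rw [h2] at h1
    unfold Geo.wD at h1
    exact (div_eq_one_iff_eq (mul_pos (hS.l_pos _ (h.mem s hs)) (h.dpos 0 s hs)).ne').1 h1
  · obtain ⟨p, hp, h0, -, -, -, e2, -, e4⟩ := key s hs r hr
    refine (h.dt_pchi hS hs hr).congr_deriv ?_
    rw [e2, e4]
    unfold fpull
    rw [← hp]
    unfold Data.a
    have := exp_pos (S.u p)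
    push_cast
    field_simp
    ring
  · obtain ⟨p, hp, h0, hk, hv, e1, e2, e3, -⟩ := key s hs r hr
    refine (h.dt_pull hS hS.sm_φ hs r).congr_deriv ?_
    rw [e1, e2, e3]
    unfold fpull
    rw [hS.eq_φ _ (h.ioo r hr s hs) _ (h.mem s hs) (h.pos s hs), ← hp, ← hv,
      show S.A p ^ 2 - 1 = -(S.φ p ^ 2 * S.kk p) by rw [hk]; ring]
    unfold Data.b
    have := exp_pos (S.u p)
    push_cast
    field_simp
    ring
  · obtain ⟨p, hp, h0, -, hv, e1, -, e3, e4⟩ := key s hs r hr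
    refine (h.dt_pull hS hψ hs r).congr_deriv ?_
    rw [e1, e3, e4]
    unfold fpull
    rw [hS.Dt_exp _ (h.mem s hs) (h.pos s hs),
      hS.eq_u _ (h.ioo r hr s hs) _ (h.mem s hs) (h.pos s hs), ← hp]
    unfold Data.c
    have := exp_pos (S.u p)
    have e5 : exp (-2 * S.u p) = (exp (S.u p) ^ 2)⁻¹ := by
      rw [← exp_nat_mul, ← exp_neg]; congr 1; push_cast; ring
    have e6 : S.vv p = S.β p / S.φ p := by rw [← hv]; field_simp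
    rw [e5, e6]
    push_cast
    field_simp
    ring
  · obtain ⟨p, hp, h0, hk, hv, e1, e2, e3, e4⟩ := key s hs r hr
    refine le_of_eq_of_le (congrArg abs ?_) (hR _ (h.ioo r hr s hs) _ (h.mem s hs))
    unfold Geo.wR
    rw [e1, e2, e3, e4]
    unfold fpull
    rw [← hp, ← hk]
    unfold Data.R Data.a Data.b Data.c
    have := exp_pos (S.u p)
    have e5 : exp (-2 * S.u p) = (exp (S.u p) ^ 2)⁻¹ := by
      rw [← exp_nat_mul, ← exp_neg]; congr 1; push_cast; ring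
    have e6 : S.vv p = S.β p / S.φ p := by rw [← hv]; field_simp
    rw [e5, e6]
    push_cast
    field_simp
    ring
  · obtain ⟨t0, ht0, h1⟩ := hb s0 hs0
    obtain ⟨t, ht, h2, h3⟩ := hu ε hε t0 ht0
    obtain ⟨s, hs, h4, rfl⟩ := h1 t ht h2
    refine ⟨s, hs, h4, ?_⟩
    unfold fpull
    rw [hΘ0 s hs]
    exact h3

end Vale.Agent.P244Z.Q
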